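import Vale.Agent.P097S.CDefs
import Vale.Agent.P097N.Root

/-!
# P097S: continuation along the orbits
-/

set_option linter.all false

noncomputable section

namespace Vale.Agent.P097S

open Filter Topology Set Metric Vale.Agent.P097N

namespace Dyn

/-- one step, at one point -/
theorem loc {Φ : ℂ × ℂ → ℂ} {E : ℝ} {w a b : ℂ} (hw : 0 < ‖w‖) (hΦ : LocE Φ b (8 * ‖w‖) E)
    (ha : ‖b - a - w‖ ≤ ‖w‖ / 16) :
    AnalyticAt ℂ Φ (b, a) ∧ (∀ c ∈ ball (2 * b - a) (‖w‖ / 2), AnalyticAt ℂ Φ (b, c) ∧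
      ‖Φ (b, c) + Φ (b, a) - (c - (2 * b - a))‖ ≤ ‖w‖ / 2 / 8) ∧
      2 * ‖Φ (b, 2 * b - a) + Φ (b, a)‖ ≤ 8 * E * ‖w‖ ^ 4 := by
  obtain ⟨⟨h1, h2⟩, h3⟩ := hΦ
  have key : ∀ c : ℂ, ‖w‖ / 4 ≤ ‖c - b‖ → ‖c - b‖ ≤ 2 * ‖w‖ →
      AnalyticAt ℂ Φ (b, c) ∧ ‖Φ (b, c) - (c - b)‖ ≤ ‖w‖ / 64 := fun c k1 k2 => by
    refine ⟨h1 c (sub_ne_zero.1 (norm_pos_iff.1 (by linarith))) (by linarith),
      (h2 c (by linarith)).trans ?_⟩
    calc ‖c - b‖ ^ 3 / (8 * (8 * ‖w‖) ^ 2) ≤ (2 * ‖w‖) ^ 3 / (8 * (8 * ‖w‖) ^ 2) := by gcongr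
      _ = ‖w‖ / 64 := by field_simp; ring
  have n1 : ∀ (u : ℂ) (δ : ℝ), ‖u - w‖ ≤ δ → ‖w‖ - δ ≤ ‖u‖ ∧ ‖u‖ ≤ ‖w‖ + δ := fun u δ hu => by
    have := abs_le.1 ((abs_norm_sub_norm_le u w).trans hu)
    constructor <;> linarith
  have n2 := n1 (b - a) _ ha
  have ka := key a (by rw [norm_sub_rev]; linarith [n2.1]) (by rw [norm_sub_rev]; linarith [n2.2])
  refine ⟨ka.1, fun c hc => ?_, ?_⟩
  · rw [mem_ball, dist_eq_norm] at hc
    have n3 := n1 (c - b) (9 / 16 * ‖w‖) (by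
      have := norm_add_le (c - (2 * b - a)) (b - a - w)
      rw [show c - (2 * b - a) + (b - a - w) = c - b - w by ring] at this
      linarith)
    have kc := key c (by linarith [n3.1]) (by linarith [n3.2])
    refine ⟨kc.1, ?_⟩
    have := norm_add_le (Φ (b, c) - (c - b)) (Φ (b, a) - (a - b))
    rw [show Φ (b, c) - (c - b) + (Φ (b, a) - (a - b)) =
      Φ (b, c) + Φ (b, a) - (c - (2 * b - a)) by ring] at this
    linarith [kc.2, ka.2]
  · have h4 := h3 (b - a) (by linarith [n2.2])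
    rw [show b + (b - a) = 2 * b - a by ring, show b - (b - a) = a by ring] at h4
    have p0 : 0 < ‖b - a‖ := by linarith [n2.1]
    have E0 : 0 ≤ E := nonneg_of_mul_nonneg_left ((norm_nonneg _).trans h4) (by positivity)
    calc _ ≤ 2 * (E * ‖b - a‖ ^ 4) := by linarith
      _ ≤ 2 * (E * (5 / 4 * ‖w‖) ^ 4) := by
          gcongr
          linarith [n2.2]
      _ = 625 / 128 * (E * ‖w‖ ^ 4) := by ring
      _ ≤ 8 * (E * ‖w‖ ^ 4) := by
          gcongr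
          norm_num
      _ = _ := by ring

/-- the exhaustion -/
def D (W W₀ : Set ℂ) (n : ℂ) (t : ℝ) : Set ℂ := {x | x ∈ W ∧ (x ∈ W₀ ∨ (n * x).re < t)}

/-- the invariant -/
structure Inv (Φ : ℂ × ℂ → ℂ) (W W₀ U : Set ℂ) (w : ℂ) (y₀ : ℂ → ℂ) (P V : ℂ → ℝ) (y : ℂ → ℂ) :
    Prop where
  d : DifferentiableOn ℂ y U
  e : EqOn y y₀ W₀
  p : ∀ x ∈ U, ‖y x - x‖ ≤ P x
  v : ∀ x ∈ U, x - w ∈ W → ‖y x - y (x - w) - w‖ ≤ V x
  l : ∀ x ∈ W, x - w ∈ W → x + w ∈ U → Φ (y x, y (x + w)) + Φ (y x, y (x - w)) = 0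

theorem isOpen_re (n : ℂ) (t : ℝ) : IsOpen {x : ℂ | (n * x).re < t} :=
  isOpen_lt (by fun_prop) continuous_const

theorem step {Φ : ℂ × ℂ → ℂ} {W W₀ : Set ℂ} {w n : ℂ} {t : ℝ} {y₀ y : ℂ → ℂ} {P V E : ℂ → ℝ}
    (w0 : w ≠ 0) (oW : IsOpen W) (oW₀ : IsOpen W₀) (sub : W₀ ⊆ W) (hn : (n * w).re = 1)
    (back : ∀ x ∈ W₀, x - w ∈ W → x - w ∈ W₀)
    (sup : ∀ x ∈ W, x ∉ W₀ → x - w ∈ W ∧ x - 2 * w ∈ W ∧
      V (x - w) + 8 * E (x - w) * ‖w‖ ^ 4 ≤ V x ∧ P (x - w) + V x ≤ P x)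
    (calm : ∀ x ∈ W, V x ≤ ‖w‖ / 16 ∧ ∀ b : ℂ, ‖b - x‖ ≤ P x → LocE Φ b (8 * ‖w‖) (E x))
    (H : Inv Φ W W₀ (D W W₀ n t) w y₀ P V y) :
    ∃ y', Inv Φ W W₀ (D W W₀ n (t + 1)) w y₀ P V y' := by
  have o0 : 0 < ‖w‖ := norm_pos_iff.2 w0
  have re1 : ∀ x : ℂ, (n * (x - w)).re = (n * x).re - 1 := fun x => by
    rw [mul_sub, Complex.sub_re, hn]
  have oD : IsOpen (D W W₀ n t) := oW.inter (oW₀.union (isOpen_re n t))
  have bk : ∀ x ∈ D W W₀ n t, x - w ∈ W → x - w ∈ D W W₀ n t := fun x hx h =>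
    ⟨h, hx.2.imp (fun k => back x k h) fun k => by rw [re1]; linarith⟩
  let X : Set ℂ := {x | x ∈ W ∧ (n * x).re < t + 1 ∧ x - w ∈ W ∧ x - w - w ∈ W}
  have oX : IsOpen X := oW.inter ((isOpen_re n (t + 1)).inter
    ((oW.preimage (f := fun x => x - w) (by fun_prop)).inter
      (oW.preimage (f := fun x => x - w - w) (by fun_prop))))
  have m1 : ∀ x ∈ X, x - w ∈ D W W₀ n t := fun x hx =>
    ⟨hx.2.2.1, Or.inr (by rw [re1]; linarith [hx.2.1])⟩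
  have m2 : ∀ x ∈ X, x - w - w ∈ D W W₀ n t := fun x hx => bk _ (m1 x hx) hx.2.2.2
  have b0 : ∀ x ∈ X, ‖y (x - w) - y (x - w - w) - w‖ ≤ V (x - w) := fun x hx =>
    H.v _ (m1 x hx) hx.2.2.2
  have b1 : ∀ x ∈ X, ‖y (x - w) - y (x - w - w) - w‖ ≤ ‖w‖ / 16 := fun x hx =>
    (b0 x hx).trans (calm _ hx.2.2.1).1
  have L := fun x (hx : x ∈ X) => loc o0 ((calm _ hx.2.2.1).2 _ (H.p _ (m1 x hx))) (b1 x hx)
  obtain ⟨c, hcd, hc'⟩ := sroot Φ X (fun x => y (x - w - w)) (fun x => y (x - w)) (‖w‖ / 2)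
    oX (by linarith) (H.d.comp (by fun_prop) m2) (H.d.comp (by fun_prop) m1)
    (fun x hx => (L x hx).1) fun x hx => (L x hx).2.1
  have ov : ∀ x ∈ X, x ∈ D W W₀ n t → y x = c x := fun x hx hx' => by
    refine (hc' x hx).2.2.2 _ ?_ (by
      simpa only [sub_add_cancel] using H.l (x - w) hx.2.2.1 hx.2.2.2 (by rwa [sub_add_cancel]))
    have := norm_sub_le (y x - y (x - w) - w) (y (x - w) - y (x - w - w) - w)
    rw [show y x - y (x - w) - w - (y (x - w) - y (x - w - w) - w) =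
      y x - (2 * y (x - w) - y (x - w - w)) by ring] at this
    linarith [b1 x hx, (H.v x hx' hx.2.2.1).trans (calm x hx.1).1]
  have n0 : ∀ x ∈ D W W₀ n (t + 1), x ∉ D W W₀ n t → x ∉ W₀ := fun x hx hx' k =>
    hx' ⟨hx.1, Or.inl k⟩
  have cov : ∀ x ∈ D W W₀ n (t + 1), x ∉ D W W₀ n t → x ∈ X := fun x hx hx' => by
    obtain ⟨k1, k2, -⟩ := sup x hx.1 (n0 x hx hx')
    exact ⟨hx.1, hx.2.resolve_left (n0 x hx hx'), k1, by rwa [sub_sub, ← two_mul]⟩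
  have nB : ∀ x ∈ X, x ∉ W₀ → ‖c x - y (x - w) - w‖ ≤ V x := fun x hx h0 => by
    have h1 := (hc' x hx).2.2.1.trans (L x hx).2.2
    have := norm_add_le (c x - (2 * y (x - w) - y (x - w - w))) (y (x - w) - y (x - w - w) - w)
    rw [show c x - (2 * y (x - w) - y (x - w - w)) + (y (x - w) - y (x - w - w) - w) =
      c x - y (x - w) - w by ring] at this
    linarith [b0 x hx, (sup x hx.1 h0).2.2.1]
  classical
  let z : ℂ → ℂ := fun x => if x ∈ D W W₀ n t then y x else c x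
  have e1 : ∀ x ∈ D W W₀ n t, z x = y x := fun x hx => if_pos hx
  have e2 : ∀ x ∈ X, z x = c x := fun x hx => by
    by_cases h : x ∈ D W W₀ n t
    exacts [(e1 x h).trans (ov x hx h), if_neg h]
  refine ⟨z, fun x hx => ?_, fun x hx => ?_, fun x hx => ?_, fun x hx hx' => ?_,
    fun x hx hx' hx'' => ?_⟩
  · by_cases h : x ∈ D W W₀ n t
    · exact ((H.d.differentiableAt (oD.mem_nhds h)).congr_of_eventuallyEq
        (eventually_of_mem (oD.mem_nhds h) e1)).differentiableWithinAt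
    · have m := oX.mem_nhds (cov x hx h)
      exact ((hcd.differentiableAt m).congr_of_eventuallyEq
        (eventually_of_mem m e2)).differentiableWithinAt
  · exact (e1 x ⟨sub hx, Or.inl hx⟩).trans (H.e hx)
  · by_cases h : x ∈ D W W₀ n t
    · rw [e1 x h]
      exact H.p x h
    · have m := cov x hx h
      have := norm_add_le (c x - y (x - w) - w) (y (x - w) - (x - w))
      rw [show c x - y (x - w) - w + (y (x - w) - (x - w)) = c x - x by ring] at this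
      rw [e2 x m]
      linarith [nB x m (n0 x hx h), H.p _ (m1 x m), (sup x hx.1 (n0 x hx h)).2.2.2]
  · by_cases h : x ∈ D W W₀ n t
    · rw [e1 x h, e1 _ (bk x h hx')]
      exact H.v x h hx'
    · have m := cov x hx h
      rw [e2 x m, e1 _ (m1 x m)]
      exact nB x m (n0 x hx h)
  · by_cases h : x + w ∈ D W W₀ n t
    · have k1 : x ∈ D W W₀ n t := by
        simpa only [add_sub_cancel_right] using bk _ h (by rwa [add_sub_cancel_right])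
      rw [e1 _ h, e1 x k1, e1 _ (bk x k1 hx')]
      exact H.l x hx hx' h
    · have m := cov _ hx'' h
      have k1 := m1 _ m
      have k2 := m2 _ m
      have k3 := (hc' _ m).1
      simp only [add_sub_cancel_right] at k1 k2 k3
      rw [e2 _ m, e1 x k1, e1 _ k2]
      exact k3

end Dyn

theorem dyn : DYN := by
  intro Φ W W₀ w n t₀ t₁ y₀ P V E w0 oW oW₀ sub hn top bot back sup calm d0 p0 v0 l0
  have ind : ∀ k : ℕ, ∃ y, Dyn.Inv Φ W W₀ (Dyn.D W W₀ n (t₀ + k)) w y₀ P V y := by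
    intro k
    induction k with
    | zero =>
      have e : ∀ x ∈ Dyn.D W W₀ n (t₀ + (0 : ℕ)), x ∈ W₀ := fun x hx =>
        hx.2.elim id fun h => bot x hx.1 (by simpa using h)
      refine ⟨y₀, d0.mono e, fun x _ => rfl, fun x hx => p0 x (e x hx),
        fun x hx h => v0 x (e x hx) (back x (e x hx) h), fun x hx h1 h2 => ?_⟩
      have k1 : x ∈ W₀ := by
        simpa only [add_sub_cancel_right] using back _ (e _ h2) (by rwa [add_sub_cancel_right])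
      exact l0 x k1 (back x k1 h1) (e _ h2)
    | succ k ih =>
      obtain ⟨y, hy⟩ := ih
      rw [Nat.cast_succ, ← add_assoc]
      exact Dyn.step w0 oW oW₀ sub hn back sup calm hy
  obtain ⟨k, hk⟩ := exists_nat_ge (t₁ - t₀)
  obtain ⟨y, hy⟩ := ind k
  have e : ∀ x ∈ W, x ∈ Dyn.D W W₀ n (t₀ + k) := fun x hx =>
    ⟨hx, Or.inr (by linarith [top x hx])⟩
  exact ⟨y, hy.d.mono e, hy.e, fun x hx => hy.p x (e x hx), fun x hx => hy.v x (e x hx),
    fun x hx h1 h2 => hy.l x hx h1 (e _ h2)⟩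

end Vale.Agent.P097S
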