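import Vale.Agent.P097S.CDefs
import Vale.Agent.P097N.Col
import Vale.Agent.P097E.B2Ev

/-!
# P097S: the curve gives the data of the cone baseline
-/

set_option linter.all false

noncomputable section

namespace Vale.Agent.P097S

open Filter Topology Set Metric Vale.Agent.P097N

namespace Env

/-- the local estimate from bounds on a disc -/
theorem locE {θ h Q : ℂ → ℂ} {c : ℂ} {U : Set ℂ} (V : Cv θ h Q c U) {b : ℂ} {D M ρ : ℝ}
    (hU : ball b D ⊆ U) (hg : ∀ y ∈ ball b D, ‖deriv θ y ^ 2‖ ≤ M ∧ ‖Q y‖ ≤ M) (ρ0 : 0 < ρ)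
    (hρ : ρ ≤ D / 2) (hs : 192 * M * ρ ^ 2 ≤ 1) :
    LocE (Ph θ h) b ρ (168 * M / D) ∧ ∀ b', b' ≠ b → ‖b' - b‖ < ρ → k1 θ h b b' ≠ 0 := by
  obtain ⟨K1, K2⟩ := sk θ h Q c _ V
  have D0 : 0 < D := by linarith
  have M0 : 0 ≤ M := (norm_nonneg _).trans (hg b (mem_ball_self D0)).2
  have sb : ∀ z ∈ ball b (D / 2), closedBall z (D / 2) ⊆ ball b D := by
    intro z hz y hy
    rw [mem_closedBall] at hy
    rw [mem_ball] at hz ⊢
    linarith [dist_triangle y z b]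
  have s0 : ball b (D / 2) ⊆ ball b D := ball_subset_ball (by linarith)
  have cau : ∀ {f : ℂ → ℂ} {B : ℝ}, DifferentiableOn ℂ f U →
      (∀ y ∈ ball b D, ‖f y‖ ≤ B) → ∀ z ∈ ball b (D / 2), ‖deriv f z‖ ≤ B / (D / 2) := by
    intro f B hf hM z hz
    refine Complex.norm_deriv_le_of_forall_mem_sphere_norm_le (by positivity) ?_
      fun y hy => hM y (sb z hz (sphere_subset_closedBall hy))
    refine DifferentiableOn.diffContOnCl ?_
    rw [closure_ball _ (by positivity)]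
    exact hf.mono fun y hy => hU (sb z hz hy)
  have dg := V.dθ.deriv V.op
  have dP : DifferentiableOn ℂ (fun y => Q y - deriv θ y ^ 2) U := V.dQ.sub (dg.pow 2)
  have bP : ∀ y ∈ ball b D, ‖Q y - deriv θ y ^ 2‖ ≤ 2 * M := fun y hy =>
    (norm_sub_le _ _).trans (by linarith [(hg y hy).1, (hg y hy).2])
  have b2 : ∀ z ∈ ball b (D / 2), ‖Q z - deriv θ z ^ 2‖ ≤ 2 * M ∧
      ‖3 * deriv θ z * deriv (deriv θ) z‖ ≤ 3 * M / D := by
    intro z hz
    refine ⟨bP z (s0 hz), ?_⟩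
    have z1 := cau (f := fun y => deriv θ y ^ 2) (dg.pow 2) (fun y hy => (hg y hy).1) z hz
    have z2 : deriv (fun y => deriv θ y ^ 2) z = 2 * (deriv θ z * deriv (deriv θ) z) := by
      have := ((dg.differentiableAt (V.op.mem_nhds (hU (s0 hz)))).hasDerivAt.fun_pow 2).deriv
      rw [this]
      simp only [Nat.cast_ofNat, Nat.add_one_sub_one, pow_one]
      ring
    rw [z2, norm_mul, Complex.norm_two] at z1
    rw [mul_assoc, norm_mul, Complex.norm_ofNat]
    have e : M / (D / 2) = 2 * (M / D) := by field_simp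
    have e' : 3 * M / D = 3 * (M / D) := by ring
    rw [e] at z1
    rw [e']
    linarith
  have b3 : ∀ z ∈ ball b (D / 2), ∀ z' ∈ ball b (D / 2),
      ‖Q z - deriv θ z ^ 2 - (Q z' - deriv θ z' ^ 2)‖ ≤ 4 * M / D * ‖z - z'‖ := by
    intro z hz z' hz'
    have e : 4 * M / D = 2 * M / (D / 2) := by field_simp; ring
    rw [e]
    exact (convex_ball b (D / 2)).norm_image_sub_le_of_norm_deriv_le
      (f := fun y => Q y - deriv θ y ^ 2)
      (fun y hy => dP.differentiableAt (V.op.mem_nhds (hU (s0 hy)))) (cau dP bP) hz' hz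
  have num : ∀ L : ℝ, 0 ≤ L → L < ρ → 2 * M * L ^ 2 ≤ L ^ 2 / (96 * ρ ^ 2) ∧
      3 * M / D * L ^ 3 ≤ L ^ 2 / (96 * ρ ^ 2) ∧ L ^ 2 / (96 * ρ ^ 2) ≤ 1 / 12 := by
    intro L L0 hL
    have n1 : 2 * M * L ^ 2 ≤ L ^ 2 / (96 * ρ ^ 2) := by
      rw [le_div_iff₀ (by positivity)]
      nlinarith [mul_le_mul_of_nonneg_left hs (sq_nonneg L)]
    refine ⟨n1, le_trans ?_ n1, ?_⟩
    · have t1 : L / D ≤ 1 / 2 := by
        rw [div_le_iff₀ D0]
        linarith
      have e : 3 * M / D * L ^ 3 = 3 * (M * L ^ 2) * (L / D) := by ring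
      have t2 : 0 ≤ M * L ^ 2 := by positivity
      rw [e]
      nlinarith
    · rw [div_le_iff₀ (by positivity)]
      nlinarith
  have key : ∀ b' : ℂ, ‖b' - b‖ < ρ → b' ∈ U ∧
      ‖Ph θ h (b, b') - (b' - b)‖ ≤ ‖b' - b‖ ^ 3 / (8 * ρ ^ 2) ∧ (b ≠ b' → k1 θ h b b' ≠ 0) := by
    intro b' hb'
    obtain ⟨n2, n3, n4⟩ := num _ (norm_nonneg _) hb'
    have m : b' ∈ ball b (D / 2) := by
      rw [mem_ball, dist_eq_norm]
      linarith
    have sg : segment ℝ b' b ⊆ ball b (D / 2) :=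
      (convex_ball b _).segment_subset m (mem_ball_self (by positivity))
    obtain ⟨a1, a2⟩ := K2 b b' _ _ _ (sg.trans (s0.trans hU)) (fun z hz => b2 z (sg hz))
      (by rw [norm_sub_rev]; exact n2) (by rw [norm_sub_rev]; exact n3) n4
    refine ⟨hU (s0 m), a1.trans_eq ?_, a2⟩
    field_simp
    ring
  refine ⟨⟨⟨fun b' ne hb' => ?_, fun b' hb' => (key b' hb').2.1⟩, fun s hs' => ?_⟩,
    fun b' ne hb' => (key b' hb').2.2 ne.symm⟩
  · obtain ⟨a, -, k⟩ := key b' hb'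
    exact (K1 b (hU (mem_ball_self D0)) b' a).2.2 (k ne.symm)
  · obtain ⟨n2, n3, n4⟩ := num _ (norm_nonneg _) hs'
    exact (P097E.B2.even V (s0.trans hU) (hs'.trans_le hρ) b2 b3 (by positivity) n2 n3 n4).trans_eq
      (by ring)

theorem om_pos {A d τ : ℝ} (hA : 0 < A) (hd : 0 < d) (hτ : 0 < τ) : 0 < om A d τ := by
  unfold om
  positivity

theorem om_anti {A d τ τ' : ℝ} (hd : 0 < d) (hτ : 0 < τ) (h : τ ≤ τ') :
    om A d τ' ≤ om A d τ := by
  have h' : 0 < τ' := hτ.trans_le h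
  unfold om
  gcongr

theorem om_sq {A d τ : ℝ} (hd : 0 < d) (hτ : 0 < τ) :
    om A d τ ^ 2 * (τ ^ 3 * d) = A ^ 4 := by
  unfold om
  rw [div_pow, mul_pow, Real.sq_sqrt (by positivity)]
  field_simp

/-- from the cone bound at depth `σ ≥ 7 τ / 8` -/
theorem le_om {A d τ σ u : ℝ} (hA : 0 < A) (hd : 0 < d) (hτ : 0 < τ) (hσ : 7 / 8 * τ ≤ σ)
    (h : (u * σ ^ 2) ^ 2 * d ≤ A ^ 4 * σ) : u ≤ 2 * om A d τ := by
  have σ0 : 0 < σ := by linarith
  have o := om_pos hA hd hτ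
  have e := om_sq (A := A) hd hτ
  refine le_of_pow_le_pow_left₀ two_ne_zero (by positivity) ?_
  have h1 : u ^ 2 * (σ ^ 3 * d) ≤ A ^ 4 := by
    have : u ^ 2 * (σ ^ 3 * d) * σ ≤ A ^ 4 * σ := by
      refine le_of_eq_of_le ?_ h
      ring
    exact le_of_mul_le_mul_right this σ0
  have h2 : (7 / 8 * τ) ^ 3 * d ≤ σ ^ 3 * d := by gcongr
  have h3 := mul_le_mul_of_nonneg_left h2 (sq_nonneg u)
  have h4 : 0 < τ ^ 3 * d := by positivity
  refine le_of_mul_le_mul_right ?_ h4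
  have h5 : 0 ≤ u ^ 2 * (τ ^ 3 * d) := by positivity
  nlinarith

/-- discs round points near the small cone lie in the large cone -/
theorem geo {r κ s a d T e : ℝ} {x y : ℂ} (a1 : a ≤ 1) (hd : 0 < d) (hT : 3 * d ≤ T)
    (κ0 : 0 < κ) (e0 : 0 < e) (ea : e ≤ a / 16) (er : e * r ≤ κ / 16)
    (hx : x ∈ Cn r s (a / 2) T (κ / 4)) (hy : ‖y - x‖ < 2 * e * (r - x.im)) :
    y ∈ Cn r s a d 0 ∧ y ∈ St r ∧ 7 / 8 * (r - x.im) ≤ r - y.im := by
  obtain ⟨x1, x2, x3⟩ := hx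
  have h1 := abs_le.1 (Complex.abs_im_le_norm (y - x))
  have h2 := Complex.abs_re_le_norm (y - x)
  rw [Complex.sub_im] at h1
  rw [Complex.sub_re] at h2
  obtain ⟨τ, hτ⟩ : ∃ τ, τ = r - x.im := ⟨_, rfl⟩
  rw [← hτ] at x2 x3 hy ⊢
  have τ0 : 0 < τ := by linarith
  have p1 : e * τ ≤ a / 16 * τ := mul_le_mul_of_nonneg_right ea τ0.le
  have p2 : e * τ ≤ e * r := mul_le_mul_of_nonneg_left (by linarith) e0.le
  have p3 : a * τ ≤ 1 * τ := mul_le_mul_of_nonneg_right a1 τ0.le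
  have q1 : 7 / 8 * τ ≤ r - y.im := by linarith [h1.2]
  have q2 : 0 < y.im := by linarith [h1.1]
  have a0 : 0 < a := by linarith
  have p4 : a * (7 / 8 * τ) ≤ a * (r - y.im) := mul_le_mul_of_nonneg_left q1 a0.le
  have p5 : 0 < a * τ := mul_pos a0 τ0
  refine ⟨⟨q2, by linarith, ?_⟩, ?_, q1⟩
  · have := abs_add_le (y.re - x.re) (x.re - s)
    rw [show y.re - x.re + (x.re - s) = y.re - s by ring] at this
    linarith
  · show |y.im| < r
    rw [abs_of_pos q2]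
    linarith

end Env

open Env

theorem env : ENV := by
  intro θ h Q Y c r κ D a a0 a1
  have κ0 : 0 < κ := D.col.hη
  have r0 : 0 < r := by linarith [D.kr]
  obtain ⟨C₀, C0, hC⟩ := scol Y κ κ κ D.col
  obtain ⟨e, e0, ea, er⟩ : ∃ e : ℝ, 0 < e ∧ e ≤ a / 16 ∧ e * r ≤ κ / 16 := by
    refine ⟨min (a / 16) (κ / 16 / r), by positivity, min_le_left _ _, ?_⟩
    rw [← le_div_iff₀ r0]
    exact min_le_right _ _
  obtain ⟨m, m0, me, m1⟩ : ∃ m : ℝ, 0 < m ∧ m ≤ e / 16 ∧ m ≤ 1 / 24576 :=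
    ⟨min (e / 16) (1 / 24576), by positivity, min_le_left _ _, min_le_right _ _⟩
  have E1 : 1 ≤ 336 / e := by
    rw [le_div_iff₀ e0]
    linarith
  refine ⟨e, 336 / e, C₀, m, e0, by linarith, E1, C0, m0, fun s d A hd hA hK w T hT S => ?_⟩
  have A0 : 0 < A := by linarith
  have T0 : 0 < T := by linarith
  have w0 : 0 < ‖w‖ := norm_pos_iff.2 S.w0
  have wb : w ∈ ball (0 : ℂ) κ := by
    rw [mem_ball_zero_iff]
    have := mul_le_mul_of_nonneg_right m1 κ0.le
    linarith [S.k]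
  have main : ∀ x ∈ Cn r s (a / 2) T (κ / 4), ∀ b : ℂ, ‖b - x‖ ≤ e * (r - x.im) →
      LocE (Ph θ h) b (8 * ‖w‖) (336 / e * om A d (r - x.im) / (r - x.im)) ∧
        ∀ b', b' ≠ b → ‖b' - b‖ < 8 * ‖w‖ → k1 θ h b b' ≠ 0 := by
    intro x hx b hb
    have xT : T < r - x.im := hx.2.1
    have τ0 : 0 < r - x.im := by linarith
    have g : ∀ y ∈ ball b (e * (r - x.im)),
        y ∈ Cn r s a d 0 ∧ y ∈ St r ∧ 7 / 8 * (r - x.im) ≤ r - y.im := fun y hy => by
      refine geo a1 hd hT κ0 e0 ea er hx ?_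
      rw [mem_ball, dist_eq_norm] at hy
      have := norm_add_le (y - b) (b - x)
      rw [show y - b + (b - x) = y - x by ring] at this
      linarith
    have k := locE D.cv (b := b) (D := e * (r - x.im)) (M := 2 * om A d (r - x.im))
      (ρ := 8 * ‖w‖) (fun y hy => (g y hy).2.1)
      (fun y hy => by
        obtain ⟨y1, -, y3⟩ := g y hy
        obtain ⟨k1, k2⟩ := hK y y1
        refine ⟨le_om A0 hd τ0 y3 (le_of_eq_of_le ?_ k1), le_om A0 hd τ0 y3 k2⟩
        rw [norm_pow]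
        ring)
      (by positivity)
      (by
        have t1 := mul_le_mul_of_nonneg_right me T0.le
        have t2 := mul_le_mul_of_nonneg_left xT.le e0.le
        linarith [S.t])
      (by
        have t1 := om_anti (A := A) hd T0 xT.le
        have t2 := om_pos A0 hd T0
        have t3 := mul_le_mul_of_nonneg_left t1 (sq_nonneg ‖w‖)
        have t4 := mul_le_mul_of_nonneg_right E1 (show 0 ≤ ‖w‖ ^ 2 * om A d T by positivity)
        have t5 := S.e
        nlinarith)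
    rwa [show 168 * (2 * om A d (r - x.im)) / (e * (r - x.im)) =
      336 / e * om A d (r - x.im) / (r - x.im) by field_simp; ring] at k
  obtain ⟨hp, hv⟩ := hC w wb
  have sub : St (κ / 2) ⊆ St κ := fun x hx => by
    have h1 : |x.im| < κ / 2 := hx
    show |x.im| < κ
    linarith
  have hv' : ∀ x ∈ St (κ / 2), x + w ∈ St (κ / 2) →
      ‖Y (x + w, w) - Y (x, w) - w‖ ≤ C₀ * ‖w‖ ^ 3 := fun x hx hx' => by
    have := hv (x + w) hx' (by rwa [add_sub_cancel_right])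
    rwa [add_sub_cancel_right] at this
  refine ⟨fun x hx b hb => (main x hx b hb).1, ?_, hp, hv', fun x hx h1 h2 h3 => ?_⟩
  · exact D.col.d.comp (differentiable_id.prodMk (differentiable_const w)).differentiableOn
      fun x hx => ⟨hx, wb⟩
  · have xT : T < r - x.im := hx.2.1
    have c1 : 0 ≤ C₀ * ‖w‖ ^ 2 := by positivity
    have hb : ‖Y (x, w) - x‖ ≤ e * (r - x.im) := by
      have t1 := mul_le_mul_of_nonneg_right me T0.le
      have t2 := mul_le_mul_of_nonneg_left xT.le e0.le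
      have t3 := mul_nonneg c1 r0.le
      have t4 := mul_pos e0 T0
      linarith [hp x (sub h2), S.ct]
    have c3 : C₀ * ‖w‖ ^ 3 ≤ ‖w‖ / 2 := by
      have := mul_le_mul_of_nonneg_right (S.c.trans m1) w0.le
      nlinarith
    have near : ∀ z : ℂ, ‖z - w‖ ≤ ‖w‖ / 2 → z ≠ 0 ∧ ‖z‖ < 8 * ‖w‖ := fun z hz => by
      refine ⟨?_, ?_⟩
      · rintro rfl
        rw [zero_sub, norm_neg] at hz
        linarith
      · have := norm_add_le (z - w) w
        rw [sub_add_cancel] at this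
        linarith
    obtain ⟨n1, n2⟩ := near _ ((hv' x h2 h3).trans c3)
    obtain ⟨n3, n4⟩ := near _ ((hv x h2 h1).trans c3)
    have k1 := (main x hx _ hb).2 _ (sub_ne_zero.1 n1) n2
    have k2 := (main x hx _ hb).2 _ (sub_ne_zero.1 n3).symm (by rwa [norm_sub_rev])
    have l := D.law x (sub h2) w wb (sub h1) (sub h3)
    unfold EE at l
    simp only [Ph]
    field_simp
    linear_combination -2 * l

end Vale.Agent.P097S
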