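import Vale.Agent.P097S.CDefs
import Vale.Agent.P097N.Col
import Vale.Agent.P097N.K
import Vale.Agent.P097.H407.Hol

/-!
# P097S: the chart over the cone (row FIN)
-/

set_option linter.all false

noncomputable section

namespace Vale.Agent.P097S

open Filter Topology Set Metric Vale.Agent.P097N

namespace FinL

theorem cn_open (r s a d b : ℝ) : IsOpen (Cn r s a d b) := by
  refine IsOpen.and ?_ (IsOpen.and ?_ ?_) <;> exact isOpen_lt (by fun_prop) (by fun_prop)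

theorem cn_convex (r s a d b : ℝ) : Convex ℝ (Cn r s a d b) := by
  rintro x ⟨x1, x2, x3⟩ y ⟨y1, y2, y3⟩ p q hp hq e
  obtain rfl : q = 1 - p := by linarith
  rw [abs_lt] at x3 y3
  have k : ∀ u v : ℝ, 0 < u → 0 < v → 0 < p * u + (1 - p) * v := fun u v hu hv => by
    rcases hp.eq_or_lt with h | h
    · rw [← h]; linarith
    · exact add_pos_of_pos_of_nonneg (mul_pos h hu) (mul_nonneg hq hv.le)
  have k1 := k _ _ (sub_pos.2 x1) (sub_pos.2 y1)
  have k2 := k _ _ (sub_pos.2 x2) (sub_pos.2 y2)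
  have k3 := k _ _ (sub_pos.2 x3.1) (sub_pos.2 y3.1)
  have k4 := k _ _ (sub_pos.2 x3.2) (sub_pos.2 y3.2)
  refine ⟨?_, ?_, abs_lt.2 ⟨?_, ?_⟩⟩ <;>
    simp only [Complex.add_im, Complex.add_re, Complex.smul_im, Complex.smul_re, smul_eq_mul] <;>
    linarith

theorem down {r s a d b t : ℝ} {y : ℂ} (ha : 0 ≤ a) (hy : y ∈ Cn r s a d b) (ht : 0 ≤ t)
    (h : b < y.im - t) : y - t * Complex.I ∈ Cn r s a d b := by
  obtain ⟨-, y2, y3⟩ := hy
  have := mul_nonneg ha ht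
  refine ⟨?_, ?_, ?_⟩ <;> simp <;> linarith

theorem ident {V W : Set ℂ} (o : IsOpen V) (c : Convex ℝ V) {f g : ℂ → ℂ}
    (hf : DifferentiableOn ℂ f V) (hg : DifferentiableOn ℂ g V) (oW : IsOpen W) {x₀ : ℂ}
    (h0 : x₀ ∈ V) (h1 : x₀ ∈ W) (e : ∀ x ∈ V, x ∈ W → f x = g x) : EqOn f g V :=
  (hf.analyticOnNhd o).eqOn_of_preconnected_of_eventuallyEq (hg.analyticOnNhd o)
    c.isPreconnected h0 (by
      filter_upwards [(o.inter oW).mem_nhds ⟨h0, h1⟩] with x hx using e x hx.1 hx.2)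

theorem EE_diff {θ h Q : ℂ → ℂ} {c : ℂ} {U V : Set ℂ} (C : Cv θ h Q c U) {f₁ f₂ f₃ : ℂ → ℂ}
    (d₁ : DifferentiableOn ℂ f₁ V) (d₂ : DifferentiableOn ℂ f₂ V) (d₃ : DifferentiableOn ℂ f₃ V)
    (m₁ : ∀ x ∈ V, f₁ x ∈ U) (m₂ : ∀ x ∈ V, f₂ x ∈ U) (m₃ : ∀ x ∈ V, f₃ x ∈ U) :
    DifferentiableOn ℂ (fun x => EE θ h (f₁ x) (f₂ x) (f₃ x)) V := by
  have S := (sk θ h Q c U C).1
  have k : ∀ {f g : ℂ → ℂ}, DifferentiableOn ℂ f V → DifferentiableOn ℂ g V → (∀ x ∈ V, f x ∈ U) →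
      (∀ x ∈ V, g x ∈ U) → DifferentiableOn ℂ (fun x => kk θ h (f x) (g x)) V ∧
        DifferentiableOn ℂ (fun x => k1 θ h (f x) (g x)) V := by
    intro f g hf hg mf mg
    refine ⟨fun x hx => ?_, fun x hx => ?_⟩
    · exact (S _ (mf x hx) _ (mg x hx)).1.differentiableAt.comp_differentiableWithinAt
        (f := fun x => (f x, g x)) x ((hf x hx).prodMk (hg x hx))
    · exact (S _ (mf x hx) _ (mg x hx)).2.1.differentiableAt.comp_differentiableWithinAt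
        (f := fun x => (f x, g x)) x ((hf x hx).prodMk (hg x hx))
  exact ((k d₂ d₃ m₂ m₃).1.mul (k d₂ d₁ m₂ m₁).2).add ((k d₂ d₁ m₂ m₁).1.mul (k d₂ d₃ m₂ m₃).2)

theorem chart (hJ : JOINT) {θ h Q : ℂ → ℂ} {Y Z : ℂ × ℂ → ℂ} {c : ℂ} {r κ s a d ε ρ l : ℝ}
    (D : Dt θ h Q Y c r κ) (a1 : a ≤ 1) (d0 : 0 < d) (ε0 : 0 < ε) (ε1 : ε ≤ 1 / 8) (ρ0 : 0 < ρ)
    (ρκ : ρ ≤ κ) (l0 : 0 < l) (la : 8 * l ≤ a) (lr : 8 * l * r ≤ κ) (z0 : ∀ x, Z (x, 0) = x)
    (hZ : ∀ w ∈ ball (0 : ℂ) ρ, DifferentiableOn ℂ (fun x => Z (x, w)) (Cn r s a d (κ / 4)) ∧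
      ∀ x ∈ Cn r s a d (κ / 4), (x.im < κ / 2 → Z (x, w) = Y (x, w)) ∧
        ‖Z (x, w) - x‖ ≤ ε * (r - x.im)) : Ch θ h Y r κ s a d (l * ρ) Z := by
  have κ0 := D.col.hη
  have kr := D.kr
  have o := cn_open r s a d (κ / 4)
  have cv := cn_convex r s a d (κ / 4)
  have oW : IsOpen {x : ℂ | x.im < κ / 2} := isOpen_lt (by fun_prop) continuous_const
  have lρ : l * ρ ≤ κ / 8 := by nlinarith
  have sub : ball (0 : ℂ) (l * ρ) ⊆ ball 0 ρ := ball_subset_ball (by nlinarith)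
  have subκ : ball (0 : ℂ) ρ ⊆ ball 0 κ := ball_subset_ball ρκ
  have st : ∀ x ∈ Cn r s a d (κ / 4), x.im < κ / 2 → x ∈ St κ := fun x hx h =>
    show |x.im| < κ from abs_lt.2 ⟨by linarith [hx.1], by linarith⟩
  have low : ∀ x ∈ Cn r s a d (κ / 4), ∃ t : ℝ, 0 ≤ t ∧ x.im - t ≤ 3 * κ / 8 ∧
      ∀ y ∈ Cn r s a d (κ / 4), |y.im - x.im| < κ / 8 → y - t * Complex.I ∈ Cn r s a d (κ / 4) := by
    intro x hx
    refine ⟨max 0 (x.im - 3 * κ / 8), le_max_left _ _,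
      by linarith [le_max_right 0 (x.im - 3 * κ / 8)], fun y hy e => ?_⟩
    refine down (by linarith) hy (le_max_left _ _) ?_
    rcases le_total 0 (x.im - 3 * κ / 8) with g | g
    · rw [max_eq_right g]; linarith [(abs_lt.1 e).1]
    · rw [max_eq_left g]; linarith [hy.1]
  have low' : ∀ x ∈ Cn r s a d (κ / 4), ∃ x₀ ∈ Cn r s a d (κ / 4), x₀.im < κ / 2 := by
    intro x hx
    obtain ⟨t, -, t1, t2⟩ := low x hx
    exact ⟨_, t2 x hx (by rw [sub_self, abs_zero]; linarith), by simp; linarith⟩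
  have dZ : DifferentiableOn ℂ Z (Cn r s a d (κ / 4) ×ˢ ball 0 ρ) := by
    rintro ⟨x, w⟩ ⟨hx, hw⟩
    obtain ⟨x₀, h0, h1⟩ := low' x hx
    refine (hJ Z (Cn r s a d (κ / 4) ×ˢ ball 0 ρ) (Cn r s a d (κ / 4)) w x₀ (ε * r)
      (o.prod isOpen_ball) (fun u y hy => ((hZ u hy.2).1 y hy.1).mono fun z hz => hz.1)
      (fun q hq => ((hZ q.2 hq.2).2 q.1 hq.1).2.trans ?_) cv.isPreconnected
      (fun y hy => ⟨hy, hw⟩) h0 ?_ x hx).differentiableAt.differentiableWithinAt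
    · exact mul_le_mul_of_nonneg_left (by linarith [hq.1.1]) ε0.le
    · refine (P097.Hol.analyticAt_of_differentiableOn ((ColL.st_open κ).prod isOpen_ball) D.col.d
        (x := (x₀, w)) ⟨st x₀ h0 h1, subκ hw⟩).congr ?_
      filter_upwards [((o.inter oW).prod isOpen_ball).mem_nhds
        (show (x₀, w) ∈ (Cn r s a d (κ / 4) ∩ {x : ℂ | x.im < κ / 2}) ×ˢ ball (0 : ℂ) ρ from
          ⟨⟨h0, h1⟩, hw⟩)] with q hq using (((hZ q.2 hq.2).2 q.1 hq.1.1).1 hq.1.2).symm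
  have ev : ∀ x ∈ Cn r s a d (κ / 4), ∀ w ∈ ball (0 : ℂ) ρ, Z (x, -w) = Z (x, w) := by
    intro x hx w hw
    have hw' : -w ∈ ball (0 : ℂ) ρ := by simpa using hw
    obtain ⟨x₀, h0, h1⟩ := low' x hx
    exact ident o cv (hZ _ hw').1 (hZ _ hw).1 oW h0 h1 (fun y hy e => by
      rw [((hZ _ hw').2 y hy).1 e, ((hZ _ hw).2 y hy).1 e, D.col.ev y (st y hy e) w (subκ hw)]) hx
  refine ⟨by linarith, dZ.mono (prod_mono le_rfl sub),
    fun x hx e w hw => ((hZ w (sub hw)).2 x hx).1 e, fun x hx w hw => ev x hx w (sub hw),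
    fun x hx w hw => ?_, fun x w hw h1 h2 => ?_⟩
  · have b := ColL.even2 (g := fun w => Z (x, w) - x) (M := ε * (r - x.im))
      ((dZ.comp (f := fun w : ℂ => (x, w)) (by fun_prop) fun w hw => ⟨hx, hw⟩).sub_const x)
      (by simp [z0]) (fun w hw => by simp only [ev x hx w hw])
      (fun w hw => ((hZ w hw).2 x hx).2) w (sub hw)
    have t0 : 0 < r - x.im := d0.trans hx.2.1
    have t1 : r - x.im ≤ r := by linarith [hx.1]
    have e1 : ε * l ≤ 1 / 64 := by nlinarith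
    have e2 : ε * (r - x.im) * l ^ 2 ≤ l * (r - x.im) / 64 := by nlinarith [mul_pos l0 t0]
    have e3 : ε * (r - x.im) * l ^ 2 ≤ min (a * (r - x.im)) κ / 16 := by
      rw [le_div_iff₀ (by norm_num)]
      refine le_min ?_ ?_ <;> nlinarith [mul_pos l0 t0]
    calc ‖Z (x, w) - x‖ * (l * ρ) ^ 2 ≤ ε * (r - x.im) / ρ ^ 2 * ‖w‖ ^ 2 * (l * ρ) ^ 2 :=
          mul_le_mul_of_nonneg_right b (sq_nonneg _)
      _ = ε * (r - x.im) * l ^ 2 * ‖w‖ ^ 2 := by field_simp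
      _ ≤ _ := mul_le_mul_of_nonneg_right e3 (sq_nonneg _)
  · obtain ⟨dw, hw'⟩ := hZ w (sub hw)
    have wi : |w.im| < κ / 8 :=
      (Complex.abs_im_le_norm w).trans_lt ((mem_ball_zero_iff.1 hw).trans_le lρ)
    have mid : ∀ y, y - w ∈ Cn r s a d (κ / 4) → y + w ∈ Cn r s a d (κ / 4) →
        y ∈ Cn r s a d (κ / 4) := fun y p q => by
      have := cv p q (a := 1 / 2) (b := 1 / 2) (by norm_num) (by norm_num) (by norm_num)
      rwa [← smul_add, sub_add_add_cancel, ← two_smul ℝ, smul_smul, div_mul_cancel₀ _ two_ne_zero,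
        one_smul] at this
    have val : ∀ y ∈ Cn r s a d (κ / 4), Z (y, w) ∈ St r := fun y hy => by
      have p := abs_le.1 ((Complex.abs_im_le_norm _).trans (hw' y hy).2)
      have t0 : 0 < r - y.im := d0.trans hy.2.1
      have q := mul_le_mul_of_nonneg_right ε1 t0.le
      rw [Complex.sub_im] at p
      exact show |(Z (y, w)).im| < r from abs_lt.2 ⟨by linarith [hy.1, p.1], by linarith [p.2]⟩
    obtain ⟨t, -, t1, t2⟩ := low x (mid x h1 h2)
    refine ident (V := {y | y - w ∈ Cn r s a d (κ / 4)} ∩ {y | y + w ∈ Cn r s a d (κ / 4)})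
      (W := {y : ℂ | y.im < κ / 2 - |w.im|}) (g := fun _ => 0)
      (f := fun y => EE θ h (Z (y - w, w)) (Z (y, w)) (Z (y + w, w)))
      ((o.preimage (by fun_prop)).inter (o.preimage (by fun_prop))) ?_
      (EE_diff D.cv (dw.comp (f := fun y => y - w) (by fun_prop) fun y hy => hy.1)
        (dw.mono fun y hy => mid y hy.1 hy.2)
        (dw.comp (f := fun y => y + w) (by fun_prop) fun y hy => hy.2)
        (fun y hy => val _ hy.1) (fun y hy => val _ (mid y hy.1 hy.2)) fun y hy => val _ hy.2)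
      (differentiableOn_const 0) (isOpen_lt (by fun_prop) continuous_const)
      (x₀ := x - t * Complex.I) ⟨?_, ?_⟩ ?_ (fun y hy e => ?_) ⟨h1, h2⟩
    · refine Convex.inter ?_ (cv.translate_preimage_left w)
      simp only [sub_eq_add_neg]
      exact cv.translate_preimage_left (-w)
    · have := t2 _ h1 (by simpa using wi)
      rwa [sub_right_comm] at this
    · have := t2 _ h2 (by simpa using wi)
      rwa [add_sub_right_comm] at this
    · simp; linarith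
    · have e : y.im < κ / 2 - |w.im| := e
      have p1 : (y - w).im < κ / 2 := by rw [Complex.sub_im]; linarith [neg_abs_le w.im]
      have p2 : y.im < κ / 2 := by linarith [abs_nonneg w.im]
      have p3 : (y + w).im < κ / 2 := by rw [Complex.add_im]; linarith [le_abs_self w.im]
      have my := mid y hy.1 hy.2
      rw [(hw' _ hy.1).1 p1, (hw' _ my).1 p2, (hw' _ hy.2).1 p3]
      exact D.law y (st y my p2) w (subκ (sub hw)) (st _ hy.1 p1) (st _ hy.2 p3)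

end FinL

theorem fin : FIN := by
  classical
  intro hC hE hW hJ θ h Q Y c r κ D a a0 a1
  have κ0 := D.col.hη
  have kr := D.kr
  have r0 : 0 < r := by linarith
  obtain ⟨ε, E, C₀, m₀, ε0, ε1, E1, C0, m0, hF⟩ := hE θ h Q Y c r κ D a a0 a1
  obtain ⟨a₁, c₀, b0, b1, c0, c1, hy⟩ := hC r κ (a / 2) ε E C₀ m₀ κ0 kr (by linarith) (by linarith)
    ε0 (by linarith) E1 C0 m0
  have l0 : 0 < min a₁ (κ / r) / 8 := by positivity
  refine ⟨a₁, min a₁ (κ / r) / 8 * c₀, b0, by linarith, mul_pos l0 c0, fun s d A d0 dr A1 hK => ?_⟩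
  have A0 : 0 < A := by linarith
  choose! y hy using hy (Ph θ h) Y s d A (om A d) d0 dr A1 (hW A d A0 d0).1 (hW A d A0 d0).2
    D.col.d D.col.ev (hF s d A d0 A1 hK)
  refine ⟨fun q => if q.2 = 0 then q.1 else y q.2 q.1, ?_⟩
  rw [mul_assoc, mul_div_assoc]
  refine FinL.chart hJ D (by linarith) (by linarith) ε0 ε1 (by positivity) ?_ l0 ?_ ?_
    (fun x => if_pos rfl) fun w hw => ?_
  · rw [div_le_iff₀ A0]
    nlinarith
  · linarith [min_le_left a₁ (κ / r)]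
  · have := (le_div_iff₀ r0).1 (min_le_right a₁ (κ / r))
    linarith
  · by_cases e : w = 0
    · subst e
      simp only [if_true]
      refine ⟨differentiableOn_id, fun x hx => ⟨fun g => (D.col.zero x ?_).symm, ?_⟩⟩
      · exact show |x.im| < κ from abs_lt.2 ⟨by linarith [hx.1], by linarith⟩
      · rw [sub_self, norm_zero]
        exact mul_nonneg ε0.le (by linarith [hx.2.1])
    · simp only [if_neg e]
      exact hy w e (mem_ball_zero_iff.1 hw)

end Vale.Agent.P097S
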