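import Vale.Agent.P097S.CDefs

/-!
# P097S: from the window to the whole chord
-/

set_option linter.all false

noncomputable section

namespace Vale.Agent.P097S

open Filter Topology Set Metric Vale.Agent.P097N

namespace Lat

/-- the crude bounds in the direction `u` -/
structure Cr (Φ : ℂ × ℂ → ℂ) (u : ℂ) (P : ℂ → ℝ) (U : Set ℂ) (y : ℂ → ℂ) : Prop where
  d : DifferentiableOn ℂ y U
  p : ∀ x ∈ U, ‖y x - x‖ ≤ P x
  v : ∀ x ∈ U, x - u ∈ U → ‖y x - y (x - u) - u‖ ≤ ‖u‖ / 16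
  law : ∀ x ∈ U, x - u ∈ U → x + u ∈ U → Φ (y x, y (x + u)) + Φ (y x, y (x - u)) = 0

theorem flip {y : ℂ → ℂ} {u : ℂ} {U : Set ℂ} {c : ℝ}
    (h : ∀ x ∈ U, x - u ∈ U → ‖y x - y (x - u) - u‖ ≤ c * ‖u‖) :
    ∀ x ∈ U, x - -u ∈ U → ‖y x - y (x - -u) - -u‖ ≤ c * ‖-u‖ := by
  intro x hx hx'
  have := h (x - -u) hx' (by simpa using hx)
  rw [show x - -u - u = x by ring] at this
  rw [norm_neg, ← norm_neg, show -(y x - y (x - -u) - -u) = y (x - -u) - y x - u by ring]
  exact this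

theorem Cr.neg {Φ : ℂ × ℂ → ℂ} {u : ℂ} {P : ℂ → ℝ} {U : Set ℂ} {y : ℂ → ℂ} (h : Cr Φ u P U y) :
    Cr Φ (-u) P U y := by
  refine ⟨h.d, h.p, fun x hx hx' => ?_, fun x hx h1 h2 => ?_⟩
  · have := flip (c := 1 / 16) (fun x hx hx' => (h.v x hx hx').trans_eq (by ring)) x hx hx'
    exact this.trans_eq (by ring)
  · rw [sub_neg_eq_add] at h1 ⊢
    rw [← sub_eq_add_neg] at h2 ⊢
    rw [add_comm]
    exact h.law x hx h2 h1

theorem run (hD : DYN) {Φ : ℂ × ℂ → ℂ} {A U M : Set ℂ} {u : ℂ} {c σ ε m t₁ : ℝ}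
    {φ ψ μ τ Ef : ℂ → ℝ} {y : ℂ → ℂ} (hu : u ≠ 0) (oA : IsOpen A) (oU : IsOpen U) (hUA : U ⊆ A)
    (m0 : 0 < m) (m1 : 1000 * m ≤ 1) (m2 : 1000 * m ≤ ε)
    (hφ : ∀ x, φ x = (u⁻¹ * x).re - c) (hψ : ∀ x, ψ (x - u) = ψ x) (hμ : ∀ x, μ (x - u) = μ x)
    (bdd : ∀ x ∈ A, (u⁻¹ * x).re < t₁) (h1 : ∀ x ∈ A, σ < ψ x → x ∈ U)
    (h2 : ∀ x ∈ A, ψ x ≤ σ → |φ x| < 3 → x ∈ M) (hM : M ⊆ U)
    (h3 : ∀ x ∈ U, ψ x ≤ σ → φ x < 3)
    (h4 : ∀ x ∈ A, ψ x ≤ σ → 3 ≤ φ x → x - u ∈ A ∧ x - 2 * u ∈ A)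
    (h5 : ∀ x ∈ A, ψ x ≤ σ → 0 < μ x ∧ μ x ≤ 2 * τ x ∧ τ x ≤ 2 * μ x ∧ (φ x + 2) * ‖u‖ ≤ μ x ∧
      Ef x * ‖u‖ ^ 2 * μ x ≤ 6 * m)
    (calm : ∀ x ∈ A, ∀ b : ℂ, ‖b - x‖ ≤ ε * τ x → LocE Φ b (8 * ‖u‖) (Ef x))
    (cr : Cr Φ u (fun x => ε * τ x) U y) (s1 : ∀ x ∈ M, ‖y x - x‖ ≤ m * τ x)
    (s2 : ∀ x ∈ M, x - u ∈ M → ‖y x - y (x - u) - u‖ ≤ m * ‖u‖) :
    ∃ y', EqOn y' y U ∧ Cr Φ u (fun x => ε * τ x) (U ∪ (A ∩ {x | -3 < φ x})) y' := by
  classical
  have n0 : 0 < ‖u‖ := norm_pos_iff.2 hu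
  have f1 : ∀ x, φ (x - u) = φ x - 1 := fun x => by
    rw [hφ, hφ, mul_sub, inv_mul_cancel₀ hu, Complex.sub_re, Complex.one_re]; ring
  have f2 : ∀ x, φ (x - 2 * u) = φ x - 2 := fun x => by
    rw [show x - 2 * u = x - u - u by ring, f1, f1]; ring
  have cφ : Continuous φ := by
    rw [show φ = fun x => (u⁻¹ * x).re - c from funext hφ]; fun_prop
  have hW : U ∪ (A ∩ {x | -3 < φ x}) ⊆ A := union_subset hUA inter_subset_left
  have k1 : ∀ x ∈ U ∪ (A ∩ {x | -3 < φ x}), x ∉ U → ψ x ≤ σ ∧ 3 ≤ φ x := by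
    rintro x (hx | ⟨hx, hx'⟩) hn
    · exact absurd hx hn
    · have a := not_lt.1 (mt (h1 x hx) hn)
      have b : ¬ |φ x| < 3 := fun q => hn (hM (h2 x hx a q))
      rw [abs_lt, not_and, not_lt] at b
      exact ⟨a, b hx'⟩
  let V : ℂ → ℝ := fun x => if ψ x ≤ σ ∧ -2 < φ x then
    m * ‖u‖ + 48 * m * ‖u‖ * ((φ x + 2) * ‖u‖ / μ x) else ‖u‖ / 16
  let P : ℂ → ℝ := fun x => if ψ x ≤ σ ∧ -2 < φ x then
    2 * m * μ x + (φ x + 2) * (49 * m * ‖u‖) else ε * τ x
  have mu : 0 < m * ‖u‖ := mul_pos m0 n0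
  have hV : ∀ x ∈ A, ψ x ≤ σ → m * ‖u‖ + 48 * m * ‖u‖ * ((φ x + 2) * ‖u‖ / μ x) ≤
      49 * m * ‖u‖ := fun x hx a => by
    obtain ⟨b1, -, -, b4, -⟩ := h5 x hx a
    have := (div_le_one b1).2 b4
    nlinarith
  have hV' : ∀ x ∈ A, V x ≤ ‖u‖ / 16 := fun x hx => by
    simp only [V]
    split_ifs with q
    · have := hV x hx q.1
      nlinarith
    · exact le_rfl
  have hP : ∀ x ∈ A, P x ≤ ε * τ x := fun x hx => by
    simp only [P]
    split_ifs with q
    · obtain ⟨b1, b2, -, b4, -⟩ := h5 x hx q.1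
      have e1 : (φ x + 2) * ‖u‖ * m ≤ μ x * m := mul_le_mul_of_nonneg_right b4 m0.le
      have e2 : μ x * m ≤ 2 * τ x * m := mul_le_mul_of_nonneg_right b2 m0.le
      have e3 : 1000 * m * τ x ≤ ε * τ x := mul_le_mul_of_nonneg_right m2 (by linarith)
      have e4 : 0 ≤ μ x * m := by positivity
      nlinarith
    · exact le_rfl
  obtain ⟨y', d, e, p, v, l⟩ := hD Φ (U ∪ (A ∩ {x | -3 < φ x})) U u u⁻¹ (c + 3) t₁ y P V Ef hu
    (oU.union (oA.inter (isOpen_lt continuous_const cφ))) oU subset_union_left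
    (by rw [inv_mul_cancel₀ hu, Complex.one_re]) (fun x hx => bdd x (hW hx))
    (fun x hx q => by
      by_contra hn
      have := (k1 x hx hn).2
      rw [hφ] at this
      linarith)
    (fun x hx hx' => by
      by_contra hn
      obtain ⟨a, b⟩ := k1 _ hx' hn
      rw [hψ] at a
      rw [f1] at b
      have := h3 x hx a
      linarith)
    (fun x hx hn => by
      obtain ⟨a, b⟩ := k1 x hx hn
      obtain ⟨a1, a2⟩ := h4 x (hW hx) a b
      refine ⟨Or.inr ⟨a1, by rw [mem_setOf, f1]; linarith⟩,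
        Or.inr ⟨a2, by rw [mem_setOf, f2]; linarith⟩, ?_⟩
      have q1 : ψ x ≤ σ ∧ -2 < φ x := ⟨a, by linarith⟩
      have q2 : ψ (x - u) ≤ σ ∧ -2 < φ (x - u) := by rw [hψ, f1]; exact ⟨a, by linarith⟩
      have hv := hV x (hW hx) a
      obtain ⟨b1, -, -, -, b5⟩ := h5 _ a1 q2.1
      simp only [V, P, if_pos q1, if_pos q2]
      rw [hμ] at b1 b5
      rw [hμ, f1]
      refine ⟨?_, by linarith⟩
      have e1 : Ef (x - u) * ‖u‖ ^ 2 ≤ 6 * m / μ x := (le_div_iff₀ b1).2 b5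
      have e2 := mul_le_mul_of_nonneg_right e1 (show 0 ≤ 8 * ‖u‖ ^ 2 by positivity)
      have e3 : 48 * m * ‖u‖ * ((φ x + 2) * ‖u‖ / μ x) =
          48 * m * ‖u‖ * ((φ x - 1 + 2) * ‖u‖ / μ x) + 6 * m / μ x * (8 * ‖u‖ ^ 2) := by ring
      nlinarith)
    (fun x hx => ⟨hV' x (hW hx), fun b hb => calm x (hW hx) b (hb.trans (hP x (hW hx)))⟩)
    cr.d
    (fun x hx => by
      simp only [P]
      split_ifs with q
      · obtain ⟨b1, -, b3, -, -⟩ := h5 x (hUA hx) q.1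
        have e1 := s1 x (h2 x (hUA hx) q.1 (abs_lt.2 ⟨by linarith [q.2], h3 x hx q.1⟩))
        have e2 : m * τ x ≤ m * (2 * μ x) := mul_le_mul_of_nonneg_left b3 m0.le
        have e3 : 0 ≤ (φ x + 2) * (49 * m * ‖u‖) := mul_nonneg (by linarith [q.2]) (by positivity)
        linarith
      · exact cr.p x hx)
    (fun x hx hx' => by
      simp only [V]
      split_ifs with q
      · obtain ⟨b1, -, -, -, -⟩ := h5 x (hUA hx) q.1
        have a := h3 x hx q.1
        have e1 := s2 x (h2 x (hUA hx) q.1 (abs_lt.2 ⟨by linarith [q.2], a⟩))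
          (h2 _ (hUA hx') (by rw [hψ]; exact q.1)
            (by rw [f1]; exact abs_lt.2 ⟨by linarith [q.2], by linarith⟩))
        have e3 : 0 ≤ 48 * m * ‖u‖ * ((φ x + 2) * ‖u‖ / μ x) :=
          mul_nonneg (by positivity) (div_nonneg (mul_nonneg (by linarith [q.2]) n0.le) b1.le)
        linarith
      · exact cr.v x hx hx')
    cr.law
  exact ⟨y', e, d, fun x hx => (p x hx).trans (hP x (hW hx)),
    fun x hx hx' => (v x hx hx').trans (hV' x (hW hx)), l⟩

theorem cv {α β p q : ℝ} (a : 0 < α) (b : 0 < β) (hp : 0 ≤ p) (hq : 0 ≤ q) (e : p + q = 1) :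
    0 < p * α + q * β := by
  rcases hp.lt_or_eq with h | h
  · positivity
  · subst h
    rw [zero_add] at e
    simpa [e] using b

theorem cn_convex (r s a d b : ℝ) : Convex ℝ (Cn r s a d b) := by
  rintro x ⟨x1, x2, x3⟩ y ⟨y1, y2, y3⟩ p q hp hq e
  rw [abs_lt] at x3 y3
  obtain rfl : q = 1 - p := by linarith
  have a1 := cv (sub_pos.2 x1) (sub_pos.2 y1) hp hq e
  have a2 := cv (sub_pos.2 x2) (sub_pos.2 y2) hp hq e
  have a3 := cv (sub_pos.2 x3.1) (sub_pos.2 y3.1) hp hq e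
  have a4 := cv (sub_pos.2 x3.2) (sub_pos.2 y3.2) hp hq e
  simp only [Cn, mem_setOf, abs_lt, Complex.add_im, Complex.add_re, Complex.smul_im,
    Complex.smul_re, smul_eq_mul]
  refine ⟨by linarith, by linarith, by linarith, by linarith⟩

theorem cn_open (r s a d b : ℝ) : IsOpen (Cn r s a d b) := by
  refine IsOpen.and ?_ (IsOpen.and ?_ ?_) <;> exact isOpen_lt (by fun_prop) (by fun_prop)

theorem fc_cont (r s : ℝ) (w : ℂ) : Continuous (fc r s w) := by
  unfold fc; fun_prop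

theorem om_open (r κ s a : ℝ) (w : ℂ) (σ : ℝ) : IsOpen (Om r κ s a w σ) :=
  (cn_open _ _ _ _ _).inter (isOpen_lt continuous_const
    (Complex.continuous_im.comp (fc_cont r s w)))

theorem mid_open (r s : ℝ) (w : ℂ) (t σ : ℝ) : IsOpen (Mid r s w t σ) := by
  have := fc_cont r s w
  refine IsOpen.and ?_ (IsOpen.and ?_ ?_) <;> exact isOpen_lt (by fun_prop) (by fun_prop)

theorem om_convex (r κ s a : ℝ) (w : ℂ) (σ : ℝ) : Convex ℝ (Om r κ s a w σ) := by
  rintro x ⟨x1, x2⟩ y ⟨y1, y2⟩ p q hp hq e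
  refine ⟨cn_convex _ _ _ _ _ x1 y1 hp hq e, ?_⟩
  have a1 := cv (sub_pos.2 x2) (sub_pos.2 y2) hp hq e
  obtain rfl : q = 1 - p := by linarith
  have : fc r s w (p • x + (1 - p) • y) = p • fc r s w x + (1 - p) • fc r s w y := by
    simp only [fc, Complex.real_smul]
    push_cast
    ring
  rw [this]
  simp only [Complex.add_im, Complex.smul_im, smul_eq_mul]
  linarith

theorem fc_sub {r s : ℝ} {w : ℂ} (hw : w ≠ 0) (x : ℂ) (c : ℝ) :
    fc r s w (x - c * w) = fc r s w x + c := by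
  unfold fc
  field_simp
  ring

end Lat

open Lat in
theorem lat (hD : DYN) : LAT := by
  intro γ ε hγ hε
  obtain ⟨m, m0, m1, m2⟩ : ∃ m : ℝ, 0 < m ∧ 1000 * m ≤ 1 ∧ 1000 * m ≤ ε :=
    ⟨min 1 ε / 1000, by positivity, by linarith [min_le_left 1 ε], by linarith [min_le_right 1 ε]⟩
  refine ⟨m, m, m0, m0, ?_⟩
  intro Φ y₀ y w r κ s a a₁ T E C₀ σ t ω hω hF hS hw ha ha' hA hM hE hs
  have w0 := hS.w0
  have n0 : 0 < ‖w‖ := norm_pos_iff.2 w0
  have T0 : 0 < T := by
    by_contra q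
    have := mul_nonpos_of_nonneg_of_nonpos m0.le (not_lt.1 q)
    linarith [hS.t]
  have fr : ∀ (x : ℂ) (c : ℝ), (fc r s w (x - c * w)).re = (fc r s w x).re + c := fun x c => by
    rw [fc_sub w0]; simp
  have fi : ∀ (x : ℂ) (c : ℝ), (fc r s w (x - c * w)).im = (fc r s w x).im := fun x c => by
    rw [fc_sub w0]; simp
  have hMA : Mid r s w t σ ⊆ Om r κ s a₁ w (σ - 1) := fun x hx => ⟨hM hx, hx.2.1⟩
  have hOA : Om r κ s a₁ w σ ⊆ Om r κ s a₁ w (σ - 1) := fun x hx => ⟨hx.1, by linarith [hx.2]⟩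
  have xm : ∀ x ∈ Om r κ s a₁ w (σ - 1), (fc r s w x).im ≤ σ →
      x - ((t - (fc r s w x).re : ℝ) : ℂ) * w ∈ Om r κ s a₁ w (σ - 1) := fun x hx q =>
    hMA ⟨by rw [fr]; simp, by rw [fi]; exact hx.2, by rw [fi]; linarith⟩
  have step : ∀ (e : ℝ) (U : Set ℂ) (z : ℂ → ℂ), e = 1 ∨ e = -1 → IsOpen U →
      U ⊆ Om r κ s a₁ w (σ - 1) → Om r κ s a₁ w σ ∪ Mid r s w t σ ⊆ U →
      (∀ x ∈ U, (fc r s w x).im ≤ σ → e * (t - (fc r s w x).re) < 3) →
      Cr Φ (e * w) (fun x => ε * (r - x.im)) U z → EqOn z y (Mid r s w t σ) →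
      (∀ x ∈ Mid r s w t σ, x - e * w ∈ Mid r s w t σ →
        ‖y x - y (x - e * w) - e * w‖ ≤ m * ‖e * w‖) →
      ∃ y', EqOn y' z U ∧ Cr Φ (e * w) (fun x => ε * (r - x.im))
        (U ∪ (Om r κ s a₁ w (σ - 1) ∩ {x | -3 < e * (t - (fc r s w x).re)})) y' := by
    intro e U z he oU hUA hU h3 cr hz s2
    have e2 : e * e = 1 := by rcases he with rfl | rfl <;> norm_num
    have ne : ‖(e : ℂ) * w‖ = ‖w‖ := by rcases he with rfl | rfl <;> simp
    refine run hD (M := Mid r s w t σ) (σ := σ) (ψ := fun x => (fc r s w x).im)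
      (μ := fun x => r - (x - ((t - (fc r s w x).re : ℝ) : ℂ) * w).im)
      (Ef := fun x => E * ω (r - x.im) / (r - x.im))
      (c := e * (((s + r * Complex.I) / w).re - t))
      (t₁ := ‖w‖⁻¹ * (|s| + a₁ * r + r) + 1) (norm_pos_iff.1 (ne ▸ n0)) (om_open _ _ _ _ _ _) oU hUA
      m0 m1 m2 (fun x => ?_) (fun x => fi x e) (fun x => ?_) (fun x hx => ?_)
      (fun x hx q => hU (Or.inl ⟨hx.1, q⟩)) (fun x hx q q' => ⟨?_, hx.2, by linarith⟩)
      (fun x hx => hU (Or.inr hx)) h3 (fun x hx q q' => ?_) (fun x hx q => ?_)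
      (fun x hx b hb => ne ▸ hF.calm x (hA hx) b hb) cr
      (fun x hx => by rw [hz hx]; exact (hs x hx).1)
      (fun x hx hx' => by rw [hz hx, hz hx']; exact s2 x hx hx')
    · have : fc r s w x = (s + r * Complex.I) / w - w⁻¹ * x := by unfold fc; ring
      rw [this]
      rcases he with rfl | rfl <;> simp <;> ring
    · rw [fr]
      congr 2
      push_cast
      ring
    · obtain ⟨⟨x1, x2, x3⟩, -⟩ := hx
      have b1 : ‖x‖ ≤ |s| + a₁ * r + r := by
        have k0 := hS.κ0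
        have := Complex.norm_le_abs_re_add_abs_im x
        have b2 : |x.re| ≤ |s| + |x.re - s| := by
          simpa using abs_add_le s (x.re - s)
        rw [abs_of_pos (by linarith : 0 < x.im)] at this
        nlinarith
      have b3 := Complex.re_le_norm (((e : ℂ) * w)⁻¹ * x)
      rw [norm_mul, norm_inv, ne] at b3
      have := mul_le_mul_of_nonneg_left b1 (inv_pos.2 n0).le
      linarith
    · rcases he with rfl | rfl
      · rwa [one_mul, abs_sub_comm] at q'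
      · rwa [neg_one_mul, neg_sub] at q'
    · have key : ∀ c : ℝ, 0 ≤ c → c ≤ 2 → x - c * (e * w) ∈ Om r κ s a₁ w (σ - 1) := by
        intro c c0 c2
        generalize hj : e * (t - (fc r s w x).re) = j at q'
        have j0 : 0 < j := by linarith
        have := om_convex _ _ _ _ _ _ hx (xm x hx q) (show 0 ≤ 1 - c / j from
          sub_nonneg.2 ((div_le_one j0).2 (by linarith))) (show 0 ≤ c / j by positivity) (by ring)
        have e3 : t - (fc r s w x).re = e * j := by rw [← hj, ← mul_assoc, e2, one_mul]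
        have j1 : (j : ℂ) ≠ 0 := by exact_mod_cast j0.ne'
        rw [e3] at this
        refine (congrArg (· ∈ Om r κ s a₁ w (σ - 1)) ?_).mp this
        simp only [Complex.real_smul]
        push_cast
        field_simp
        ring
      exact ⟨by simpa using key 1 (by norm_num) (by norm_num),
        by simpa using key 2 (by norm_num) le_rfl⟩
    · have hm := xm x hx q
      have b1 := hx.1.2.2
      have b2 := hm.1.2.2
      have b3 : T < r - x.im := (hA hx).2.1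
      have b4 := (hA hm).2.1
      generalize t - (fc r s w x).re = J at *
      have b5 : |J| * w.re ≤ |x.re - s| + |(x - J * w).re - s| := by
        have := abs_sub (x.re - s) ((x - J * w).re - s)
        rw [show x.re - s - ((x - J * w).re - s) = J * w.re by simp, abs_mul,
          abs_of_nonneg (le_trans (by positivity) hw)] at this
        exact this
      have b6 : |r - (x - J * w).im - (r - x.im)| ≤ |J| * ‖w‖ := by
        rw [show r - (x - J * w).im - (r - x.im) = J * w.im by simp, abs_mul]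
        exact mul_le_mul_of_nonneg_left (Complex.abs_im_le_norm w) (abs_nonneg _)
      generalize r - (x - J * w).im = μ at *
      have b7 : ω (r - x.im) ≤ ω T := hω.anti _ _ T0 b3.le
      have b8 : 0 < ω (r - x.im) := hω.pos _ (by linarith)
      generalize r - x.im = τ at *
      have b9 : |J| * ‖w‖ ≤ (τ + μ) / 4 := by
        have c1 := mul_le_mul_of_nonneg_left hw (abs_nonneg J)
        have c2 := mul_le_mul_of_nonneg_right ha' (show 0 ≤ τ + μ by linarith)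
        refine le_of_mul_le_mul_left ?_ hγ
        linarith
      rw [abs_le] at b6
      have c3 : e * J ≤ |J| := by
        rcases he with rfl | rfl
        · simpa using le_abs_self J
        · simpa using neg_le_abs J
      have c4 := mul_le_mul_of_nonneg_right c3 n0.le
      have c5 := mul_le_mul_of_nonneg_right m1 T0.le
      have c6 := hS.t
      rw [ne]
      refine ⟨by linarith, by linarith, by linarith, by linarith, ?_⟩
      have c7 : E * ‖w‖ ^ 2 * ω τ ≤ m :=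
        (mul_le_mul_of_nonneg_left b7 (by have := hS.E1; positivity)).trans hS.e
      have c8 : μ / τ ≤ 2 := (div_le_iff₀ (by linarith)).2 (by linarith)
      have c9 := mul_le_mul c7 c8 (div_nonneg (by linarith) (by linarith)) m0.le
      calc E * ω τ / τ * ‖w‖ ^ 2 * μ = E * ‖w‖ ^ 2 * ω τ * (μ / τ) := by ring
        _ ≤ _ := by linarith
  have s2 : ∀ x ∈ Mid r s w t σ, x - w ∈ Mid r s w t σ → ‖y x - y (x - w) - w‖ ≤ m * ‖w‖ := by
    intro x hx hx'
    have := (hs _ hx').2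
    rw [sub_add_cancel] at this
    exact this hx
  have o1 := (om_open r κ s a₁ w σ).union (mid_open r s w t σ)
  obtain ⟨y₁, e₁, c₁⟩ := step 1 _ y (Or.inl rfl) o1 (union_subset hOA hMA) subset_rfl
    (by
      rintro x (hx | hx) q
      · exact absurd hx.2 (not_lt.2 q)
      · linarith [(abs_lt.1 hx.1).1])
    (by
      rw [Complex.ofReal_one, one_mul]
      refine ⟨hE.d, hE.p, fun x hx hx' => ?_, hE.law⟩
      have := hE.v _ hx'
      rw [sub_add_cancel] at this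
      exact this hx) (fun _ _ => rfl) (by rw [Complex.ofReal_one, one_mul]; exact s2)
  rw [Complex.ofReal_one, one_mul] at c₁
  have ng : ((-1 : ℝ) : ℂ) * w = -w := by simp
  have o4 : IsOpen {x | -3 < 1 * (t - (fc r s w x).re)} :=
    isOpen_lt continuous_const (by have := fc_cont r s w; fun_prop)
  obtain ⟨y₂, e₂, c₂⟩ := step (-1) _ y₁ (Or.inr rfl) (o1.union ((om_open _ _ _ _ _ _).inter o4))
    (union_subset (union_subset hOA hMA) inter_subset_left) subset_union_left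
    (by
      rintro x ((hx | hx) | hx) q
      · exact absurd hx.2 (not_lt.2 q)
      · linarith [(abs_lt.1 hx.1).2]
      · have := hx.2
        rw [mem_setOf] at this
        linarith)
    (by rw [ng]; exact c₁.neg) (fun x hx => e₁ (Or.inr hx)) (by rw [ng]; exact flip s2)
  rw [ng] at c₂
  have c₃ := c₂.neg
  rw [neg_neg] at c₃
  have all : Om r κ s a₁ w (σ - 1) ⊆ Om r κ s a₁ w σ ∪ Mid r s w t σ ∪
      Om r κ s a₁ w (σ - 1) ∩ {x | -3 < 1 * (t - (fc r s w x).re)} ∪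
      Om r κ s a₁ w (σ - 1) ∩ {x | -3 < -1 * (t - (fc r s w x).re)} := by
    intro x hx
    by_cases q : -3 < 1 * (t - (fc r s w x).re)
    · exact Or.inl (Or.inr ⟨hx, q⟩)
    · exact Or.inr ⟨hx, by rw [mem_setOf]; linarith⟩
  refine ⟨y₂, c₃.d.mono all, ?_, fun x hx => c₃.p x (all hx), fun x hx hx' => ?_,
    fun x hx h1 h2 => c₃.law x (all hx) (all h1) (all h2)⟩
  · have k0 := hS.κ0
    have o2 : IsOpen {x : ℂ | x.im < κ / 2} := isOpen_lt (by fun_prop) (by fun_prop)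
    have o3 := (om_open r κ s a₁ w (σ - 1)).inter o2
    obtain ⟨z, z1, z2⟩ : ∃ z ∈ Om r κ s a₁ w σ, z.im < κ / 2 := by
      obtain ⟨x, hx⟩ : ∃ x, fc r s w x = t + (σ + 1 / 2 : ℝ) * Complex.I :=
        ⟨s + r * Complex.I - (t + (σ + 1 / 2 : ℝ) * Complex.I) * w, by unfold fc; field_simp; ring⟩
      have x1 : (fc r s w x).re = t := by rw [hx]; simp
      have x2 : (fc r s w x).im = σ + 1 / 2 := by rw [hx]; simp
      obtain ⟨x3, x4, x5⟩ : x ∈ Cn r s a₁ 0 (κ / 4) :=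
        hM ⟨by rw [x1]; simp, by linarith, by linarith⟩
      by_cases q : x.im < κ / 2
      · exact ⟨x, ⟨⟨x3, x4, x5⟩, by linarith⟩, q⟩
      · have g0 : 0 ≤ x.im - 3 * κ / 8 := by linarith
        generalize hg : x.im - 3 * κ / 8 = g at g0
        have z1 : (x - g * Complex.I).im = 3 * κ / 8 := by simp; linarith
        have z2 : (x - g * Complex.I).re = x.re := by simp
        refine ⟨x - g * Complex.I, ⟨⟨by linarith, by linarith, ?_⟩, ?_⟩, by linarith⟩
        · rw [z1, z2]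
          nlinarith
        · have : fc r s w (x - g * Complex.I) = fc r s w x + g * (Complex.I / w) := by
            unfold fc; ring
          have z3 : 0 ≤ (Complex.I / w).im := by
            rw [Complex.div_im]
            have := Complex.normSq_nonneg w
            have w1 : 0 ≤ w.re := le_trans (by positivity) hw
            simp
            positivity
          rw [this, Complex.add_im, Complex.im_ofReal_mul]
          nlinarith
    have an1 : AnalyticOnNhd ℂ y₂ (Om r κ s a₁ w (σ - 1) ∩ {x : ℂ | x.im < κ / 2}) :=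
      ((c₃.d.mono all).mono inter_subset_left).analyticOnNhd o3
    have an2 : AnalyticOnNhd ℂ y₀ (Om r κ s a₁ w (σ - 1) ∩ {x : ℂ | x.im < κ / 2}) :=
      (hF.d0.mono fun x hx => show |x.im| < κ from abs_lt.2 ⟨by linarith [hx.1.1.1], by
        have : x.im < κ / 2 := hx.2
        linarith⟩).analyticOnNhd o3
    have := an1.eqOn_of_preconnected_of_eventuallyEq an2
      ((om_convex _ _ _ _ _ _).inter (convex_halfSpace_im_lt _)).isPreconnected ⟨hOA z1, z2⟩ (by
        filter_upwards [((om_open r κ s a₁ w σ).inter o2).mem_nhds ⟨z1, z2⟩] with x hx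
        rw [e₂ (Or.inl (Or.inl hx.1)), e₁ (Or.inl hx.1), hE.eq x (Or.inl hx.1) hx.2])
    exact fun x hx q => this ⟨hx, q⟩
  · have := c₃.v _ (all hx')
    rw [add_sub_cancel_right] at this
    exact this (all hx)

end Vale.Agent.P097S
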