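import Vale.Agent.P097S.CDefs
import Vale.Agent.P097N.Ser
import Vale.Agent.P097N.Ext

/-!
# P097S: small differences give small derivatives; joint analyticity of bounded families
-/

set_option linter.all false

noncomputable section

namespace Vale.Agent.P097S

open Filter Topology Set Metric Vale.Agent.P097N

namespace M0a

theorem cauchy {f : ℂ → ℂ} {x : ℂ} {r C : ℝ} (hr : 0 < r) (hf : DifferentiableOn ℂ f (ball x r))
    (hC : ∀ y ∈ ball x r, ‖f y‖ ≤ C) : ‖deriv f x‖ ≤ C / r := by
  rw [norm_deriv_eq_norm_fderiv]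
  exact P097.Hol.norm_fderiv_le_of_ball hr hf hC

theorem ext2 {W : ℂ × ℂ → ℂ} {c l : ℂ} {R δ η M : ℝ} (hR : 0 < R) (hδ : 0 < δ)
    (h1 : ∀ u ∈ ball l η, DifferentiableOn ℂ (fun x => W (x, u)) (ball c R))
    (h2 : ∀ u ∈ ball l η, ∀ x ∈ ball c R, ‖W (x, u)‖ ≤ M)
    (h3 : DifferentiableOn ℂ W (ball c δ ×ˢ ball l η)) :
    DifferentiableOn ℂ W (ball c (R / 2) ×ˢ ball l η) := by
  have hd : ∀ n, DifferentiableOn ℂ (fun p : ℂ × ℂ => co W c p.2 n * (p.1 - c) ^ n)
      (ball c (R / 2) ×ˢ ball l η) := by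
    intro n
    simp only [co, div_eq_mul_inv]
    refine DifferentiableOn.mul (DifferentiableOn.mul_const ?_ _) (by fun_prop)
    exact (Ser.diff_iter (isOpen_ball.prod isOpen_ball) n W h3).comp
      (f := fun p : ℂ × ℂ => (c, p.2)) (by fun_prop) fun p hp => ⟨mem_ball_self hδ, hp.2⟩
  have hb : ∀ n, ∀ p ∈ ball c (R / 2) ×ˢ ball l η,
      ‖co W c p.2 n * (p.1 - c) ^ n‖ ≤ M * (1 / 2) ^ n := by
    intro n p hp
    have a := (sext W c p.2 R M hR).2 _ (h1 _ hp.2) (h2 _ hp.2) (Eventually.of_forall fun _ => rfl) n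
    have b : ‖p.1 - c‖ ≤ R * (1 / 2) := by linarith [mem_ball_iff_norm.1 hp.1]
    rw [norm_mul, norm_pow]
    refine (mul_le_mul_of_nonneg_left (pow_le_pow_left₀ (norm_nonneg _) b n)
      (norm_nonneg _)).trans ?_
    rw [mul_pow, ← mul_assoc]
    exact mul_le_mul_of_nonneg_right a (by positivity)
  refine (P097A.Bern.diff_tsum (isOpen_ball.prod isOpen_ball)
    (summable_geometric_two.mul_left M) hd hb).congr fun p hp => ?_
  have e := (Complex.hasSum_taylorSeries_on_ball (h1 _ hp.2)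
    (ball_subset_ball (by linarith) hp.1)).tsum_eq
  refine e.symm.trans (tsum_congr fun n => ?_)
  simp only [co, smul_eq_mul]
  ring

end M0a

open M0a

theorem m0 : M0 := by
  intro F x₀ w k B G hw hF hB hG G0
  have w0 : 0 < ‖w‖ := norm_pos_iff.2 hw
  have hF' := hF.deriv isOpen_ball
  have key : ∀ j i : ℕ, i + j = k → ∀ x ∈ ball x₀ ((3 * i + 1) * ‖w‖),
      ‖deriv F x‖ * ‖w‖ ≤ 2 * G + B / 2 ^ j := by
    intro j
    induction j with
    | zero =>
      intro i hi x hx
      obtain rfl : i = k := hi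
      have s : ball x ‖w‖ ⊆ ball x₀ ((3 * i + 2) * ‖w‖) :=
        ball_subset_ball' (by linarith [mem_ball.1 hx])
      have := cauchy w0 (hF.mono s) fun y hy => hB y (s hy)
      rw [le_div_iff₀ w0] at this
      rw [pow_zero, div_one]
      linarith
    | succ j ih =>
      intro i hi x hx
      have ik : (i : ℝ) + 1 ≤ k := by exact_mod_cast (by omega : i + 1 ≤ k)
      have ih' := ih (i + 1) (by omega)
      push_cast at ih'
      set m := 2 * G + B / 2 ^ j with hm
      have s0 : ball x₀ ((3 * (i + 1) + 1) * ‖w‖) ⊆ ball x₀ ((3 * k + 2) * ‖w‖) :=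
        ball_subset_ball (by nlinarith)
      have s1 : ∀ z ∈ closedBall x ‖w‖, ball z (2 * ‖w‖) ⊆ ball x₀ ((3 * (i + 1) + 1) * ‖w‖) :=
        fun z hz => ball_subset_ball' (by
          linarith [mem_ball.1 hx, mem_closedBall.1 hz, dist_triangle z x x₀])
      have s2 : ∀ z ∈ closedBall x ‖w‖, ball x₀ ((3 * k + 2) * ‖w‖) ∈ 𝓝 z := fun z hz =>
        isOpen_ball.mem_nhds (s0 (s1 z hz (mem_ball_self (by linarith))))
      have d2 : ∀ z ∈ closedBall x ‖w‖, ‖deriv (deriv F) z‖ ≤ m / ‖w‖ / (2 * ‖w‖) := fun z hz =>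
        cauchy (by linarith) (hF'.mono ((s1 z hz).trans s0)) fun y hy =>
          (le_div_iff₀ w0).2 (ih' y (s1 z hz hy))
      have x0 : x ∈ closedBall x ‖w‖ := mem_closedBall_self w0.le
      have x1 : x + w ∈ closedBall x ‖w‖ := by simp
      have c0 : 0 ≤ m / ‖w‖ / (2 * ‖w‖) := (norm_nonneg _).trans (d2 x x0)
      have d1 : ∀ z ∈ closedBall x ‖w‖, ‖deriv F z - deriv F x‖ ≤ m / ‖w‖ / 2 := fun z hz => by
        have a := (convex_closedBall x ‖w‖).norm_image_sub_le_of_norm_deriv_le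
          (fun y hy => hF'.differentiableAt (s2 y hy)) d2 x0 hz
        refine a.trans ((mul_le_mul_of_nonneg_left (mem_closedBall_iff_norm.1 hz) c0).trans
          (le_of_eq ?_))
        field_simp
      have hd : ∀ z ∈ closedBall x ‖w‖, HasDerivAt (fun z => F z - z * deriv F x)
          (deriv F z - deriv F x) z := fun z hz => by
        have a := ((hF.differentiableAt (s2 z hz)).hasDerivAt).sub
          ((hasDerivAt_id z).mul_const (deriv F x))
        rw [one_mul] at a
        exact a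
      have d0 := (convex_closedBall x ‖w‖).norm_image_sub_le_of_norm_hasDerivWithin_le
        (fun z hz => (hd z hz).hasDerivWithinAt) d1 x0 x1
      have g := hG x (mem_of_mem_nhds (s2 x x0)) (mem_of_mem_nhds (s2 _ x1))
      have e1 : deriv F x * w = (F (x + w) - F x) -
          (F (x + w) - (x + w) * deriv F x - (F x - x * deriv F x)) := by ring
      have e2 : m / ‖w‖ / 2 * ‖x + w - x‖ = m / 2 := by
        rw [add_sub_cancel_left]
        field_simp
      have e3 : m / 2 = G + B / 2 ^ (j + 1) := by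
        rw [hm, pow_succ]
        field_simp
      rw [← norm_mul, e1]
      linarith [norm_sub_le (F (x + w) - F x)
        (F (x + w) - (x + w) * deriv F x - (F x - x * deriv F x))]
  exact key k 0 (by omega) x₀ (mem_ball_self (by simpa using w0))

theorem joint : JOINT := by
  intro Z Ω K l x₀ B hΩ hZ hB hK hl h0 ha
  have oS : IsOpen {x : ℂ | AnalyticAt ℂ Z (x, l)} :=
    (isOpen_analyticAt ℂ Z).preimage (f := fun x : ℂ => (x, l)) (by fun_prop)
  refine hK.subset_of_closure_inter_subset oS ⟨x₀, h0, ha⟩ ?_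
  rintro x ⟨hc, hx⟩
  obtain ⟨ε, ε0, hε⟩ := Metric.isOpen_iff.1 hΩ _ (hl x hx)
  obtain ⟨c, hc1, hc2⟩ := Metric.mem_closure_iff.1 hc (ε / 4) (by linarith)
  obtain ⟨δ, δ0, hδ⟩ := Metric.eventually_nhds_iff_ball.1
    (show AnalyticAt ℂ Z (c, l) from hc1).eventually_analyticAt
  have s : ∀ u ∈ ball l (min δ ε), ∀ y ∈ ball c (ε / 2), (y, u) ∈ Ω := fun u hu y hy => by
    refine hε ?_
    rw [← ball_prod_same]
    refine ⟨?_, ball_subset_ball (min_le_right _ _) hu⟩
    have := dist_triangle y c x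
    rw [dist_comm c x] at this
    show dist y x < ε
    linarith [mem_ball.1 hy]
  have d := ext2 (W := Z) (c := c) (l := l) (R := ε / 2) (δ := δ) (η := min δ ε)
    (M := B + (ε / 2 + ‖c‖)) (by linarith) δ0 (fun u hu => (hZ u).mono fun y hy => s u hu y hy)
    (fun u hu y hy => by
      have a := hB _ (s u hu y hy)
      have b := norm_le_norm_sub_add (Z (y, u)) y
      have e := norm_le_norm_sub_add y c
      linarith [mem_ball_iff_norm.1 hy])
    fun p hp => (hδ p (by
      rw [← ball_prod_same]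
      exact ⟨hp.1, ball_subset_ball (min_le_left _ _) hp.2⟩)).differentiableAt.differentiableWithinAt
  exact P097.Hol.analyticAt_of_differentiableOn (isOpen_ball.prod isOpen_ball) d
    ⟨by show dist x c < ε / 2 / 2; linarith, mem_ball_self (lt_min δ0 ε0)⟩

end Vale.Agent.P097S
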