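import Vale.Agent.P097S.CDefs

/-! # P097S: second differences, the weight -/

set_option linter.all false

noncomputable section

namespace Vale.Agent.P097S

open Filter Topology Set Metric Vale.Agent.P097N

theorem sec : SEC := by
  intro Φ a b c w E hw hL ha hc hlaw
  obtain ⟨⟨h1, h2⟩, h3⟩ := hL
  have w0 : 0 < ‖w‖ := norm_pos_iff.2 hw
  have hb : ∀ t ∈ ball w ‖w‖, t ≠ 0 ∧ ‖t‖ < 2 * ‖w‖ := by
    intro t ht
    rw [mem_ball_iff_norm] at ht
    refine ⟨fun e => by simp [e] at ht, ?_⟩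
    have := norm_add_le (t - w) w
    rw [sub_add_cancel] at this
    linarith
  have hd : DifferentiableOn ℂ (fun t => Φ (b, b + t) - t) (ball w ‖w‖) := by
    intro t ht
    obtain ⟨t0, t1⟩ := hb t ht
    have h4 := (h1 (b + t) (by simpa using t0)
      (by rw [add_sub_cancel_left]; linarith)).differentiableAt
    have h5 : DifferentiableAt ℂ (fun t : ℂ => (b, b + t)) t := by fun_prop
    exact ((h4.comp t h5).sub differentiableAt_id).differentiableWithinAt
  have hf : ∀ t ∈ ball w ‖w‖, ‖Φ (b, b + t) - t‖ ≤ ‖w‖ / 64 := by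
    intro t ht
    obtain ⟨-, t1⟩ := hb t ht
    have h4 := h2 (b + t) (by rw [add_sub_cancel_left]; linarith)
    rw [add_sub_cancel_left] at h4
    refine h4.trans ?_
    rw [div_le_div_iff₀ (by positivity) (by norm_num)]
    have := pow_le_pow_left₀ (norm_nonneg t) t1.le 3
    nlinarith
  have hsub : ∀ t ∈ closedBall w (‖w‖ / 16), closedBall t (‖w‖ / 2) ⊆ ball w ‖w‖ := fun t ht =>
    closedBall_subset_ball' (by rw [mem_closedBall] at ht; linarith)
  have hD : ∀ t ∈ closedBall w (‖w‖ / 16), ‖deriv (fun t => Φ (b, b + t) - t) t‖ ≤ 1 / 32 := by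
    intro t ht
    refine (Complex.norm_deriv_le_of_forall_mem_sphere_norm_le (half_pos w0)
      (hd.diffContOnCl_ball (hsub t ht))
      fun z hz => hf z (hsub t ht (sphere_subset_closedBall hz))).trans (le_of_eq ?_)
    field_simp
    norm_num
  have hM := (convex_closedBall w (‖w‖ / 16)).norm_image_sub_le_of_norm_deriv_le
    (fun t ht => hd.differentiableAt (isOpen_ball.mem_nhds
      (hsub t ht (mem_closedBall_self (half_pos w0).le)))) hD
    (mem_closedBall_iff_norm.2 ha) (mem_closedBall_iff_norm.2 hc)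
  have s1 : ‖b - a‖ ≤ 17 / 16 * ‖w‖ := by
    have := norm_add_le (b - a - w) w
    rw [sub_add_cancel] at this
    linarith
  have s0 : 0 < ‖b - a‖ :=
    norm_pos_iff.2 (hb _ (mem_ball_iff_norm.2 (by linarith))).1
  have h6 := h3 (b - a) (by linarith)
  have E0 : 0 ≤ E := nonneg_of_mul_nonneg_left ((norm_nonneg _).trans h6) (by positivity)
  have e1 : c - b - (b - a) = c - 2 * b + a := by ring
  have e2 : c - 2 * b + a = -((Φ (b, b + (b - a)) + Φ (b, b - (b - a))) +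
      (Φ (b, b + (c - b)) - (c - b) - (Φ (b, b + (b - a)) - (b - a)))) := by
    rw [add_sub_cancel, sub_sub_cancel]
    linear_combination hlaw
  have h7 := norm_add_le (Φ (b, b + (b - a)) + Φ (b, b - (b - a)))
    (Φ (b, b + (c - b)) - (c - b) - (Φ (b, b + (b - a)) - (b - a)))
  rw [← norm_neg, ← e2] at h7
  rw [e1] at hM
  have h8 := mul_le_mul_of_nonneg_left (pow_le_pow_left₀ s0.le s1 4) E0
  have h9 : 0 ≤ E * ‖w‖ ^ 4 := by positivity
  nlinarith

theorem wom : WOM := by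
  intro A d hA hd
  obtain ⟨K, K0, hK⟩ : ∃ K : ℝ, 0 < K ∧ ∀ u : ℝ, 0 < u → om A d (u ^ 2) = K / u ^ 3 := by
    refine ⟨A ^ 2 / √d, by positivity, fun u hu => ?_⟩
    rw [om, Real.sqrt_mul (sq_nonneg u), Real.sqrt_sq hu.le]
    field_simp
  have hu : ∀ τ : ℝ, 0 < τ → ∃ u : ℝ, 0 < u ∧ τ = u ^ 2 := fun τ h =>
    ⟨√τ, Real.sqrt_pos.2 h, (Real.sq_sqrt h.le).symm⟩
  refine ⟨⟨fun τ h => ?_, fun τ τ' h h' => ?_, fun τ h => ?_, fun τ τ' h h' h'' => ?_,
    fun τ τ' h h' h'' => ?_⟩, fun τ h => ?_⟩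
  · unfold om
    positivity
  · have := h.trans_le h'
    unfold om
    gcongr
  · obtain ⟨v, v0, e⟩ := hu (2 * τ) (by positivity)
    obtain ⟨u, u0, rfl⟩ := hu τ h
    have h1 : v ≤ 3 / 2 * u := le_of_sq_le_sq (by nlinarith) (by positivity)
    rw [e, hK u u0, hK v v0, ← mul_div_assoc, div_le_div_iff₀ (by positivity) (by positivity)]
    have h2 : v ^ 3 ≤ 3 * u ^ 3 := by nlinarith
    nlinarith
  · obtain ⟨v, v0, rfl⟩ := hu τ' (h.trans_le h')
    obtain ⟨u, u0, rfl⟩ := hu τ h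
    have h1 : u ≤ v := le_of_sq_le_sq h' v0.le
    rw [hK u u0, hK v v0]
    have e : 4 * u ^ 2 * (K / u ^ 3 - K / v ^ 3) - (v ^ 2 - u ^ 2) * (K / u ^ 3) =
        K * (v - u) * (4 * u ^ 2 * (v ^ 2 + v * u + u ^ 2) - (v + u) * v ^ 3) / (u ^ 3 * v ^ 3) := by
      field_simp
      ring
    rw [← sub_nonneg, e]
    refine div_nonneg (mul_nonneg (mul_nonneg K0.le (sub_nonneg.2 h1)) ?_) (by positivity)
    have h2 := mul_le_mul_of_nonneg_left h'' (by positivity : 0 ≤ (v + u) * v)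
    have h3 : 0 ≤ u ^ 2 * (v ^ 2 + v * u + u ^ 2) := by positivity
    have h4 : 0 ≤ u ^ 4 := by positivity
    nlinarith
  · obtain ⟨v, v0, rfl⟩ := hu τ' (h.trans_le h')
    obtain ⟨u, u0, rfl⟩ := hu τ h
    have h1 : u ≤ v := le_of_sq_le_sq h' v0.le
    rw [hK u u0, hK v v0]
    have e : 4 * (u ^ 2 * (K / u ^ 3) - v ^ 2 * (K / v ^ 3)) - (v ^ 2 - u ^ 2) * (K / u ^ 3) =
        K * (v - u) * (4 * u ^ 2 - (v + u) * v) / (u ^ 3 * v) := by
      field_simp
      ring
    rw [← sub_nonneg, e]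
    refine div_nonneg (mul_nonneg (mul_nonneg K0.le (sub_nonneg.2 h1)) ?_) (by positivity)
    nlinarith
  · have t0 : 0 < τ := hd.trans_le h
    have h1 : d ≤ √(τ * d) := Real.le_sqrt_of_sq_le (by nlinarith)
    rw [om, div_mul_eq_mul_div, div_le_iff₀ (by positivity)]
    gcongr

end Vale.Agent.P097S
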