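import Vale.Agent.P097S.CDefs

/-!
# P097S: crude bounds improve away from the boundary
-/

set_option linter.all false

noncomputable section

namespace Vale.Agent.P097S

open Filter Topology Set Metric Vale.Agent.P097N
open Complex (I)

namespace SharpAux

/-- descent along vertical rays -/
theorem ray {P : ℂ → ℕ → Prop} {F : ℂ → ℂ} {Ψ : ℂ → ℕ → ℝ} {h b : ℝ} (h0 : 0 < h)
    (base : ∀ x k, P x k → x.im < b → ‖F x‖ ≤ Ψ x k)
    (step : ∀ x k, P x k → b ≤ x.im → P (x - h * I) (k + 1) ∧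
      ‖F x - F (x - h * I)‖ + Ψ (x - h * I) (k + 1) ≤ Ψ x k) (x : ℂ) (k : ℕ) (hx : P x k) :
    ‖F x‖ ≤ Ψ x k := by
  have key : ∀ n : ℕ, ∀ x k, x.im < b + n * h → P x k → ‖F x‖ ≤ Ψ x k := by
    intro n
    induction n with
    | zero => exact fun x k e hx => base x k hx (by simpa using e)
    | succ n ih =>
      intro x k e hx
      rcases lt_or_ge x.im b with c | c
      · exact base x k hx c
      · obtain ⟨s1, s2⟩ := step x k hx c
        have a1 := ih (x - h * I) (k + 1) (by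
          push_cast at e
          simp
          linarith) s1
        have a2 := norm_add_le (F x - F (x - h * I)) (F (x - h * I))
        rw [sub_add_cancel] at a2
        linarith
  obtain ⟨n, hn⟩ := exists_nat_gt ((x.im - b) / h)
  rw [div_lt_iff₀ h0] at hn
  exact key n x k (by linarith) hx

/-- one step of the descent -/
theorem seg (M : M0) {F : ℂ → ℂ} {x w : ℂ} {h B G : ℝ} {k : ℕ} (w0 : w ≠ 0) (h0 : 0 ≤ h)
    (G0 : 0 ≤ G) (H : ∀ θ ∈ Icc (0 : ℝ) h,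
      DifferentiableOn ℂ F (ball (x - θ * I) ((3 * k + 2) * ‖w‖)) ∧
      (∀ u ∈ ball (x - θ * I) ((3 * k + 2) * ‖w‖), ‖F u‖ ≤ B) ∧
      ∀ u ∈ ball (x - θ * I) ((3 * k + 2) * ‖w‖), u + w ∈ ball (x - θ * I) ((3 * k + 2) * ‖w‖) →
        ‖F (u + w) - F u‖ ≤ G) :
    ‖F x - F (x - h * I)‖ ≤ (2 * G + B / 2 ^ k) / ‖w‖ * h := by
  have W0 : 0 < ‖w‖ := norm_pos_iff.2 w0
  have a := norm_image_sub_le_of_norm_deriv_le_segment' (f := fun θ : ℝ => F (x - θ * I))
    (f' := fun θ : ℝ => deriv F (x - θ * I) * -I) (a := 0) (b := h)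
    (C := (2 * G + B / 2 ^ k) / ‖w‖) (fun θ hθ => by
      have d1 : DifferentiableAt ℂ F (x - θ * I) :=
        (H θ hθ).1.differentiableAt (ball_mem_nhds _ (by positivity))
      have d2 : HasDerivAt (fun t : ℂ => x - t * I) (-I) θ :=
        (((hasDerivAt_id' (θ : ℂ)).mul_const I).const_sub x).congr_deriv (by rw [one_mul])
      exact (HasDerivAt.comp (h := fun t : ℂ => x - t * I) (θ : ℂ) d1.hasDerivAt
        d2).comp_ofReal.hasDerivWithinAt)
    (fun θ hθ => by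
      obtain ⟨b1, b2, b3⟩ := H θ (Ico_subset_Icc_self hθ)
      rw [norm_mul, norm_neg, Complex.norm_I, mul_one, le_div_iff₀ W0]
      exact M F _ w k B G w0 b1 b2 b3 G0) h ⟨h0, le_rfl⟩
  rw [norm_sub_rev] at a
  simpa using a

/-- the distance from the two upper sides is at least `t` -/
def Dp (r s a σ : ℝ) (w x : ℂ) (t : ℝ) : Prop :=
  2 * t ≤ a * (r - x.im) - |x.re - s| ∧ t ≤ ((fc r s w x).im - σ) * ‖w‖

/-- the constants -/
structure Ct (w : ℂ) (r κ a g h : ℝ) : Prop where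
  w0 : w ≠ 0
  a0 : 0 < a
  a1 : a ≤ 1
  g0 : 0 ≤ g
  ga : 2 * g ≤ a
  gw : g * ‖w‖ ≤ w.re
  κ0 : 0 < κ
  ak : 8 * a * r ≤ κ
  h0 : 0 < h
  hk : 16 * h ≤ κ
  wk : 8 * ‖w‖ ≤ κ
  gh : g * h = 6 * ‖w‖

variable {w x u : ℂ} {r κ s a g h σ t : ℝ}

theorem Dp.mono {t' : ℝ} (d : Dp r s a σ w x t) (e : t' ≤ t) : Dp r s a σ w x t' :=
  ⟨by linarith [d.1], e.trans d.2⟩

theorem Dp.lip (c : Ct w r κ a g h) (d : Dp r s a σ w x t) (u : ℂ) :
    Dp r s a σ w u (t - ‖u - x‖) := by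
  have W0 : 0 < ‖w‖ := norm_pos_iff.2 c.w0
  have a1 := Complex.abs_re_le_norm (u - x)
  have a2 := (abs_le.1 (Complex.abs_im_le_norm (u - x))).2
  rw [Complex.sub_re] at a1
  rw [Complex.sub_im] at a2
  constructor
  · have a3 := abs_sub_le u.re x.re s
    have a4 := mul_le_mul_of_nonneg_left a2 c.a0.le
    have a5 := mul_le_mul_of_nonneg_right c.a1 (norm_nonneg (u - x))
    linarith [d.1]
  · have e : fc r s w u = fc r s w x - (u - x) / w := by
      unfold fc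
      ring
    have a3 := (abs_le.1 (Complex.abs_im_le_norm ((u - x) / w))).2
    rw [norm_div, le_div_iff₀ W0] at a3
    rw [e, Complex.sub_im]
    linarith [d.2]

theorem Dp.down (c : Ct w r κ a g h) (d : Dp r s a σ w x t) {θ : ℝ} (θ0 : 0 ≤ θ) :
    Dp r s a σ w (x - θ * I) (t + g * θ) := by
  have W0 : 0 < ‖w‖ := norm_pos_iff.2 c.w0
  constructor
  · have a1 := mul_le_mul_of_nonneg_right c.ga θ0
    have e1 : (x - θ * I).im = x.im - θ := by simp
    have e2 : (x - θ * I).re = x.re := by simp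
    rw [e1, e2]
    linarith [d.1]
  · have e : fc r s w (x - θ * I) = fc r s w x + θ * I / w := by
      unfold fc
      ring
    have e2 : (θ * I / w).im * ‖w‖ = θ * (w.re / ‖w‖) := by
      rw [Complex.div_im, Complex.normSq_eq_norm_sq]
      simp
      field_simp
    have a1 : g ≤ w.re / ‖w‖ := (le_div_iff₀ W0).2 c.gw
    have a2 := mul_le_mul_of_nonneg_left a1 θ0
    rw [e, Complex.add_im]
    linarith [d.2]

theorem Dp.mem (c : Ct w r κ a g h) (d : Dp r s a σ w x t) (t0 : 0 < t) (e : κ / 4 < x.im) :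
    x ∈ Om r κ s a w σ := by
  have W0 : 0 < ‖w‖ := norm_pos_iff.2 c.w0
  have a1 := d.1
  have a2 := abs_nonneg (x.re - s)
  refine ⟨⟨e, (pos_iff_pos_of_mul_pos (show 0 < a * (r - x.im) by linarith)).1 c.a0,
    by linarith⟩, ?_⟩
  have := (pos_iff_pos_of_mul_pos (t0.trans_le d.2)).2 W0
  linarith

theorem tube (c : Ct w r κ a g h) {ρ θ : ℝ} (d : Dp r s a σ w x ρ) (e : 3 * κ / 8 ≤ x.im)
    (hτ : h ≤ r - x.im) (hθ : θ ∈ Icc (0 : ℝ) h) (hu : u ∈ ball (x - θ * I) ρ) :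
    u ∈ Om r κ s a w σ ∧ (r - x.im) / 2 ≤ r - u.im ∧ r - u.im ≤ 3 * (r - x.im) ∧
      ∀ t, Dp r s a σ w x t → Dp r s a σ w u (t - ρ) := by
  rw [mem_ball, dist_eq_norm] at hu
  have gθ := mul_nonneg c.g0 hθ.1
  have a1 := abs_le.1 (Complex.abs_im_le_norm (u - (x - θ * I)))
  have e1 : (u - (x - θ * I)).im = u.im - x.im + θ := by
    simp
    ring
  rw [e1] at a1
  have a2 := d.1
  have a3 := abs_nonneg (x.re - s)
  have h0 := c.h0
  have κ0 := c.κ0
  have a4 : a * (r - x.im) ≤ r - x.im := mul_le_of_le_one_left (by linarith) c.a1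
  have a5 : a * (r - x.im) ≤ a * r := mul_le_mul_of_nonneg_left (by linarith) c.a0.le
  refine ⟨((d.down c hθ.1).lip c u).mem c (by linarith) ?_, by linarith [hθ.1],
    by linarith [hθ.2], fun t d' => ((d'.down c hθ.1).lip c u).mono (by linarith)⟩
  linarith [c.ak, c.hk, hθ.2]

variable {Φ : ℂ × ℂ → ℂ} {y₀ y : ℂ → ℂ} {a' T ε E C₀ : ℝ} {ω : ℝ → ℝ}

/-- the first stage -/
theorem st1 (S : SEC) (M : M0) (c : Ct w r κ a g h) (o : Wt ω)
    (f : Fw Φ y₀ w r κ s a' T ε E C₀ ω) (E0 : 0 ≤ E) (hT : h ≤ T)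
    (sub : Om r κ s a w σ ⊆ Cn r s a' T (κ / 4)) (ex : Ex Φ y₀ w r κ ε (Om r κ s a w σ) y)
    (x : ℂ) (k : ℕ) (h1 : x ∈ Om r κ s a w σ) (h2 : x + w ∈ Om r κ s a w σ)
    (h3 : Dp r s a σ w x ((3 * k + 3) * ‖w‖)) :
    ‖y (x + w) - y x - w‖ ≤ C₀ * ‖w‖ ^ 3 + 384 * E * ‖w‖ ^ 3 * ω (r - x.im) + h / 8 / 2 ^ k := by
  have W0 : 0 < ‖w‖ := norm_pos_iff.2 c.w0
  have h0 := c.h0
  have κ0 := c.κ0
  refine ray (P := fun x k => x ∈ Om r κ s a w σ ∧ x + w ∈ Om r κ s a w σ ∧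
    Dp r s a σ w x ((3 * k + 3) * ‖w‖)) (F := fun x => y (x + w) - y x - w)
    (Ψ := fun x k => C₀ * ‖w‖ ^ 3 + 384 * E * ‖w‖ ^ 3 * ω (r - x.im) + h / 8 / 2 ^ k)
    (b := 3 * κ / 8) h0 ?_ ?_ x k ⟨h1, h2, h3⟩
  · rintro x k ⟨p1, p2, -⟩ e
    have a1 := (abs_le.1 (Complex.abs_im_le_norm w)).2
    have a2 : (x + w).im < κ / 2 := by
      rw [Complex.add_im]
      linarith [c.wk]
    have a3 : κ / 4 < x.im := p1.1.1
    have a4 : κ / 4 < (x + w).im := p2.1.1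
    have a5 := f.bv x (show |x.im| < κ / 2 from abs_lt.2 ⟨by linarith, by linarith⟩)
      (show |(x + w).im| < κ / 2 from abs_lt.2 ⟨by linarith, a2⟩)
    have a6 := o.pos _ p1.1.2.1
    rw [ex.eq _ p1 (by linarith), ex.eq _ p2 a2]
    refine a5.trans ?_
    have : 0 ≤ 384 * E * ‖w‖ ^ 3 * ω (r - x.im) + h / 8 / 2 ^ k := by positivity
    linarith
  · rintro x k ⟨p1, p2, p3⟩ e
    have τ0 : 0 < r - x.im := p1.1.2.1
    have hτ : h ≤ r - x.im := hT.trans (sub p1).2.1.le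
    have ω0 := o.pos _ τ0
    have k0 : (0 : ℝ) ≤ k := Nat.cast_nonneg k
    have kw := mul_nonneg k0 W0.le
    have tb := fun θ hθ u hu => tube (u := u) (θ := θ) c p3 e hτ hθ hu
    have m1 : ∀ z u : ℂ, u ∈ ball z ((3 * k + 2) * ‖w‖) → u ∈ ball z ((3 * k + 3) * ‖w‖) :=
      fun z u hu => ball_subset_ball (by linarith) hu
    have m2 : ∀ z u : ℂ, u ∈ ball z ((3 * k + 2) * ‖w‖) → u + w ∈ ball z ((3 * k + 3) * ‖w‖) := by
      intro z u hu
      rw [mem_ball, dist_eq_norm] at hu ⊢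
      have := norm_add_le (u - z) w
      rw [sub_add_eq_add_sub] at this
      linarith
    have c0 : x - h * I ∈ ball (x - h * I) ((3 * k + 2) * ‖w‖) := mem_ball_self (by positivity)
    refine ⟨⟨(tb h ⟨h0.le, le_rfl⟩ _ (m1 _ _ c0)).1, (tb h ⟨h0.le, le_rfl⟩ _ (m2 _ _ c0)).1,
      (p3.down c h0.le).mono ?_⟩, ?_⟩
    · rw [c.gh]
      push_cast
      linarith
    have a1 := seg M (F := fun x => y (x + w) - y x - w) (x := x) (k := k) (B := ‖w‖ / 16)
      (G := 48 * E * (ω (r - x.im) / (r - x.im)) * ‖w‖ ^ 4) c.w0 h0.le (by positivity)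
      fun θ hθ => ⟨((ex.d.comp (differentiableOn_id.add_const w)
        fun u hu => (tb θ hθ _ (m2 _ _ hu)).1).sub
          (ex.d.mono fun u hu => (tb θ hθ _ (m1 _ _ hu)).1)).sub_const w,
        fun u hu => ex.v u (tb θ hθ _ (m1 _ _ hu)).1 (tb θ hθ _ (m2 _ _ hu)).1,
        fun u hu hu' => by
          obtain ⟨q1, -⟩ := tb θ hθ _ (m1 _ _ hu)
          obtain ⟨q2, q4, -⟩ := tb θ hθ _ (m1 _ _ hu')
          obtain ⟨q3, -⟩ := tb θ hθ _ (m2 _ _ hu')
          have l := ex.law (u + w) q2 (by rwa [add_sub_cancel_right]) q3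
          rw [add_sub_cancel_right] at l
          have b1 := S Φ (y u) (y (u + w)) (y (u + w + w)) w _ c.w0
            (f.calm _ (sub q2) _ (ex.p _ q2)) (ex.v u q1 q2) (ex.v _ q2 q3) l
          have b2 : ω (r - (u + w).im) ≤ 3 * ω (r - x.im) := by
            have := o.dbl ((r - x.im) / 2) (by linarith)
            rw [mul_div_cancel₀ _ two_ne_zero] at this
            exact (o.anti _ _ (by linarith) q4).trans this
          have b3 : ω (r - (u + w).im) / (r - (u + w).im) ≤ 6 * (ω (r - x.im) / (r - x.im)) := by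
            refine (div_le_div₀ (by positivity) b2 (by linarith) q4).trans (le_of_eq ?_)
            field_simp
            norm_num
          refine ((congrArg norm (by ring)).trans_le b1).trans ?_
          have b4 := mul_le_mul_of_nonneg_left b3 (show 0 ≤ 8 * E * ‖w‖ ^ 4 by positivity)
          calc _ = 8 * E * ‖w‖ ^ 4 * (ω (r - (u + w).im) / (r - (u + w).im)) := by ring
            _ ≤ _ := b4
            _ = _ := by ring⟩
    have e1 : r - (x - h * I).im = r - x.im + h := by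
      simp
      ring
    have a2 := o.s1 (r - x.im) (r - x.im + h) τ0 (by linarith) (by linarith)
    rw [add_sub_cancel_left] at a2
    have a3 : h * (ω (r - x.im) / (r - x.im)) ≤ 4 * (ω (r - x.im) - ω (r - x.im + h)) := by
      rw [← mul_div_assoc, div_le_iff₀ τ0]
      linarith
    have a4 := mul_le_mul_of_nonneg_left a3 (show 0 ≤ 96 * E * ‖w‖ ^ 3 by positivity)
    have a5 : (2 * (48 * E * (ω (r - x.im) / (r - x.im)) * ‖w‖ ^ 4) + ‖w‖ / 16 / 2 ^ k) / ‖w‖ * h =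
        96 * E * ‖w‖ ^ 3 * (h * (ω (r - x.im) / (r - x.im))) + h / 8 / 2 ^ (k + 1) := by
      field_simp
      ring
    have a6 : h / 8 / 2 ^ k = 2 * (h / 8 / 2 ^ (k + 1)) := by
      field_simp
      ring
    simp only [e1]
    linarith

/-- the second stage -/
theorem st2 (S : SEC) (M : M0) (c : Ct w r κ a g h) (o : Wt ω)
    (f : Fw Φ y₀ w r κ s a' T ε E C₀ ω) (E0 : 0 ≤ E) (C0 : 0 ≤ C₀) (ε0 : 0 ≤ ε) (hT : h ≤ T)
    (sub : Om r κ s a w σ ⊆ Cn r s a' T (κ / 4)) (ex : Ex Φ y₀ w r κ ε (Om r κ s a w σ) y)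
    (x : ℂ) (k : ℕ) (h1 : x ∈ Om r κ s a w σ) (h3 : Dp r s a σ w x ((6 * k + 5) * ‖w‖)) :
    ‖y x - x‖ ≤ C₀ * ‖w‖ ^ 2 * (1 + 2 * x.im) +
      9216 * E * ‖w‖ ^ 2 * ((r - x.im) * ω (r - x.im)) +
      h / ‖w‖ * (h / 2 + 6 * ε * (r - x.im + h)) / 2 ^ k := by
  have W0 : 0 < ‖w‖ := norm_pos_iff.2 c.w0
  have h0 := c.h0
  have κ0 := c.κ0
  refine ray (P := fun x k => x ∈ Om r κ s a w σ ∧ Dp r s a σ w x ((6 * k + 5) * ‖w‖))
    (F := fun x => y x - x) (Ψ := fun x k => C₀ * ‖w‖ ^ 2 * (1 + 2 * x.im) +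
      9216 * E * ‖w‖ ^ 2 * ((r - x.im) * ω (r - x.im)) +
      h / ‖w‖ * (h / 2 + 6 * ε * (r - x.im + h)) / 2 ^ k)
    (b := 3 * κ / 8) h0 ?_ ?_ x k ⟨h1, h3⟩
  · rintro x k ⟨p1, -⟩ e
    have a3 : κ / 4 < x.im := p1.1.1
    have a5 := f.bp x (show |x.im| < κ from abs_lt.2 ⟨by linarith, by linarith⟩)
    have τ0 : 0 < r - x.im := p1.1.2.1
    have a6 := o.pos _ τ0
    have a7 : 0 < x.im := by linarith
    rw [ex.eq _ p1 (by linarith)]
    refine a5.trans ?_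
    have : 0 ≤ C₀ * ‖w‖ ^ 2 * (2 * x.im) + 9216 * E * ‖w‖ ^ 2 * ((r - x.im) * ω (r - x.im)) +
      h / ‖w‖ * (h / 2 + 6 * ε * (r - x.im + h)) / 2 ^ k := by positivity
    linarith
  · rintro x k ⟨p1, p3⟩ e
    have τ0 : 0 < r - x.im := p1.1.2.1
    have hτ : h ≤ r - x.im := hT.trans (sub p1).2.1.le
    have ω0 := o.pos _ τ0
    have k0 : (0 : ℝ) ≤ k := Nat.cast_nonneg k
    have kw := mul_nonneg k0 W0.le
    have tb := fun θ hθ u hu => tube (u := u) (θ := θ) (ρ := (3 * k + 2) * ‖w‖) c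
      (p3.mono (by linarith)) e hτ hθ hu
    refine ⟨⟨(tb h ⟨h0.le, le_rfl⟩ _ (mem_ball_self (by positivity))).1,
      (p3.down c h0.le).mono ?_⟩, ?_⟩
    · rw [c.gh]
      push_cast
      linarith
    have a1 := seg M (F := fun x => y x - x) (x := x) (k := k) (B := 3 * ε * (r - x.im))
      (G := C₀ * ‖w‖ ^ 3 + 1152 * E * ‖w‖ ^ 3 * ω (r - x.im) + h / 8 / 2 ^ k) c.w0 h0.le
      (by positivity)
      fun θ hθ => ⟨(ex.d.mono fun u hu => (tb θ hθ _ hu).1).sub differentiableOn_id,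
        fun u hu => by
          obtain ⟨q1, -, q2, -⟩ := tb θ hθ _ hu
          linarith [ex.p u q1, mul_le_mul_of_nonneg_left q2 ε0],
        fun u hu hu' => by
          obtain ⟨q1, q4, -, q5⟩ := tb θ hθ _ hu
          have b1 := st1 S M c o f E0 hT sub ex u k q1 (tb θ hθ _ hu').1
            ((q5 _ p3).mono (by linarith))
          have b2 : ω (r - u.im) ≤ 3 * ω (r - x.im) := by
            have := o.dbl ((r - x.im) / 2) (by linarith)
            rw [mul_div_cancel₀ _ two_ne_zero] at this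
            exact (o.anti _ _ (by linarith) q4).trans this
          refine ((congrArg norm (by ring)).trans_le b1).trans ?_
          linarith [mul_le_mul_of_nonneg_left b2 (show 0 ≤ 384 * E * ‖w‖ ^ 3 by positivity)]⟩
    have e1 : (x - h * I).im = x.im - h := by simp
    have e2 : r - (x.im - h) = r - x.im + h := by ring
    have a2 := o.s2 (r - x.im) (r - x.im + h) τ0 (by linarith) (by linarith)
    rw [add_sub_cancel_left] at a2
    have a4 := mul_le_mul_of_nonneg_left a2 (show 0 ≤ 2304 * E * ‖w‖ ^ 2 by positivity)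
    have a5 : (2 * (C₀ * ‖w‖ ^ 3 + 1152 * E * ‖w‖ ^ 3 * ω (r - x.im) + h / 8 / 2 ^ k) +
        3 * ε * (r - x.im) / 2 ^ k) / ‖w‖ * h = C₀ * ‖w‖ ^ 2 * (2 * h) +
        2304 * E * ‖w‖ ^ 2 * (h * ω (r - x.im)) +
        (h / ‖w‖ * (h / 2 + 6 * ε * (r - x.im + h)) / 2 ^ k -
          h / ‖w‖ * (h / 2 + 6 * ε * (r - x.im + h + h)) / 2 ^ (k + 1)) := by
      field_simp
      ring
    simp only [e1, e2]
    linarith

end SharpAux

open SharpAux in
theorem sharp (S : SEC) (M : M0) : SHARP := by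
  intro a₁ γ ε η a0 a1 γ0 ε0 η0
  obtain ⟨g, hg⟩ : ∃ g, g = min (a₁ / 2) γ := ⟨_, rfl⟩
  have g0 : 0 < g := hg ▸ lt_min (by linarith) γ0
  have g1 : g ≤ a₁ / 2 := hg ▸ min_le_left _ _
  have g2 : g ≤ γ := hg ▸ min_le_right _ _
  obtain ⟨c, hc⟩ : ∃ c, c = 6 / g := ⟨_, rfl⟩
  have gc : g * c = 6 := by rw [hc, mul_div_cancel₀ _ g0.ne']
  have c1 : 1 ≤ c := by
    rw [hc, le_div_iff₀ g0]
    linarith
  have c0 : 0 < c := by linarith
  obtain ⟨k, hk⟩ := pow_unbounded_of_one_lt ((c + 12 * c * ε) / (η / 2)) (one_lt_two (α := ℝ))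
  rw [div_lt_iff₀ (by linarith)] at hk
  have cε : 0 ≤ 12 * c * ε := by positivity
  obtain ⟨m, hm⟩ : ∃ m, m = min (1 / (16 * c)) (η / 2 / (9218 + c ^ 2)) := ⟨_, rfl⟩
  have m0 : 0 < m := hm ▸ lt_min (by positivity) (by positivity)
  have m1 : m * (16 * c) ≤ 1 := (le_div_iff₀ (by positivity)).1 (hm ▸ min_le_left _ _)
  have m2 : m * (9218 + c ^ 2) ≤ η / 2 := (le_div_iff₀ (by positivity)).1 (hm ▸ min_le_right _ _)
  have k0 : (0 : ℝ) ≤ k := Nat.cast_nonneg k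
  refine ⟨m, 12 * k + 10, m0, by linarith, ?_⟩
  intro Φ y₀ y w r κ s a T E C₀ σ ω o f sm hγ ak sub ex x h1 h2 h3 h4
  have W0 : 0 < ‖w‖ := norm_pos_iff.2 sm.w0
  have κ0 := sm.κ0
  have T0 : 0 < T := (pos_iff_pos_of_mul_pos (W0.trans_le sm.t)).1 m0
  have Tτ : T ≤ r - x.im := (sub h1).2.1.le
  have τ0 : 0 < r - x.im := by linarith
  have E0 : 0 ≤ E := by linarith [sm.E1]
  have cw : ‖w‖ ≤ c * ‖w‖ := le_mul_of_one_le_left W0.le c1
  have b1 : 16 * (c * ‖w‖) ≤ κ := by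
    have := mul_le_mul_of_nonneg_left sm.k (show 0 ≤ 16 * c by positivity)
    linarith [mul_le_mul_of_nonneg_right m1 κ0.le]
  have b2 : 16 * (c * ‖w‖) ≤ T := by
    have := mul_le_mul_of_nonneg_left sm.t (show 0 ≤ 16 * c by positivity)
    linarith [mul_le_mul_of_nonneg_right m1 T0.le]
  have b3 : c * ‖w‖ ≤ T := by linarith
  have ct : Ct w r κ a₁ g (c * ‖w‖) := ⟨sm.w0, a0, a1, g0.le, by linarith,
    (mul_le_mul_of_nonneg_right g2 W0.le).trans hγ, κ0, ak, by positivity, b1, by linarith,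
    by rw [← mul_assoc, gc]⟩
  have kw := mul_nonneg k0 W0.le
  have dp : Dp r s a₁ σ w x ((6 * k + 5) * ‖w‖) :=
    ⟨by linarith, mul_le_mul_of_nonneg_right (by linarith) W0.le⟩
  have s1 := st1 S M ct o f E0 b3 sub ex x k h1 h2 (dp.mono (by linarith))
  have s2 := st2 S M ct o f E0 sm.C0 ε0.le b3 sub ex x k h1 dp
  have e1 : E * ‖w‖ ^ 2 * ω (r - x.im) ≤ m :=
    (mul_le_mul_of_nonneg_left (o.anti _ _ T0 Tτ) (by positivity)).trans sm.e
  have p0 : (0 : ℝ) < 2 ^ k := by positivity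
  have p1 : (1 : ℝ) ≤ 2 ^ k := one_le_pow₀ one_le_two
  have mc : 0 ≤ m * c ^ 2 := by positivity
  have mT := mul_le_mul_of_nonneg_left Tτ m0.le
  constructor
  · refine s2.trans ?_
    have u1 : C₀ * ‖w‖ ^ 2 * (1 + 2 * x.im) ≤ 2 * (m * (r - x.im)) := by
      have := mul_le_mul_of_nonneg_left (show 1 + 2 * x.im ≤ 2 * (1 + r) by linarith)
        (mul_nonneg sm.C0 (sq_nonneg ‖w‖))
      linarith [sm.ct]
    have u2 := mul_le_mul_of_nonneg_right e1 τ0.le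
    have u3 : c * ‖w‖ / ‖w‖ * (c * ‖w‖ / 2 + 6 * ε * (r - x.im + c * ‖w‖)) / 2 ^ k ≤
        c ^ 2 * (m * (r - x.im)) + η / 2 * (r - x.im) := by
      rw [mul_div_cancel_right₀ _ W0.ne', div_le_iff₀ p0]
      have v1 := mul_le_mul_of_nonneg_left (sm.t.trans mT) (sq_nonneg c)
      have v2 := mul_le_mul_of_nonneg_left (b3.trans Tτ) cε
      have v3 := mul_le_mul_of_nonneg_right (show 12 * c * ε ≤ 2 ^ k * (η / 2) by linarith) τ0.le
      have v4 : 0 ≤ c ^ 2 * (m * (r - x.im)) := by positivity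
      have v5 := mul_le_mul_of_nonneg_left p1 v4
      have v6 : 0 ≤ c ^ 2 * ‖w‖ := by positivity
      linarith
    linarith [mul_le_mul_of_nonneg_right m2 τ0.le]
  · refine s1.trans ?_
    have u1 := mul_le_mul_of_nonneg_right sm.c W0.le
    have u2 := mul_le_mul_of_nonneg_right e1 W0.le
    have u3 : c * ‖w‖ / 8 / 2 ^ k ≤ η / 2 * ‖w‖ := by
      rw [div_le_iff₀ p0]
      have := mul_le_mul_of_nonneg_right (show c ≤ 2 ^ k * (η / 2) by linarith) W0.le
      linarith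
    have u4 := mul_le_mul_of_nonneg_right (show m * 385 ≤ η / 2 by linarith) W0.le
    linarith

end Vale.Agent.P097S
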