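import Vale.Agent.P097S.CDefs

/-!
# P097S: steep directions and the low layers
-/

set_option linter.all false

noncomputable section

namespace Vale.Agent.P097S

open Filter Topology Set Metric Vale.Agent.P097N

variable {Φ : ℂ × ℂ → ℂ} {y₀ y : ℂ → ℂ} {w : ℂ} {r κ s a T ε E C₀ m : ℝ} {ω : ℝ → ℝ} {U : Set ℂ}

theorem Fw.neg (h : Fw Φ y₀ w r κ s a T ε E C₀ ω) : Fw Φ y₀ (-w) r κ s a T ε E C₀ ω where
  calm := by simpa only [norm_neg] using h.calm
  d0 := h.d0
  bp := by simpa only [norm_neg] using h.bp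
  bv x hx hw := by
    have := h.bv (x + -w) hw (by simpa using hx)
    rw [neg_add_cancel_right] at this
    rw [norm_neg, ← norm_neg]
    exact le_of_eq_of_le (by congr 1; ring) this
  law x hx h1 h2 h3 := by
    rw [sub_neg_eq_add] at h1 ⊢
    rw [← sub_eq_add_neg] at h3 ⊢
    rw [add_comm]
    exact h.law x hx h3 h2 h1

theorem Sm.neg (h : Sm m w r κ T E C₀ ω) : Sm m (-w) r κ T E C₀ ω :=
  ⟨neg_ne_zero.2 h.w0, h.κ0, h.kr, h.E1, h.C0, by simpa only [norm_neg] using h.e,
    by simpa only [norm_neg] using h.t, by simpa only [norm_neg] using h.k,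
    by simpa only [norm_neg] using h.c, by simpa only [norm_neg] using h.ct⟩

theorem Ex.neg (h : Ex Φ y₀ w r κ ε U y) : Ex Φ y₀ (-w) r κ ε U y where
  d := h.d
  eq := h.eq
  p := h.p
  v x hx hw := by
    have := h.v (x + -w) hw (by simpa using hx)
    rw [neg_add_cancel_right] at this
    rw [norm_neg, ← norm_neg]
    exact le_of_eq_of_le (by congr 1; ring) this
  law x hx h1 h3 := by
    rw [sub_neg_eq_add] at h1 ⊢
    rw [← sub_eq_add_neg] at h3 ⊢
    rw [add_comm]
    exact h.law x hx h3 h1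

theorem Ex.neg' (h : Ex Φ y₀ (-w) r κ ε U y) : Ex Φ y₀ w r κ ε U y := by
  simpa only [neg_neg] using h.neg

namespace Steep

theorem cn_open (r s a d b : ℝ) : IsOpen (Cn r s a d b) :=
  (isOpen_lt continuous_const Complex.continuous_im).inter
    ((isOpen_lt (f := fun _ : ℂ => d) (g := fun y => r - y.im) continuous_const (by fun_prop)).inter
      (isOpen_lt (f := fun y : ℂ => |y.re - s|) (g := fun y => a * (r - y.im)) (by fun_prop)
        (by fun_prop)))

theorem om_open (r κ s a : ℝ) (w : ℂ) (σ : ℝ) : IsOpen (Om r κ s a w σ) :=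
  (cn_open _ _ _ _ _).inter (isOpen_lt (f := fun _ : ℂ => σ) (g := fun x => (fc r s w x).im)
    continuous_const (by unfold fc; fun_prop))

theorem fc_add (r s : ℝ) {w : ℂ} (h : w ≠ 0) (x : ℂ) :
    (fc r s w (x + w)).im = (fc r s w x).im := by
  rw [show fc r s w (x + w) = fc r s w x - 1 by unfold fc; field_simp; ring]
  simp

theorem up (dyn : DYN) (hε : 0 < ε) (m1 : m ≤ 1 / 784) (m2 : 290 * m ≤ ε) (a0 : 0 < a)
    (a1 : a ≤ 1) (hω : Wt ω) (F : Fw Φ y₀ w r κ s a T ε E C₀ ω) (S : Sm m w r κ T E C₀ ω)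
    (hv : 0 < w.im) (hw : |w.re| ≤ a * w.im) :
    ∃ y, Ex Φ y₀ w r κ ε (Cn r s a T (κ / 4)) y := by
  have ρ0 : 0 < ‖w‖ := norm_pos_iff.2 S.w0
  have κ0 := S.κ0
  have C0 := S.C0
  have E0 : 0 < E := by linarith [S.E1]
  have m0 : 0 < m := by
    by_contra k
    nlinarith [S.k]
  have T0 : 0 < T := by
    by_contra k
    nlinarith [S.t]
  have v1 : w.im ≤ ‖w‖ := (le_abs_self _).trans (Complex.abs_im_le_norm w)
  have v2 : 2 * ‖w‖ ≤ 3 * w.im := by
    have e : ‖w‖ ^ 2 = w.re ^ 2 + w.im ^ 2 := by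
      rw [← Complex.normSq_eq_norm_sq, Complex.normSq_apply]; ring
    have e1 : |w.re| ≤ w.im := hw.trans (by nlinarith)
    have e2 : w.re ^ 2 ≤ w.im ^ 2 := by
      rw [← sq_abs w.re]; exact pow_le_pow_left₀ (abs_nonneg _) e1 2
    exact abs_le_of_sq_le_sq' (by nlinarith) (by positivity) |>.2
  have vT : w.im ≤ T := by nlinarith [S.t]
  have vκ : 16 * w.im ≤ κ := by nlinarith [S.k]
  have down : ∀ x ∈ Cn r s a T (κ / 4), κ / 4 < x.im - w.im → x - w ∈ Cn r s a T (κ / 4) := by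
    rintro x ⟨-, h2, h3⟩ h
    refine ⟨by simpa using h, by simp only [Complex.sub_im]; linarith, ?_⟩
    simp only [Complex.sub_im, Complex.sub_re]
    have := abs_sub (x.re - s) w.re
    rw [show x.re - w.re - s = x.re - s - w.re by ring]
    nlinarith
  have nre : ∀ x : ℂ, (-Complex.I / (w.im : ℂ) * x).re = x.im / w.im := fun x => by
    rw [div_mul_eq_mul_div, Complex.div_ofReal_re]
    simp
  have st : ∀ x ∈ Cn r s a T (κ / 4) ∩ {x | x.im < κ / 2}, x ∈ St (κ / 2) := fun x hx =>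
    (abs_lt (a := x.im)).2 ⟨by linarith [hx.1.1], hx.2⟩
  have st' : ∀ x ∈ Cn r s a T (κ / 4) ∩ {x | x.im < κ / 2}, x ∈ St κ := fun x hx =>
    lt_trans (st x hx) (half_lt_self κ0)
  have bd : ∀ x ∈ Cn r s a T (κ / 4), 0 < ω (r - x.im) ∧ E * ‖w‖ ^ 2 * ω (r - x.im) ≤ m :=
    fun x hx => ⟨hω.pos _ (T0.trans hx.2.1), le_trans
      (mul_le_mul_of_nonneg_left (hω.anti _ _ T0 hx.2.1.le) (by positivity)) S.e⟩
  have bV : ∀ x ∈ Cn r s a T (κ / 4), ‖w‖ ^ 3 * (C₀ + 48 * E * ω (r - x.im)) ≤ ‖w‖ / 16 :=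
    fun x hx => by
    have := (bd x hx).2
    have := S.c
    have : ‖w‖ ^ 2 * (C₀ + 48 * E * ω (r - x.im)) ≤ 1 / 16 := by nlinarith
    nlinarith
  have bP : ∀ x ∈ Cn r s a T (κ / 4), ‖w‖ ^ 2 * (C₀ + 2 * C₀ * x.im +
      288 * E * ((r - x.im) * ω (r - x.im))) ≤ ε * (r - x.im) := fun x hx => by
    have h1 := (bd x hx).2
    have h2 := S.ct
    have h3 := hx.2.1
    have h4 : 0 ≤ C₀ * ‖w‖ ^ 2 := by positivity
    have h5 : C₀ * ‖w‖ ^ 2 * x.im ≤ C₀ * ‖w‖ ^ 2 * r := mul_le_mul_of_nonneg_left (by linarith) h4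
    have h6 := mul_le_mul_of_nonneg_right h1 (T0.trans h3).le
    have h7 := mul_le_mul_of_nonneg_left h3.le m0.le
    have h8 := mul_le_mul_of_nonneg_right m2 (T0.trans h3).le
    nlinarith
  obtain ⟨y, y1, y2, y3, y4, y5⟩ := dyn Φ (Cn r s a T (κ / 4))
    (Cn r s a T (κ / 4) ∩ {x | x.im < κ / 2}) w (-Complex.I / (w.im : ℂ)) (κ / 2 / w.im)
    (r / w.im) y₀
    (fun x => ‖w‖ ^ 2 * (C₀ + 2 * C₀ * x.im + 288 * E * ((r - x.im) * ω (r - x.im))))
    (fun x => ‖w‖ ^ 3 * (C₀ + 48 * E * ω (r - x.im)))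
    (fun x => E * ω (r - x.im) / (r - x.im)) S.w0 (cn_open _ _ _ _ _)
    ((cn_open _ _ _ _ _).inter (isOpen_lt Complex.continuous_im continuous_const))
    inter_subset_left (by rw [nre, div_self hv.ne'])
    (fun x hx => by rw [nre]; exact div_lt_div_of_pos_right (by linarith [hx.2.1]) hv)
    (fun x hx h => ⟨hx, by rwa [nre, div_lt_div_iff_of_pos_right hv] at h⟩)
    (fun x hx h => ⟨h, by
      have : x.im < κ / 2 := hx.2
      show (x - w).im < κ / 2
      rw [Complex.sub_im]; linarith⟩)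
    (fun x hx h => by
      have h1 : κ / 2 ≤ x.im := not_lt.1 fun k => h ⟨hx, k⟩
      have h2 := down x hx (by linarith)
      have h3 := down _ h2 (by rw [Complex.sub_im]; linarith)
      have τ0 : 0 < r - x.im := T0.trans hx.2.1
      have e : r - (x - w).im = r - x.im + w.im := by rw [Complex.sub_im]; ring
      have l1 : r - x.im ≤ r - x.im + w.im := by linarith
      have l2 : r - x.im + w.im ≤ 2 * (r - x.im) := by linarith [hx.2.1]
      have s1 := hω.s1 _ _ τ0 l1 l2
      have s2 := hω.s2 _ _ τ0 l1 l2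
      have an := hω.anti _ _ τ0 l1
      have p1 := hω.pos _ τ0
      have p2 := hω.pos _ (τ0.trans_le l1)
      refine ⟨h2, by rwa [two_mul, ← sub_sub], ?_, ?_⟩
      · simp only [e]
        generalize r - x.im = τ at *
        generalize ω (τ + w.im) = o' at *
        generalize ω τ = o at *
        have k1 : o' / (τ + w.im) * ‖w‖ ≤ 6 * (o - o') := by
          rw [div_mul_eq_mul_div, div_le_iff₀ (τ0.trans_le l1)]
          have : o' * ‖w‖ ≤ o * ‖w‖ := mul_le_mul_of_nonneg_right an ρ0.le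
          have : 0 ≤ (o - o') * w.im := mul_nonneg (by linarith) hv.le
          nlinarith
        have k2 := mul_le_mul_of_nonneg_left k1 (show 0 ≤ 8 * E * ‖w‖ ^ 3 by positivity)
        rw [mul_div_assoc]
        nlinarith
      · simp only [e]
        rw [Complex.sub_im]
        generalize r - x.im = τ at *
        generalize ω (τ + w.im) = o' at *
        generalize ω τ = o at *
        have k1 : ‖w‖ * o ≤ 6 * (τ * o - (τ + w.im) * o') := by nlinarith
        have k2 := mul_le_mul_of_nonneg_left k1 (show 0 ≤ 48 * E * ‖w‖ ^ 2 by positivity)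
        have k3 : ‖w‖ ≤ 2 * w.im := by linarith
        have k4 := mul_le_mul_of_nonneg_left k3 (show 0 ≤ C₀ * ‖w‖ ^ 2 by positivity)
        nlinarith)
    (fun x hx => ⟨bV x hx, fun b hb => F.calm x hx b (hb.trans (bP x hx))⟩)
    (F.d0.mono st')
    (fun x hx => (F.bp x (st' x hx)).trans (by
      have h1 := (bd x hx.1).1
      have h2 : 0 < x.im := by linarith [hx.1.1]
      have h3 : 0 < r - x.im := T0.trans hx.1.2.1
      have : 0 ≤ ‖w‖ ^ 2 * (2 * C₀ * x.im + 288 * E * ((r - x.im) * ω (r - x.im))) := by positivity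
      nlinarith))
    (fun x hx h => by
      have k := F.bv (x - w) (st _ h) (by rw [sub_add_cancel]; exact st x hx)
      rw [sub_add_cancel] at k
      have h1 := (bd x hx.1).1
      have : 0 ≤ ‖w‖ ^ 3 * (48 * E * ω (r - x.im)) := by positivity
      nlinarith)
    (fun x hx h1 h2 => F.law x hx.1 (st _ h1) (st _ hx) (st _ h2))
  refine ⟨y, y1, fun x hx h => y2 ⟨hx, h⟩, fun x hx => (y3 x hx).trans (bP x hx),
    fun x hx h => ?_, y5⟩
  have := y4 (x + w) h (by rwa [add_sub_cancel_right])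
  rw [add_sub_cancel_right] at this
  exact this.trans (bV _ h)

end Steep

open Steep

theorem steep (dyn : DYN) : STEEP := by
  intro ε hε
  refine ⟨min (1 / 784) (ε / 290), by positivity, fun Φ y₀ w r κ s a T E C₀ ω a0 a1 hω F S hw => ?_⟩
  have m1 : min (1 / 784) (ε / 290) ≤ 1 / 784 := min_le_left _ _
  have m2 : 290 * min (1 / 784) (ε / 290) ≤ ε := by linarith [min_le_right (1 / 784) (ε / 290)]
  rcases lt_trichotomy w.im 0 with h | h | h
  · obtain ⟨y, hy⟩ := up dyn hε m1 m2 a0 a1 hω F.neg S.neg (by simpa using h)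
      (by rwa [Complex.neg_re, Complex.neg_im, abs_neg, ← abs_of_neg h])
    exact ⟨y, hy.neg'⟩
  · rw [h, abs_zero, mul_zero] at hw
    exact absurd (Complex.ext (abs_nonpos_iff.1 hw) h) S.w0
  · exact up dyn hε m1 m2 a0 a1 hω F S h (by rwa [abs_of_pos h] at hw)

theorem lowl : LOWL := by
  intro ε hε
  refine ⟨min (1 / 16) ε, by positivity,
    fun Φ y₀ y w r κ s a a₁ T E C₀ σ σ' ω F S sub X low => ?_⟩
  have m0 : 0 < min (1 / 16) ε := by positivity
  have m1 : min (1 / 16) ε ≤ 1 / 16 := min_le_left _ _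
  have m2 : min (1 / 16) ε ≤ ε := min_le_right _ _
  generalize min (1 / 16) ε = m at *
  have ρ0 : 0 < ‖w‖ := norm_pos_iff.2 S.w0
  have κ0 := S.κ0
  have T0 : 0 < T := by
    by_contra k
    nlinarith [S.t]
  classical
  let z : ℂ → ℂ := fun x => if x.im < κ / 2 then y₀ x else y x
  have z1 : ∀ x ∈ Om r κ s a₁ w σ, z x = y x := fun x hx => by
    simp only [z]
    split_ifs with h
    · exact (X.eq x hx h).symm
    · rfl
  have z2 : ∀ x : ℂ, x.im < κ / 2 → z x = y₀ x := fun x h => if_pos h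
  have hi : ∀ x ∈ Om r κ s a₁ w σ', σ < (fc r s w x).im → x ∈ Om r κ s a₁ w σ :=
    fun x hx h => ⟨hx.1, h⟩
  have lo : ∀ x ∈ Om r κ s a₁ w σ', (fc r s w x).im ≤ σ → x.im < κ / 2 ∧ x ∈ St (κ / 2) :=
    fun x hx h => ⟨by linarith [low x hx h],
      (abs_lt (a := x.im)).2 ⟨by linarith [hx.1.1], by linarith [low x hx h]⟩⟩
  have st : ∀ x ∈ St (κ / 2), x ∈ St κ := fun x hx => lt_trans hx (half_lt_self κ0)
  have fs : ∀ x, (fc r s w (x - w)).im = (fc r s w x).im := fun x => by
    rw [← fc_add r s S.w0 (x - w), sub_add_cancel]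
  refine ⟨z, fun x hx => DifferentiableAt.differentiableWithinAt ?_, fun x _ h => z2 x h,
    fun x hx => ?_, fun x hx h => ?_, fun x hx h1 h2 => ?_⟩
  · rcases lt_or_ge σ (fc r s w x).im with h | h
    · have o := (om_open r κ s a₁ w σ).mem_nhds (hi x hx h)
      exact (X.d.differentiableAt o).congr_of_eventuallyEq (mem_of_superset o z1)
    · have o : IsOpen (St κ) := isOpen_lt (by fun_prop) continuous_const
      exact (F.d0.differentiableAt (o.mem_nhds (st x (lo x hx h).2))).congr_of_eventuallyEq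
        (mem_of_superset ((isOpen_lt Complex.continuous_im continuous_const).mem_nhds
          (lo x hx h).1) z2)
  · rcases lt_or_ge σ (fc r s w x).im with h | h
    · rw [z1 x (hi x hx h)]
      exact X.p x (hi x hx h)
    · rw [z2 x (lo x hx h).1]
      refine (F.bp x (st x (lo x hx h).2)).trans ?_
      have h1 := S.ct
      have h2 := (sub hx).2.1
      have h3 : 0 ≤ C₀ * ‖w‖ ^ 2 * r := mul_nonneg (mul_nonneg S.C0 (by positivity))
        (by linarith [S.kr])
      nlinarith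
  · rcases lt_or_ge σ (fc r s w x).im with k | k
    · have k' := hi _ h (by rwa [fc_add r s S.w0])
      rw [z1 x (hi x hx k), z1 _ k']
      exact X.v x (hi x hx k) k'
    · have k' := lo _ h (by rwa [fc_add r s S.w0])
      rw [z2 x (lo x hx k).1, z2 _ k'.1]
      refine (F.bv x (lo x hx k).2 k'.2).trans ?_
      have := S.c
      nlinarith
  · rcases lt_or_ge σ (fc r s w x).im with k | k
    · have k1 := hi _ h1 (by rwa [fs])
      have k2 := hi _ h2 (by rwa [fc_add r s S.w0])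
      rw [z1 x (hi x hx k), z1 _ k1, z1 _ k2]
      exact X.law x (hi x hx k) k1 k2
    · have k1 := lo _ h1 (by rwa [fs])
      have k2 := lo _ h2 (by rwa [fc_add r s S.w0])
      rw [z2 x (lo x hx k).1, z2 _ k1.1, z2 _ k2.1]
      exact F.law x (sub hx) k1.2 (lo x hx k).2 k2.2

end Vale.Agent.P097S
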