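import Vale.Agent.P097S.Cba
import Vale.Agent.P097S.Sec
import Vale.Agent.P097S.Dyn
import Vale.Agent.P097S.M0
import Vale.Agent.P097S.Steep
import Vale.Agent.P097S.Sharp
import Vale.Agent.P097S.Lat
import Vale.Agent.P097S.Env
import Vale.Agent.P097S.Fin

/-!
# P097S: the cone baseline
-/

namespace Vale.Agent.P097S

theorem cb : Spec_CB := fin (cba joint (steep dyn) (sharp sec m0) (lat dyn)) env wom joint

end Vale.Agent.P097S
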