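import Vale.Agent.P097S.Defs
import Vale.Agent.P097K.Spec

/-!
# P097S: from the count of bad cones to a majorant with bounded moments
-/

set_option linter.all false

noncomputable section

namespace Vale.Agent.P097S

open Filter Topology Set Metric Vale.Agent.P097N
open Vale.Agent.P097C (dd)

namespace Brg

variable {r κ s a d d' A A' R : ℝ} {θ Q : ℂ → ℂ} {Y : ℂ × ℂ → ℂ} {y : ℂ}

theorem kc_mono (h : Kc r θ Q s a d A) (hd : 0 ≤ d) (h1 : d ≤ d') (h2 : d' ≤ R * d) (R1 : 1 ≤ R)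
    (hA : 0 ≤ A) (hA' : R * A ≤ A') : Kc r θ Q s a d' A' := by
  intro y hy
  obtain ⟨k1, k2⟩ := h y ⟨hy.1, h1.trans_lt hy.2.1, hy.2.2⟩
  have t0 : 0 ≤ r - y.im := (hd.trans h1).trans hy.2.1.le
  have e1 : R * A ^ 4 ≤ A' ^ 4 := by
    refine le_trans ?_ (pow_le_pow_left₀ (by positivity) hA' 4)
    rw [mul_pow]
    exact mul_le_mul_of_nonneg_right (le_self_pow₀ R1 (by norm_num)) (by positivity)
  have e2 := mul_le_mul_of_nonneg_right e1 t0
  have key : ∀ X : ℝ, 0 ≤ X → X * d ≤ A ^ 4 * (r - y.im) → X * d' ≤ A' ^ 4 * (r - y.im) :=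
    fun X h0 h => by
      have := mul_le_mul_of_nonneg_left h2 h0
      have := mul_le_mul_of_nonneg_left h (zero_le_one.trans R1)
      nlinarith
  exact ⟨key _ (by positivity) k1, key _ (by positivity) k2⟩

theorem gd_mono (hy : y ∈ St r) (h : Gd r θ Q A y) (hA : 0 ≤ A) (e : A ≤ A') : Gd r θ Q A' y :=
  kc_mono (R := 1) h (by have : |y.im| < r := hy; linarith) le_rfl (by simp) le_rfl hA (by simpa)

/-- the bound at a point of the upper half -/
theorem loc1 (hy : y ∈ St r) (h : Gd r θ Q A y) (hA : 0 ≤ A) {z : ℂ} (h0 : 0 < z.im)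
    (h1 : |z.re - y.re| < (r - |y.im|) / 2) (h2 : |z.im - (|y.im|)| < (r - |y.im|) / 2) :
    ‖deriv θ z‖ * (r - |y.im|) ≤ 6 * A ∧ ‖Q z‖ * (r - |y.im|) ^ 2 ≤ (6 * A) ^ 2 := by
  have t0 : 0 < r - |y.im| := sub_pos.2 hy
  set t := r - |y.im| with ht
  obtain ⟨a1, a2⟩ := abs_lt.1 h2
  obtain ⟨k1, k2⟩ := h z ⟨h0, by linarith, by linarith⟩
  rw [← ht] at k1 k2
  set τ := r - z.im with hτ
  have τ1 : t ≤ 2 * τ := by linarith
  have τ2 : τ ≤ 3 / 2 * t := by linarith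
  have A4 : 0 ≤ A ^ 4 := by positivity
  have key : ∀ X : ℝ, X * (t / 16) ≤ A ^ 4 * τ → X ≤ 24 * A ^ 4 := fun X h => by
    refine le_of_mul_le_mul_right ?_ t0
    nlinarith [mul_le_mul_of_nonneg_left τ2 A4]
  have b1 : ‖deriv θ z‖ * τ ≤ 3 * A :=
    le_of_pow_le_pow_left₀ (n := 4) (by norm_num) (by positivity) (by linarith [key _ k1])
  have b2 : ‖Q z‖ * τ ^ 2 ≤ 5 * A ^ 2 :=
    le_of_pow_le_pow_left₀ (n := 2) (by norm_num) (by positivity) (by linarith [key _ k2])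
  refine ⟨by linarith [mul_le_mul_of_nonneg_left τ1 (norm_nonneg (deriv θ z))], ?_⟩
  have := mul_le_mul_of_nonneg_left (pow_le_pow_left₀ t0.le τ1 2) (norm_nonneg (Q z))
  nlinarith [sq_nonneg A]

theorem loc (cg : ContinuousOn (deriv θ) (St r)) (cQ : ContinuousOn Q (St r))
    (hS : Sym θ Q Y r κ) (hy : y ∈ St r) (h : Gd r θ Q A y) (hA : 0 ≤ A) {z : ℂ}
    (hz : z ∈ ball y ((r - |y.im|) / 2)) :
    ‖deriv θ z‖ * (r - |y.im|) ≤ 6 * A ∧ ‖Q z‖ * (r - |y.im|) ^ 2 ≤ (6 * A) ^ 2 := by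
  have t0 : 0 < r - |y.im| := sub_pos.2 hy
  have b : ∀ z ∈ ball y ((r - |y.im|) / 2), |z.re - y.re| < (r - |y.im|) / 2 ∧
      |(|z.im|) - (|y.im|)| < (r - |y.im|) / 2 ∧ z ∈ St r := fun z hz => by
    rw [mem_ball, dist_eq_norm] at hz
    have h1 := (Complex.abs_re_le_norm (z - y)).trans_lt hz
    have h2 := (abs_abs_sub_abs_le_abs_sub _ _).trans_lt
      ((Complex.abs_im_le_norm (z - y)).trans_lt hz)
    refine ⟨h1, h2, ?_⟩
    have := (abs_lt.1 h2).2
    show |z.im| < r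
    linarith
  have up : ∀ z ∈ ball y ((r - |y.im|) / 2), 0 < z.im → _ := fun z hz h0 =>
    loc1 hy h hA h0 (b z hz).1 (by have := (b z hz).2.1; rwa [abs_of_pos h0] at this)
  rcases lt_trichotomy 0 z.im with h0 | h0 | h0
  · exact up z hz h0
  · have tz : Tendsto (fun e : ℝ => z + e * Complex.I) (𝓝[>] 0) (𝓝 z) := by
      have : Continuous fun e : ℝ => z + e * Complex.I := by fun_prop
      simpa using (this.tendsto 0).mono_left nhdsWithin_le_nhds
    have ev := (tz.eventually (isOpen_ball.mem_nhds hz)).and self_mem_nhdsWithin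
    have n := (P097C.St_open r).mem_nhds (b z hz).2.2
    have ev' := ev.mono fun e he => up _ he.1 (by simpa [← h0] using he.2)
    exact ⟨le_of_tendsto ((((cg.continuousAt n).tendsto.comp tz).norm).mul_const _)
      (ev'.mono fun _ h => h.1), le_of_tendsto ((((cQ.continuousAt n).tendsto.comp tz).norm).mul_const _)
      (ev'.mono fun _ h => h.2)⟩
  · rw [← hS.cjg z (b z hz).2.2, ← hS.cjQ z (b z hz).2.2]
    exact loc1 hy h hA (by simpa using h0) (by simpa using (b z hz).1)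
      (by have := (b z hz).2.1; rw [abs_of_neg h0] at this; simpa using this)

/-- the index of the box -/
theorem idx (k : ℕ) {s b : ℝ} {m : ℤ} (h : |s - m - b| ≤ 1 / 2 ^ k) :
    ∃ e ∈ Finset.Icc (-1 : ℤ) 1, ⌊Int.fract s * 2 ^ k⌋₊ = ((⌊b * 2 ^ k⌋ + e) % 2 ^ k).toNat := by
  have k0 : (0 : ℝ) < 2 ^ k := by positivity
  have u0 : 0 ≤ Int.fract s * 2 ^ k := mul_nonneg (Int.fract_nonneg s) k0.le
  have u1 : Int.fract s * 2 ^ k < 2 ^ k := by nlinarith [Int.fract_lt_one s]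
  obtain ⟨h1, h2⟩ := abs_le.1 h
  have h3 : (s - m) * 2 ^ k ≤ b * 2 ^ k + 1 := by
    have := mul_le_mul_of_nonneg_right h2 k0.le
    rw [one_div_mul_cancel k0.ne'] at this
    linarith
  have h4 : b * 2 ^ k - 1 ≤ (s - m) * 2 ^ k := by
    have := mul_le_mul_of_nonneg_right h1 k0.le
    rw [neg_mul, one_div_mul_cancel k0.ne'] at this
    linarith
  have h5 := Int.floor_le_floor h3
  have h6 := Int.floor_le_floor h4
  rw [Int.floor_add_one] at h5
  rw [Int.floor_sub_one] at h6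
  refine ⟨⌊(s - m) * 2 ^ k⌋ - ⌊b * 2 ^ k⌋, Finset.mem_Icc.2 ⟨by omega, by omega⟩, ?_⟩
  have e : ⌊(s - m) * 2 ^ k⌋ = ⌊Int.fract s * 2 ^ k⌋ + 2 ^ k * (⌊s⌋ - m) := by
    rw [← Int.floor_add_intCast]
    congr 1
    push_cast
    rw [Int.fract]
    ring
  rw [add_sub_cancel, e, Int.add_mul_emod_self_left, Int.emod_eq_of_lt (Int.floor_nonneg.2 u0)
    (Int.floor_lt.2 (by exact_mod_cast u1)), Int.floor_toNat]

/-- moments of the boxes -/
theorem mom (hr : 0 < r) (hC : Cnt r θ Q) (p : ℕ) : ∃ C : ℝ, ∀ k : ℕ, ∃ b : ℕ → ℝ,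
    (∀ i, 1 ≤ b i) ∧ ∑ i ∈ Finset.range (2 ^ k), b i ^ p ≤ C * 2 ^ k ∧
    ∀ y ∈ St r, P097K.Band r k y → Gd r θ Q (b ⌊Int.fract y.re * 2 ^ k⌋₊) y := by
  classical
  obtain ⟨C, hC⟩ := hC (p + 1)
  obtain ⟨m, hm⟩ := pow_unbounded_of_one_lt (2 / r) (show (1 : ℝ) < 2 by norm_num)
  rw [div_lt_iff₀ hr] at hm
  set R := 2 ^ m * r with hR
  have R1 : 1 ≤ R := by linarith
  refine ⟨R ^ p * (1 + 6 * 2 ^ p * (C * 2 ^ m)), fun k => ?_⟩
  choose B b1 b2 using fun j : ℕ => hC (k + m) (2 ^ j) (one_le_pow₀ (by norm_num))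
  let T : ℕ → Finset ℕ := fun j => (B j ×ˢ Finset.Icc (-1 : ℤ) 1).image
    fun q => ((⌊q.1 * 2 ^ k⌋ + q.2) % 2 ^ k).toNat
  have T1 : ∀ j, ((T j).card : ℝ) * (2 ^ j) ^ (p + 1) ≤ 3 * (C * 2 ^ (k + m)) := fun j => by
    have : (T j).card ≤ (B j).card * 3 := Finset.card_image_le.trans (by simp)
    have h2 : ((T j).card : ℝ) ≤ (B j).card * 3 := by exact_mod_cast this
    have := mul_le_mul_of_nonneg_right h2 (show (0 : ℝ) ≤ (2 ^ j) ^ (p + 1) by positivity)
    linarith [b1 j]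
  obtain ⟨J, hJ⟩ := pow_unbounded_of_one_lt (3 * (C * 2 ^ (k + m))) (show (1 : ℝ) < 2 by norm_num)
  have TJ : T J = ∅ := by
    by_contra h
    have h1 : (1 : ℝ) ≤ (T J).card := by
      exact_mod_cast Finset.card_pos.2 (Finset.nonempty_iff_ne_empty.2 h)
    have h2 : (2 : ℝ) ^ J ≤ (2 ^ J) ^ (p + 1) := le_self_pow₀ (one_le_pow₀ (by norm_num)) (by omega)
    nlinarith [T1 J, show (0 : ℝ) < 2 ^ J by positivity]
  have ex : ∀ i, ∃ j, i ∉ T j := fun i => ⟨J, by simp [TJ]⟩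
  refine ⟨fun i => R * 2 ^ Nat.find (ex i), fun i => one_le_mul_of_one_le_of_one_le R1
    (one_le_pow₀ (by norm_num)), ?_, fun y hy hB => ?_⟩
  · have s1 : ∀ i, ((2 : ℝ) ^ Nat.find (ex i)) ^ p ≤
        1 + ∑ j ∈ Finset.range J, if i ∈ T j then (2 ^ (j + 1)) ^ p else 0 := fun i => by
      have n0 : ∀ j ∈ Finset.range J, (0 : ℝ) ≤ if i ∈ T j then (2 ^ (j + 1)) ^ p else 0 :=
        fun j _ => by split_ifs <;> positivity
      rcases h : Nat.find (ex i) with _ | j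
      · simpa using Finset.sum_nonneg n0
      · have h1 : i ∈ T j := by simpa using Nat.find_min (ex i) (m := j) (by omega)
        have h2 : Nat.find (ex i) ≤ J := Nat.find_min' _ (by simp [TJ])
        have := Finset.single_le_sum n0 (Finset.mem_range.2 (show j < J by omega))
        rw [if_pos h1] at this
        linarith
    have s2 : ∀ j, ∑ i ∈ Finset.range (2 ^ k), (if i ∈ T j then ((2 : ℝ) ^ (j + 1)) ^ p else 0) ≤
        3 * 2 ^ p * (C * 2 ^ (k + m)) * (1 / 2) ^ j := fun j => by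
      rw [Finset.sum_ite_mem, Finset.sum_const, nsmul_eq_mul]
      have h1 : ((Finset.range (2 ^ k) ∩ T j).card : ℝ) ≤ (T j).card := by
        exact_mod_cast Finset.card_le_card Finset.inter_subset_right
      refine (mul_le_mul_of_nonneg_right h1 (by positivity)).trans ?_
      have := mul_le_mul_of_nonneg_right (T1 j) (show (0 : ℝ) ≤ 2 ^ p * (1 / 2) ^ j by positivity)
      refine le_trans (le_of_eq ?_) (this.trans_eq (by ring))
      rw [one_div, inv_pow, pow_succ 2 j, mul_pow, pow_succ _ p]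
      field_simp
    have C0 : 0 ≤ C * 2 ^ (k + m) := le_trans (by positivity) (b1 0)
    simp only [mul_pow]
    rw [← Finset.mul_sum, mul_assoc]
    refine mul_le_mul_of_nonneg_left ((Finset.sum_le_sum fun i _ => s1 i).trans ?_) (by positivity)
    rw [Finset.sum_add_distrib, Finset.sum_comm]
    have s3 := Finset.sum_le_sum fun j (_ : j ∈ Finset.range J) => s2 j
    rw [← Finset.mul_sum] at s3
    have s4 := mul_le_mul_of_nonneg_left (sum_geometric_two_le J)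
      (show 0 ≤ 3 * 2 ^ p * (C * 2 ^ (k + m)) by positivity)
    simp only [Finset.sum_const, Finset.card_range, nsmul_eq_mul, mul_one]
    push_cast
    rw [pow_add] at s3 s4
    linarith
  · set i := ⌊Int.fract y.re * 2 ^ k⌋₊
    have k1 : Kc r θ Q y.re 1 (1 / 2 ^ (k + m) / 16) (2 ^ Nat.find (ex i)) := by
      by_contra h
      obtain ⟨b, hb, m', h1⟩ := b2 _ y.re _ (one_div_le_one_div_of_le (by positivity)
        (pow_le_pow_right₀ (by norm_num) (Nat.le_succ _))) le_rfl h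
      obtain ⟨e, he, h2⟩ := idx k (h1.trans (one_div_le_one_div_of_le (by positivity)
        (pow_le_pow_right₀ (by norm_num) (Nat.le_add_right _ _))))
      exact Nat.find_spec (ex i)
        (Finset.mem_image.2 ⟨(b, e), Finset.mem_product.2 ⟨hb, he⟩, h2.symm⟩)
    refine kc_mono k1 (by positivity) ?_ ?_ R1 (by positivity) le_rfl
    · refine div_le_div_of_nonneg_right (le_trans ?_ hB.1) (by norm_num)
      rw [div_le_div_iff₀ (by positivity) (by positivity), pow_succ, pow_add]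
      nlinarith [show (0 : ℝ) < 2 ^ k by positivity]
    · rw [← mul_div_assoc]
      refine div_le_div_of_nonneg_right (hB.2.trans_eq ?_) (by norm_num)
      rw [hR, pow_add]
      field_simp

theorem band (hr : 0 < r) (hy : y ∈ St r) : ∃ k, P097K.Band r k y := by
  have h : |y.im| < r := hy
  obtain ⟨k, h1, h2⟩ := exists_nat_pow_near_of_lt_one (x := (r - |y.im|) / r) (y := (1 / 2 : ℝ))
    (div_pos (by linarith) hr) ((div_le_one hr).2 (by linarith [abs_nonneg y.im])) (by norm_num)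
    (by norm_num)
  rw [lt_div_iff₀' hr, one_div, inv_pow] at h1
  rw [div_le_iff₀' hr, one_div, inv_pow] at h2
  exact ⟨k, h1.le, h2⟩

end Brg

open Brg in
theorem brg {r κ₀ : ℝ} {θ Q : ℂ → ℂ} {Y : ℂ × ℂ → ℂ} (hr : 0 < r)
    (cg : ContinuousOn (deriv θ) (St r)) (cQ : ContinuousOn Q (St r)) (hS : Sym θ Q Y r κ₀)
    (hC : Cnt r θ Q) (hN : NCL r (deriv θ) Q (Gd r θ Q)) : ∃ κ : ℂ → ℝ,
      P097K.Maj r (deriv θ) Q κ ∧ P097K.Mom r κ ∧ P097K.NCL r (deriv θ) Q κ := by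
  let S : ℂ → Set ℝ := fun y => {A | 1 ≤ A ∧ Gd r θ Q A y}
  have S0 : ∀ y, 0 ≤ sInf (S y) := fun y => Real.sInf_nonneg fun A hA => zero_le_one.trans hA.1
  have S1 : ∀ y ∈ St r, Gd r θ Q (sInf (S y) + 1) y := fun y hy => by
    obtain ⟨C, h⟩ := mom hr hC 0
    obtain ⟨k, hk⟩ := band hr hy
    obtain ⟨b, b1, -, b2⟩ := h k
    obtain ⟨A, hA, h1⟩ := exists_lt_of_csInf_lt (s := S y) ⟨_, b1 _, b2 y hy hk⟩
      (lt_add_one (sInf (S y)))
    exact gd_mono hy hA.2 (zero_le_one.trans hA.1) h1.le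
  refine ⟨fun y => 6 * (sInf (S y) + 1), ⟨fun y => by linarith [S0 y], fun y hy z hz =>
    loc cg cQ hS hy (S1 y hy) (by linarith [S0 y]) hz⟩, fun p => ?_, fun C₀ => ?_⟩
  · obtain ⟨C, h⟩ := mom hr hC p
    refine ⟨12 ^ p * C, fun k => ?_⟩
    obtain ⟨b, b1, b2, b3⟩ := h k
    refine ⟨fun i => 12 * b i, fun i => by linarith [b1 i], ?_, fun y hy hB => ?_⟩
    · simp only [mul_pow]
      rw [← Finset.mul_sum, mul_assoc]
      exact mul_le_mul_of_nonneg_left b2 (by positivity)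
    · have := csInf_le (s := S y) ⟨1, fun A hA => hA.1⟩ ⟨b1 _, b3 y hy hB⟩
      linarith [b1 ⌊Int.fract y.re * 2 ^ k⌋₊]
  · obtain ⟨e, d, e0, d0, h⟩ := hN C₀
    exact ⟨e, d, e0, d0, fun y hy h1 h2 => h y hy h2
      (gd_mono hy (S1 y hy) (by linarith [S0 y]) (by linarith [S0 y]))⟩

end Vale.Agent.P097S
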