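import Vale.Agent.P097S.TopDefs
import Vale.Agent.P097S.Brg
import Vale.Agent.P097Top.Tri
import Vale.Agent.P097N.Bridge
import Vale.Agent.P097E.PolyB1

/-!
# P097S: assembly of the case of bounded growth in one Stolz angle
-/

set_option linter.all false

noncomputable section

namespace Vale.Agent.P097S

open Filter Topology Set Metric Complex Vale.Agent.P097 Vale.Agent.P097T Vale.Agent.P097Top

variable {r c κ : ℝ} {θ H Q : ℂ → ℂ} {Y : ℂ × ℂ → ℂ}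

theorem dt_of (C : Cur r c θ H Q) (S : Sol0 θ H κ Y) (hκ : 2 * κ ≤ r) : Dt θ H Q Y c r κ :=
  ⟨⟨P097N.Bridge.op r, C.dθ, C.dH, C.dQ, ofReal_ne_zero.2 C.cpos.ne', C.laz, C.ode⟩,
    ⟨S.pos, S.pos, S.an.differentiableOn, fun x hx => by
      simpa [sub_eq_zero] using S.bd (x, 0) ⟨hx, mem_ball_self S.pos⟩,
      fun x hx w hw => S.ev (x, w) ⟨hx, hw⟩, fun x hx w hw =>
        (S.bd (x, w) ⟨hx, hw⟩).trans (mem_ball_zero_iff.1 hw).le⟩, hκ,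
    fun x hx w hw a b => (P097N.Bridge.law_eq ..).symm.trans (S.law (x, w) ⟨hx, hw⟩ a b)⟩

theorem sym_of (C : Cur r c θ H Q) (S : Sol0 θ H κ Y) : Sym θ Q Y r κ :=
  have E := P097E.PB.fn_of_cur C
  ⟨E.perf, E.perq, fun x hx w hw => S.per (x, w) ⟨hx, hw⟩, S.re,
    fun y hy => by rw [E.cjf y hy, norm_conj], fun y hy => by rw [E.cjq y hy, norm_conj]⟩

theorem asm (Y0 : Spec_Y0) (SUP : Spec_SUP2) (LEAF : Spec_LEAF) (NR : Spec_NOREG) (CB : Spec_CB)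
    (LIP : Spec_LIP) (H2 : Spec_H2) (NC : Spec_NCL) (CORE : P097K.Spec_CORE2) : Spec_ST := by
  intro h ε ψ δ r c θ H Q N C A B K
  obtain ⟨κ, Y₀, S, k1, k2, e⟩ := Y0 h ε ψ δ r c θ H Q N C A
  have D := dt_of C S k2
  have Sy := sym_of C S
  have cb := CB _ _ _ _ _ _ _ D
  obtain ⟨pt, cnt⟩ := H2 _ _ _ _ _ _ _ D Sy cb (LIP h ε ψ δ r c κ θ H Q Y₀ N C A B S k1 k2 e cb K)
  obtain ⟨k, m1, m2, m3⟩ := brg C.rpos (P097E.PB.fn_of_cur C).df.continuousOn C.dQ.continuousOn Sy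
    cnt (NC _ _ _ _ _ _ _ D Sy cb pt (P097N.Bridge.not_over C.rpos C.dθ B))
  obtain ⟨n₀, L⟩ := LEAF h ε ψ δ r c θ H Q N C A
  obtain ⟨m, hm⟩ := exists_nat_one_div_lt S.pos
  set n : ℕ := 2 * (n₀ + m) + 1 with hn
  have n0 : (0 : ℝ) < 1 / n := by positivity
  have n1 : (1 : ℝ) / n < κ := lt_of_le_of_lt
    (one_div_le_one_div_of_le (by positivity) (by rw [hn]; push_cast; nlinarith [
      (Nat.cast_nonneg n₀ : (0 : ℝ) ≤ n₀), (Nat.cast_nonneg m : (0 : ℝ) ≤ m)])) hm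
  obtain ⟨l1, l2, l3⟩ := L n (by omega) ⟨n₀ + m, hn⟩
  obtain ⟨T, Y, F, mx⟩ := SUP h ε ψ δ r c (1 / n) κ θ H Q Y₀ N C A n0 l1
    (lf2_of S k2 e (by rwa [abs_of_pos n0]))
  obtain ⟨φ, p, D'⟩ := l3 T Y F
  exact CORE r c T θ H Q _ φ p k n C m1 m2 m3 D'
    (NR h ε ψ δ r c T θ H Q φ p n Y N C A B l1 l2 F mx D')

end Vale.Agent.P097S
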