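import Vale.Agent.P097S.Defs

/-!
# P097S: no calm disc at a good point with a bound in a wide cone
-/

set_option linter.all false

noncomputable section

namespace Vale.Agent.P097S

open Vale.Agent.P097N
open Vale.Agent.P097C (dd)

/-- the bound with the constant `M` in the cone of aperture `4 ^ a` -/
def Wd (r : ℝ) (θ Q : ℂ → ℂ) (a : ℕ) (M : ℝ) (y : ℂ) : Prop :=
  Kc r θ Q y.re (4 ^ a) ((r - |y.im|) / 2 ^ a) M

def NCL2 (r : ℝ) (θ Q : ℂ → ℂ) : Prop := ∀ A : ℝ, 1 ≤ A → ∃ a : ℕ, ∀ M : ℝ, ∃ e d₁ : ℝ,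
  0 < e ∧ 0 < d₁ ∧ ∀ y ∈ St r, dd r y < d₁ → Gd r θ Q A y → Wd r θ Q a M y →
    ¬ Calm r (deriv θ) Q e y

def Spec_NCL2 : Prop := ∀ θ h Q Y c r κ, Dt θ h Q Y c r κ → Sym θ Q Y r κ → CB θ h Q Y r κ →
  ¬ Over1 θ r → NCL2 r θ Q

end Vale.Agent.P097S
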