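import Vale.Agent.P097S.Brg
import Vale.Agent.P097S.Defs2
import Vale.Agent.P097M.Defs

/-!
# P097S: from the moments, level by level, to a majorant
-/

set_option linter.all false

noncomputable section

namespace Vale.Agent.P097S

open Filter Topology Set Metric Vale.Agent.P097N
open Vale.Agent.P097C (dd)
open Vale.Agent.P097K (Band Lv Few)

namespace Brg

variable {r : ℝ} {θ Q : ℂ → ℂ}

theorem shadow (I : Finset ℝ) (N : ℕ) {δ : ℝ} (hδ : 0 < δ) : ∃ B : Finset ℝ,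
    B.card ≤ I.card * (2 * N + 1) ∧
      ∀ s : ℝ, ∀ x ∈ I, |s - x| ≤ N * δ → ∃ b ∈ B, |s - b| ≤ δ := by
  classical
  refine ⟨(I ×ˢ Finset.Icc (-N : ℤ) N).image fun q => q.1 + q.2 * δ,
    Finset.card_image_le.trans ?_, fun s x hx h => ?_⟩
  · rw [Finset.card_product, Int.card_Icc]
    exact Nat.mul_le_mul_left _ (by omega)
  · obtain ⟨h1, h2⟩ := abs_le.1 h
    have a1 := mul_le_mul_of_nonneg_right (Int.floor_le ((s - x) / δ)) hδ.le
    have a2 := mul_le_mul_of_nonneg_right (Int.lt_floor_add_one ((s - x) / δ)).le hδ.le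
    rw [div_mul_cancel₀ _ hδ.ne'] at a1 a2
    refine ⟨_, Finset.mem_image.2 ⟨(x, ⌊(s - x) / δ⌋), Finset.mem_product.2 ⟨hx, Finset.mem_Icc.2
      ⟨Int.le_floor.2 ?_, Int.floor_le_iff.2 ?_⟩⟩, rfl⟩, abs_le.2 ⟨by linarith, by linarith⟩⟩
    · rw [le_div_iff₀ hδ]
      push_cast
      linarith
    · rw [div_lt_iff₀ hδ]
      push_cast
      linarith

/-- a bad point of a wide cone -/
theorem bad (hr : 0 < r) {a k : ℕ} {M : ℝ} {y : ℂ} (hM : 2 ≤ M) (hB : Band r k y)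
    (h : ¬ Wd r θ Q a M y) : ∃ u ≤ k + a, ∃ z ∈ St r, Lv r (k + a - u) z ∧
      M * (4 / 3) ^ u ≤ P097M.Gs (deriv θ) Q z * (r - |z.im|) ^ 2 ∧
      |y.re - z.re| + (1 / 2) ^ (k + a - u) ≤ (r + 1) * 2 ^ a * 2 ^ u * (1 / 2 ^ k) := by
  obtain ⟨z, h⟩ := not_forall.1 h
  obtain ⟨⟨z1, z2, z3⟩, h⟩ := Classical.not_imp.1 h
  obtain ⟨b1, b2⟩ := hB
  have t0 : 0 < r / 2 ^ (k + 1) / 2 ^ a := by positivity
  have t1 : r / 2 ^ (k + 1) / 2 ^ a < r - z.im := lt_of_le_of_lt (by gcongr) z2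
  have zs : z ∈ St r := show |z.im| < r by rw [abs_of_pos z1]; linarith
  obtain ⟨i, hi⟩ := P097K.exists_lv hr zs
  have l1 := hi.1
  have l2 := hi.2
  rw [abs_of_pos z1, one_div_pow, mul_one_div] at l1 l2
  have ia : i ≤ k + a := by
    have := t1.trans_le l2
    rw [div_div, ← pow_add, div_lt_div_iff_of_pos_left hr (by positivity) (by positivity),
      pow_lt_pow_iff_right₀ (by norm_num)] at this
    omega
  obtain ⟨u, hu⟩ := Nat.exists_eq_add_of_le ia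
  have e : (2 : ℝ) ^ k * 2 ^ a = 2 ^ i * 2 ^ u := by rw [← pow_add, ← pow_add, hu]
  refine ⟨u, by omega, z, zs, by rwa [show k + a - u = i by omega], ?_, ?_⟩
  · rw [abs_of_pos z1]
    set τ := r - z.im
    set X := P097M.Gs (deriv θ) Q z * τ ^ 2 with hX
    have n1 : 0 ≤ (‖deriv θ z‖ * τ) ^ 2 := by positivity
    have n2 : 0 ≤ ‖Q z‖ * τ ^ 2 := by positivity
    have eX : X = (‖deriv θ z‖ * τ) ^ 2 + ‖Q z‖ * τ ^ 2 := by rw [hX, P097M.Gs]; ring
    have d0 : 0 ≤ (r - |y.im|) / 2 ^ a := le_trans t0.le (by gcongr)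
    have k1 : M ^ 4 * τ < X ^ 2 * ((r - |y.im|) / 2 ^ a) := by
      by_contra! k
      refine h ⟨le_trans (mul_le_mul_of_nonneg_right ?_ d0) k,
        le_trans (mul_le_mul_of_nonneg_right ?_ d0) k⟩
      · rw [show 4 = 2 * 2 from rfl, pow_mul]
        exact pow_le_pow_left₀ n1 (by linarith) 2
      · exact pow_le_pow_left₀ n2 (by linarith) 2
    have k2 : (r - |y.im|) / 2 ^ a * 2 ^ u ≤ 2 * τ := by
      calc _ ≤ r / 2 ^ k / 2 ^ a * 2 ^ u := by gcongr
        _ = 2 * (r / 2 ^ (i + 1)) := by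
          rw [div_div, e, pow_succ]
          field_simp
        _ ≤ _ := by linarith
    have k3 : M ^ 4 * 2 ^ u ≤ 2 * X ^ 2 := by
      refine le_of_mul_le_mul_right ?_ (t0.trans t1)
      nlinarith [mul_le_mul_of_nonneg_left k2 (sq_nonneg X),
        mul_le_mul_of_nonneg_right k1.le (show (0 : ℝ) ≤ 2 ^ u by positivity)]
    refine le_of_pow_le_pow_left₀ (n := 2) (by norm_num) (by linarith) ?_
    have k4 : (((4 : ℝ) / 3) ^ u) ^ 2 ≤ 2 ^ u := by
      rw [← pow_mul, mul_comm, pow_mul]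
      exact pow_le_pow_left₀ (by norm_num) (by norm_num) u
    have k5 : 2 * M ^ 2 ≤ M ^ 4 := by nlinarith [sq_nonneg (M ^ 2 - 2), sq_nonneg (M - 2)]
    rw [mul_pow]
    nlinarith [mul_le_mul_of_nonneg_left k4 (sq_nonneg M),
      mul_le_mul_of_nonneg_right k5 (show (0 : ℝ) ≤ 2 ^ u by positivity)]
  · rw [show k + a - u = i by omega, abs_sub_comm, one_div_pow]
    have k1 : (1 : ℝ) / 2 ^ i = 2 ^ u * (1 / 2 ^ k) / 2 ^ a := by
      field_simp
      linarith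
    have a1 : (1 : ℝ) ≤ 2 ^ a := one_le_pow₀ (by norm_num)
    have k2 : (4 : ℝ) ^ a * (r / 2 ^ i) = r * 2 ^ a * 2 ^ u * (1 / 2 ^ k) := by
      rw [← mul_one_div r, k1, show (4 : ℝ) = 2 * 2 by norm_num, mul_pow]
      field_simp
    have k3 : (1 : ℝ) / 2 ^ i ≤ 2 ^ a * 2 ^ u * (1 / 2 ^ k) := by
      rw [k1, mul_assoc]
      exact (div_le_self (by positivity) a1).trans (le_mul_of_one_le_left (by positivity) a1)
    have k4 := mul_le_mul_of_nonneg_left l2 (show (0 : ℝ) ≤ 4 ^ a by positivity)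
    linarith

/-- few bad wide cones -/
theorem cnt (hr : 0 < r) (hM : P097M.Mom r (deriv θ) Q) (p : ℕ) : ∃ C : ℝ, 0 ≤ C ∧
    ∀ (a k : ℕ) (M : ℝ), 2 ≤ M → ∃ B : Finset ℝ, B.card * M ^ p ≤ C * 4 ^ a * 2 ^ k ∧
      ∀ y, Band r k y → ¬ Wd r θ Q a M y → ∃ b ∈ B, ∃ m : ℤ, |y.re - m - b| ≤ 1 / 2 ^ k := by
  classical
  obtain ⟨C, hC⟩ := hM (p + 5)
  have C0 : 0 ≤ C := by simpa using (hC 0 1 le_rfl).nonneg
  set n := ⌈r + 1⌉₊ with hn
  have n1 : r + 1 ≤ n := Nat.le_ceil _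
  refine ⟨6 * n * C, by positivity, fun a k M M2 => ?_⟩
  have l1 : ∀ u : ℕ, 1 ≤ M * (4 / 3) ^ u := fun u =>
    one_le_mul_of_one_le_of_one_le (by linarith) (one_le_pow₀ (by norm_num))
  choose I i1 i2 using fun u : ℕ => hC (k + a - u) _ (l1 u)
  choose B b1 b2 using fun u : ℕ => shadow (I u) (n * 2 ^ a * 2 ^ u)
    (show (0 : ℝ) < 1 / 2 ^ k by positivity)
  refine ⟨(Finset.range (k + a + 1)).biUnion B, ?_, fun y hB h => ?_⟩
  · have s1 : ∀ u, ((B u).card : ℝ) * M ^ p ≤ 3 * n * C * 4 ^ a * 2 ^ k * (1 / 2) ^ u := fun u => by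
      have h1 : ((B u).card : ℝ) ≤ (I u).card * (2 * (n * 2 ^ a * 2 ^ u) + 1) := by
        exact_mod_cast b1 u
      have h2 : (1 : ℝ) ≤ n * 2 ^ a * 2 ^ u := one_le_mul_of_one_le_of_one_le
        (one_le_mul_of_one_le_of_one_le (by linarith) (one_le_pow₀ (by norm_num)))
        (one_le_pow₀ (by norm_num))
      have h3 := i1 u
      rw [le_div_iff₀ (pow_pos (one_pos.trans_le (l1 u)) _), one_div_pow, mul_one_div,
        div_mul_eq_mul_div, div_le_iff₀ (by positivity)] at h3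
      have h4 : M ^ p * 4 ^ u ≤ (M * (4 / 3) ^ u) ^ (p + 5) := by
        rw [mul_pow, ← pow_mul, mul_comm u, pow_mul]
        refine mul_le_mul (pow_le_pow_right₀ (by linarith) (by omega))
          (pow_le_pow_left₀ (by norm_num) ?_ u) (by positivity) (by positivity)
        exact le_trans (by norm_num) (pow_le_pow_right₀ (by norm_num) (Nat.le_add_left 5 p))
      have h5 : (2 : ℝ) ^ (k + a - u) ≤ 2 ^ k * 2 ^ a := by
        rw [← pow_add]
        exact pow_le_pow_right₀ (by norm_num) (by omega)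
      have h6 : ((I u).card : ℝ) * (M ^ p * 4 ^ u) ≤ C * (2 ^ k * 2 ^ a) :=
        ((mul_le_mul_of_nonneg_left h4 (by positivity)).trans h3).trans (by gcongr)
      have M0 : 0 ≤ M ^ p := by positivity
      calc _ ≤ (I u).card * (3 * (n * 2 ^ a * 2 ^ u)) * M ^ p := by
            refine mul_le_mul_of_nonneg_right (h1.trans ?_) M0
            exact mul_le_mul_of_nonneg_left (by linarith) (by positivity)
        _ = (I u).card * (M ^ p * 4 ^ u) * (3 * n * 2 ^ a * (1 / 2) ^ u) := by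
            rw [show (4 : ℝ) = 2 * 2 by norm_num, mul_pow, one_div_pow]
            field_simp
        _ ≤ C * (2 ^ k * 2 ^ a) * (3 * n * 2 ^ a * (1 / 2) ^ u) := by gcongr
        _ = _ := by
            rw [show (4 : ℝ) = 2 * 2 by norm_num, mul_pow]
            ring
    have s2 : (((Finset.range (k + a + 1)).biUnion B).card : ℝ) ≤
        ∑ u ∈ Finset.range (k + a + 1), ((B u).card : ℝ) := by
      exact_mod_cast Finset.card_biUnion_le
    refine (mul_le_mul_of_nonneg_right s2 (by positivity)).trans ?_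
    rw [Finset.sum_mul]
    refine (Finset.sum_le_sum fun u _ => s1 u).trans ?_
    rw [← Finset.mul_sum]
    exact (mul_le_mul_of_nonneg_left (sum_geometric_two_le _) (by positivity)).trans_eq (by ring)
  · obtain ⟨u, hu, z, zs, z1, z2, z3⟩ := bad hr M2 hB h
    obtain ⟨x, hx, m, hm⟩ := i2 u z ⟨zs, z2⟩ z1
    obtain ⟨b, hb, h1⟩ := b2 u (y.re - m) x hx (by
      have := abs_add_le (y.re - z.re) (z.re - m - x)
      rw [show y.re - z.re + (z.re - m - x) = y.re - m - x by ring] at this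
      have h2 : (r + 1) * 2 ^ a * 2 ^ u * (1 / 2 ^ k) ≤ n * 2 ^ a * 2 ^ u * (1 / 2 ^ k) := by gcongr
      push_cast
      linarith)
    exact ⟨b, Finset.mem_biUnion.2 ⟨u, Finset.mem_range.2 (by omega), hb⟩, m, h1⟩

/-- moments of the boxes -/
theorem mom2 {G : ℕ → ℂ → Prop} {p : ℕ} {C : ℝ} (k : ℕ) (hC : ∀ j : ℕ, ∃ B : Finset ℝ,
    B.card * ((2 : ℝ) ^ j) ^ (p + 1) ≤ C * 2 ^ k ∧
      ∀ y, Band r k y → ¬ G j y → ∃ b ∈ B, ∃ m : ℤ, |y.re - m - b| ≤ 1 / 2 ^ k) :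
    ∃ b : ℕ → ℕ, ∑ i ∈ Finset.range (2 ^ k), ((2 : ℝ) ^ b i) ^ p ≤ (1 + 6 * 2 ^ p * C) * 2 ^ k ∧
      ∀ y, Band r k y → G (b ⌊Int.fract y.re * 2 ^ k⌋₊) y := by
  classical
  choose B b1 b2 using hC
  let T : ℕ → Finset ℕ := fun j => (B j ×ˢ Finset.Icc (-1 : ℤ) 1).image
    fun q => ((⌊q.1 * 2 ^ k⌋ + q.2) % 2 ^ k).toNat
  have T1 : ∀ j, ((T j).card : ℝ) * (2 ^ j) ^ (p + 1) ≤ 3 * (C * 2 ^ k) := fun j => by
    have : (T j).card ≤ (B j).card * 3 := Finset.card_image_le.trans (by simp)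
    have h2 : ((T j).card : ℝ) ≤ (B j).card * 3 := by exact_mod_cast this
    have := mul_le_mul_of_nonneg_right h2 (show (0 : ℝ) ≤ (2 ^ j) ^ (p + 1) by positivity)
    linarith [b1 j]
  obtain ⟨J, hJ⟩ := pow_unbounded_of_one_lt (3 * (C * 2 ^ k)) (show (1 : ℝ) < 2 by norm_num)
  have TJ : T J = ∅ := by
    by_contra h
    have h1 : (1 : ℝ) ≤ (T J).card := by
      exact_mod_cast Finset.card_pos.2 (Finset.nonempty_iff_ne_empty.2 h)
    have h2 : (2 : ℝ) ^ J ≤ (2 ^ J) ^ (p + 1) := le_self_pow₀ (one_le_pow₀ (by norm_num)) (by omega)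
    nlinarith [T1 J, show (0 : ℝ) < 2 ^ J by positivity]
  have ex : ∀ i, ∃ j, i ∉ T j := fun i => ⟨J, by simp [TJ]⟩
  refine ⟨fun i => Nat.find (ex i), ?_, fun y hB => ?_⟩
  · have s1 : ∀ i, ((2 : ℝ) ^ Nat.find (ex i)) ^ p ≤
        1 + ∑ j ∈ Finset.range J, if i ∈ T j then (2 ^ (j + 1)) ^ p else 0 := fun i => by
      have n0 : ∀ j ∈ Finset.range J, (0 : ℝ) ≤ if i ∈ T j then (2 ^ (j + 1)) ^ p else 0 :=
        fun j _ => by split_ifs <;> positivity
      rcases h : Nat.find (ex i) with _ | j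
      · simpa using Finset.sum_nonneg n0
      · have h1 : i ∈ T j := by simpa using Nat.find_min (ex i) (m := j) (by omega)
        have h2 : Nat.find (ex i) ≤ J := Nat.find_min' _ (by simp [TJ])
        have := Finset.single_le_sum n0 (Finset.mem_range.2 (show j < J by omega))
        rw [if_pos h1] at this
        linarith
    have s2 : ∀ j, ∑ i ∈ Finset.range (2 ^ k), (if i ∈ T j then ((2 : ℝ) ^ (j + 1)) ^ p else 0) ≤
        3 * 2 ^ p * (C * 2 ^ k) * (1 / 2) ^ j := fun j => by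
      rw [Finset.sum_ite_mem, Finset.sum_const, nsmul_eq_mul]
      have h1 : ((Finset.range (2 ^ k) ∩ T j).card : ℝ) ≤ (T j).card := by
        exact_mod_cast Finset.card_le_card Finset.inter_subset_right
      refine (mul_le_mul_of_nonneg_right h1 (by positivity)).trans ?_
      have := mul_le_mul_of_nonneg_right (T1 j) (show (0 : ℝ) ≤ 2 ^ p * (1 / 2) ^ j by positivity)
      refine le_trans (le_of_eq ?_) (this.trans_eq (by ring))
      rw [one_div, inv_pow, pow_succ 2 j, mul_pow, pow_succ _ p]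
      field_simp
    have C0 : 0 ≤ C * 2 ^ k := le_trans (by positivity) (b1 0)
    refine (Finset.sum_le_sum fun i _ => s1 i).trans ?_
    rw [Finset.sum_add_distrib, Finset.sum_comm]
    have s3 := Finset.sum_le_sum fun j (_ : j ∈ Finset.range J) => s2 j
    rw [← Finset.mul_sum] at s3
    have s4 := mul_le_mul_of_nonneg_left (sum_geometric_two_le J)
      (show 0 ≤ 3 * 2 ^ p * (C * 2 ^ k) by positivity)
    simp only [Finset.sum_const, Finset.card_range, nsmul_eq_mul, mul_one]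
    push_cast
    linarith
  · by_contra h
    obtain ⟨b, hb, m', h1⟩ := b2 _ y hB h
    obtain ⟨e, he, h2⟩ := idx k h1
    exact Nat.find_spec (ex _)
      (Finset.mem_image.2 ⟨(b, e), Finset.mem_product.2 ⟨hb, he⟩, h2.symm⟩)

end Brg

open Brg in
theorem brg2 {r κ₀ : ℝ} {θ Q : ℂ → ℂ} {Y : ℂ × ℂ → ℂ} (hr : 0 < r)
    (cg : ContinuousOn (deriv θ) (St r)) (cQ : ContinuousOn Q (St r)) (hS : Sym θ Q Y r κ₀)
    (hM : P097M.Mom r (deriv θ) Q) (hN : NCL2 r θ Q) : ∃ κ : ℂ → ℝ,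
      P097K.Maj r (deriv θ) Q κ ∧ P097K.Mom r κ ∧ P097K.NCL r (deriv θ) Q κ := by
  classical
  have two : ∀ j : ℕ, (2 : ℝ) ≤ 2 * 2 ^ j := fun j => by
    linarith [one_le_pow₀ (n := j) (show (1 : ℝ) ≤ 2 by norm_num)]
  choose a hN using fun j : ℕ => hN (2 * 2 ^ j) (by linarith [two j])
  choose e d e0 d0 hN using fun j : ℕ => hN j (4 ^ a j * (2 * 2 ^ j))
  let G : ℕ → ℂ → Prop := fun j y =>
    Wd r θ Q 4 (2 * 2 ^ j) y ∧ Wd r θ Q (a j) (4 ^ a j * (2 * 2 ^ j)) y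
  have mo : ∀ p : ℕ, ∃ C : ℝ, ∀ k : ℕ, ∃ b : ℕ → ℕ,
      ∑ i ∈ Finset.range (2 ^ k), ((2 : ℝ) ^ b i) ^ p ≤ C * 2 ^ k ∧
      ∀ y, Band r k y → G (b ⌊Int.fract y.re * 2 ^ k⌋₊) y := fun p => by
    obtain ⟨C, C0, h⟩ := cnt hr hM (p + 1)
    refine ⟨_, fun k => mom2 (C := C * 4 ^ 4 + C) k fun j => ?_⟩
    have a1 : (1 : ℝ) ≤ 4 ^ a j := one_le_pow₀ (by norm_num)
    obtain ⟨B, b1, b2⟩ := h 4 k _ (two j)
    obtain ⟨B', c1, c2⟩ := h (a j) k (4 ^ a j * (2 * 2 ^ j)) (by nlinarith [two j])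
    refine ⟨B ∪ B', ?_, fun y hB hG => ?_⟩
    · have h1 : ((B ∪ B').card : ℝ) ≤ B.card + B'.card := by exact_mod_cast Finset.card_union_le _ _
      have h2 : ((2 : ℝ) ^ j) ^ (p + 1) ≤ (2 * 2 ^ j) ^ (p + 1) :=
        pow_le_pow_left₀ (by positivity) (by linarith [two j]) _
      have h3 : 4 ^ a j * ((2 : ℝ) ^ j) ^ (p + 1) ≤ (4 ^ a j * (2 * 2 ^ j)) ^ (p + 1) := by
        rw [mul_pow]
        exact mul_le_mul (le_self_pow₀ a1 (by omega)) h2 (by positivity) (by positivity)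
      have h4 : B'.card * ((2 : ℝ) ^ j) ^ (p + 1) ≤ C * 2 ^ k :=
        le_of_mul_le_mul_left (by linarith [mul_le_mul_of_nonneg_left h3 (Nat.cast_nonneg B'.card)])
          (one_pos.trans_le a1)
      linarith [mul_le_mul_of_nonneg_left h2 (Nat.cast_nonneg B.card),
        mul_le_mul_of_nonneg_right h1 (show 0 ≤ ((2 : ℝ) ^ j) ^ (p + 1) by positivity)]
    · rcases not_and_or.1 hG with g | g
      · obtain ⟨b, hb, k⟩ := b2 y hB g
        exact ⟨b, Finset.mem_union_left _ hb, k⟩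
      · obtain ⟨b, hb, k⟩ := c2 y hB g
        exact ⟨b, Finset.mem_union_right _ hb, k⟩
  have S1 : ∀ y ∈ St r, G (sInf {j | G j y}) y := fun y hy => by
    obtain ⟨C, h⟩ := mo 0
    obtain ⟨k, hk⟩ := band hr hy
    obtain ⟨b, -, b2⟩ := h k
    exact Nat.sInf_mem (s := {j | G j y}) ⟨_, b2 y hk⟩
  have gd : ∀ j, ∀ y ∈ St r, G j y → Gd r θ Q (2 * 2 ^ j) y := fun j y hy h z hz => by
    have := h.1 z ⟨hz.1, by norm_num; exact hz.2.1, hz.2.2.trans_le (mul_le_mul_of_nonneg_right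
      (by norm_num) (by have : |y.im| < r := hy; linarith [hz.2.1]))⟩
    norm_num at this ⊢
    exact this
  refine ⟨fun y => 6 * (2 * 2 ^ sInf {j | G j y}), ⟨fun y => by linarith [two (sInf {j | G j y})],
    fun y hy z hz => loc cg cQ hS hy (gd _ y hy (S1 y hy)) (by positivity) hz⟩, fun p => ?_,
    fun C₀ => ?_⟩
  · obtain ⟨C, h⟩ := mo p
    refine ⟨12 ^ p * C, fun k => ?_⟩
    obtain ⟨b, b2, b3⟩ := h k
    refine ⟨fun i => 12 * 2 ^ b i, fun i => by positivity, ?_, fun y hy hB => ?_⟩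
    · simp only [mul_pow]
      rw [← Finset.mul_sum, mul_assoc]
      exact mul_le_mul_of_nonneg_left b2 (by positivity)
    · have := pow_le_pow_right₀ (show (1 : ℝ) ≤ 2 by norm_num)
        (Nat.sInf_le (s := {j | G j y}) (b3 y hB))
      linarith
  · obtain ⟨J, hJ⟩ := pow_unbounded_of_one_lt C₀ (show (1 : ℝ) < 2 by norm_num)
    obtain ⟨i, -, hi⟩ := (Finset.range (J + 1)).exists_min_image (fun j => min (e j) (d j))
      ⟨0, by simp⟩
    have m0 := lt_min (e0 i) (d0 i)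
    refine ⟨_, _, m0, m0, fun y hy h1 h2 cm => ?_⟩
    have h3 : sInf {j | G j y} < J + 1 := Nat.lt_succ_of_lt <| (pow_lt_pow_iff_right₀
      (show (1 : ℝ) < 2 by norm_num)).1 (by linarith [two (sInf {j | G j y})])
    have h4 := hi _ (Finset.mem_range.2 h3)
    exact hN _ y hy (h2.trans_le (h4.trans (min_le_right _ _))) (gd _ y hy (S1 y hy)) (S1 y hy).2
      fun z hz => ⟨(cm z hz).1.trans (h4.trans (min_le_left _ _)),
        (cm z hz).2.trans (h4.trans (min_le_left _ _))⟩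

end Vale.Agent.P097S
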