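import Vale.Agent.P097S.TopDefs
import Vale.Agent.P097M.Defs

/-!
# P097S: the linear loss on the real leaves in the form used by the moment bounds
-/

set_option linter.all false

noncomputable section

namespace Vale.Agent.P097S

open Filter Topology Set Metric Complex Vale.Agent.P097T Vale.Agent.P097Top

namespace Et

theorem op (r : ℝ) : IsOpen (Strip r) :=
  isOpen_lt (continuous_abs.comp continuous_im) continuous_const

theorem pre (r : ℝ) : IsPreconnected (Strip r) := by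
  have e : Strip r = {y : ℂ | -r < y.im} ∩ {y : ℂ | y.im < r} := by
    ext y; exact abs_lt (a := y.im) (b := r)
  rw [e]
  exact ((convex_halfSpace_im_gt _).inter (convex_halfSpace_im_lt _)).isPreconnected

theorem idt {f : ℂ → ℂ} {T κ : ℝ} (hκ : 0 < κ) (hT : κ ≤ T) (a : AnalyticOnNhd ℂ f (Strip T))
    (e : ∀ x ∈ Strip κ, f x = 0) : ∀ x ∈ Strip T, f x = 0 := by
  have z : (0 : ℂ) ∈ Strip κ := by show |(0 : ℂ).im| < κ; simpa using hκ
  have z' : (0 : ℂ) ∈ Strip T := by show |(0 : ℂ).im| < T; simpa using hκ.trans_le hT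
  exact a.eqOn_zero_of_preconnected_of_eventuallyEq_zero (pre T) z'
    (mem_of_superset ((op κ).mem_nhds z) e)

theorem sh {T : ℝ} {x : ℂ} (hx : x ∈ Strip T) (u : ℝ) : x + u ∈ Strip T := by
  show |(x + u).im| < T
  simpa using (show |x.im| < T from hx)

theorem sh' {T : ℝ} {x : ℂ} (hx : x ∈ Strip T) (u : ℝ) : x - u ∈ Strip T := by
  show |(x - u).im| < T
  simpa using (show |x.im| < T from hx)

theorem an_law {r : ℝ} {θ H u y v : ℂ → ℂ} {p : ℂ} (dθ : DifferentiableOn ℂ θ (Strip r))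
    (dH : DifferentiableOn ℂ H (Strip r)) (au : AnalyticAt ℂ u p) (ay : AnalyticAt ℂ y p)
    (av : AnalyticAt ℂ v p) (mu : u p ∈ Strip r) (my : y p ∈ Strip r) (mv : v p ∈ Strip r) :
    AnalyticAt ℂ (fun q => law θ H (u q) (y q) (v q)) p := by
  have k : ∀ f : ℂ → ℂ, AnalyticAt ℂ f p → f p ∈ Strip r →
      AnalyticAt ℂ (fun q => θ (f q)) p ∧ AnalyticAt ℂ (fun q => deriv θ (f q)) p ∧
      AnalyticAt ℂ (fun q => H (f q)) p ∧ AnalyticAt ℂ (fun q => deriv H (f q)) p := fun f a m =>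
    have t := dθ.analyticAt ((op r).mem_nhds m)
    have h := dH.analyticAt ((op r).mem_nhds m)
    ⟨t.comp a, t.deriv.comp a, h.comp a, h.deriv.comp a⟩
  obtain ⟨u1, u2, u3, u4⟩ := k u au mu
  obtain ⟨y1, y2, y3, y4⟩ := k y ay my
  obtain ⟨v1, v2, v3, v4⟩ := k v av mv
  have cu := Complex.analyticAt_cos.comp (u1.sub y1)
  have su := Complex.analyticAt_sin.comp (u1.sub y1)
  have cv := Complex.analyticAt_cos.comp (v1.sub y1)
  have sv := Complex.analyticAt_sin.comp (v1.sub y1)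
  exact ((((((u2.mul u3).mul cu).sub (u4.mul su)).sub (u2.mul y3)).mul
    ((y2.mul (((v2.mul v3).mul sv).add (v4.mul cv))).sub (v2.mul y4))).add
    (((((v2.mul v3).mul cv).sub (v4.mul sv)).sub (v2.mul y3)).mul
    ((y2.mul (((u2.mul u3).mul su).add (u4.mul cu))).sub (u2.mul y4))))

end Et

open Et

theorem eta {r c κ : ℝ} {θ H Q : ℂ → ℂ} {Y : ℂ × ℂ → ℂ} (C : Cur r c θ H Q) (S : Sol0 θ H κ Y)
    (hκ : 2 * κ ≤ r) (L : Lip Y r κ) : P097M.Eta θ H r := by
  obtain ⟨A, u₀, A0, u0, u1, u2, L⟩ := L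
  refine ⟨A, u₀, A0.le, u0, fun u hu hu' => ?_⟩
  obtain ⟨y, d, m, e⟩ := L u (by rwa [abs_of_pos hu])
  rw [abs_of_pos hu] at d m
  have κ0 := S.pos
  have hT : κ ≤ r - A * u := by nlinarith
  have w : (u : ℂ) ∈ ball (0 : ℂ) κ := by
    rw [mem_ball_zero_iff, norm_real, Real.norm_eq_abs, abs_of_pos hu]; linarith
  have a : AnalyticOnNhd ℂ y (Strip (r - A * u)) := d.analyticOnNhd (op _)
  have re : ∀ x : ℝ, (x : ℂ) ∈ Strip κ := fun x => by show |(x : ℂ).im| < κ; simpa using κ0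
  refine ⟨u, y, by linarith, le_rfl, d, m, fun x hx => ?_, fun x => ?_, fun x => ?_, ?_⟩
  · have k := idt (f := fun x => y (x + (1 : ℝ)) - (y x + 1)) κ0 hT
      (fun x hx => ((a _ (sh hx 1)).comp_of_eq (analyticAt_id.add analyticAt_const) rfl).sub
        ((a x hx).add analyticAt_const))
      (fun x hx => by
        show y (x + (1 : ℝ)) - (y x + 1) = 0
        rw [e _ (sh hx 1), e x hx, ofReal_one, S.per (x, u) ⟨hx, w⟩, sub_self]) x hx
    rw [← sub_eq_zero]
    simpa using k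
  · rw [e _ (re x)]
    exact S.re x u (by rw [abs_of_pos hu]; linarith)
  · rw [e _ (re x)]
    have := S.bd (x, u) ⟨re x, w⟩
    rwa [norm_real, Real.norm_eq_abs, abs_of_pos hu] at this
  · refine idt (f := fun x => law θ H (y (x - u)) (y x) (y (x + u))) κ0 hT
      (fun x hx => an_law C.dθ C.dH
        ((a _ (sh' hx u)).comp_of_eq (analyticAt_id.sub analyticAt_const) rfl) (a x hx)
        ((a _ (sh hx u)).comp_of_eq (analyticAt_id.add analyticAt_const) rfl)
        (m (sh' hx u)) (m hx) (m (sh hx u))) fun x hx => ?_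
    show law θ H (y (x - u)) (y x) (y (x + u)) = 0
    rw [e _ (sh' hx u), e x hx, e _ (sh hx u)]
    exact S.law (x, u) ⟨hx, w⟩ (sh' hx u) (sh hx u)

end Vale.Agent.P097S
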