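import Vale.Agent.P097M.Defs

/-!
# P097S: the pointwise output of the moment block
-/

set_option linter.all false

namespace Vale.Agent.P097M

/-- the bound in all inner tents above a cone -/
def SupAll (r : ℝ) (g Q : ℂ → ℂ) : Prop := ∃ C₁ τ₀ : ℝ, 0 < τ₀ ∧ ∀ n : ℕ, 1 ≤ n → ∃ A : ℝ,
  ∀ ξ τ M : ℝ, 0 < τ → τ ≤ τ₀ → A ≤ M → Cone r g Q ξ τ M → SupB r g Q n ξ τ (C₁ * M ^ 2)

end Vale.Agent.P097M
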