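import Vale.Agent.P097S.LipM
import Vale.Agent.P097Top.Cls
import Vale.Agent.P097E.PolyB1

/-!
# P097S: the class of a counterexample, with Stolz angles
-/

set_option linter.all false

noncomputable section

namespace Vale.Agent.P097S

open Filter Topology Set Metric Complex Vale.Agent.P097 Vale.Agent.P097T Vale.Agent.P097Top EB EA

/-- at every small depth some cone has the bound, written with `θ` alone -/
def Ang (r : ℝ) (θ : ℂ → ℂ) : Prop := ∃ a C e : ℝ, 0 < a ∧ 0 < e ∧ ∀ d, 0 < d → d < e →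
  ∃ s : ℝ, ∀ y : ℂ, d < r - y.im → r - y.im < e → |y.re - s| < a * (r - y.im) →
    ‖deriv θ y‖ ^ 4 * (r - y.im) ^ 3 * d ≤ C ∧
    ‖deriv (deriv (deriv θ)) y‖ ^ 2 * (r - y.im) ^ 3 * d ≤ C * ‖deriv θ y‖ ^ 2

theorem q_le {r c B : ℝ} {θ H Q : ℂ → ℂ} {U : Set ℂ} {y : ℂ} {w : ℂ → ℝ} {n : ℕ}
    (C : Cur r c θ H Q) (m : y ∈ Strip r) (hU : U ∈ 𝓝 y) (cw : ContinuousAt w y)
    (hB : ∀ z ∈ U, ‖deriv (deriv (deriv θ)) z‖ ^ n * w z ≤ B * ‖deriv θ z‖ ^ n) :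
    ‖Q y‖ ^ n * w y ≤ B := by
  have a : ∀ z ∈ U, z ∈ Strip r → deriv θ z ≠ 0 → ‖Q z‖ ^ n * w z ≤ B := fun z k m g => by
    have := hB z k
    rw [C.ode z m, norm_mul, mul_pow, mul_right_comm] at this
    exact le_of_mul_le_mul_right this (pow_pos (norm_pos_iff.2 g) n)
  by_cases g : deriv θ y = 0
  · have n' := (strip_open r).mem_nhds m
    have g2 : deriv (deriv θ) y ≠ 0 := fun g2 => by
      have := C.laz y m
      rw [g, g2] at this
      have c0 : (c : ℂ) = 0 := by rw [← this]; ring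
      exact C.cpos.ne' (by exact_mod_cast c0)
    have d : HasDerivAt (deriv θ) (deriv (deriv θ) y) y :=
      ((C.dθ.deriv (strip_open r)).differentiableAt n').hasDerivAt
    have e : ∀ᶠ z in 𝓝[≠] y, ‖Q z‖ ^ n * w z ≤ B := by
      filter_upwards [d.eventually_ne g2 (c := 0), mem_nhdsWithin_of_mem_nhds hU,
        mem_nhdsWithin_of_mem_nhds n'] with z h1 h2 h3
      exact a z h2 h3 h1
    exact le_of_tendsto ((((C.dQ.differentiableAt n').continuousAt.norm.pow n).mul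
      cw).tendsto.mono_left nhdsWithin_le_nhds) e
  · exact a y (mem_of_mem_nhds hU) m g

theorem mov_of {r c : ℝ} {θ H Q : ℂ → ℂ} (C : Cur r c θ H Q) (K : Ang r θ) : Mov r θ Q := by
  obtain ⟨a, B, e, a0, e0, hB⟩ := K
  have r0 := C.rpos
  have E := P097E.PB.fn_of_cur C
  have e1 : 0 < min e r := lt_min e0 r0
  have sb : {z : ℂ | |z.im| ≤ r - min e r} ⊆ Strip r := fun z hz =>
    lt_of_le_of_lt (show |z.im| ≤ _ from hz) (sub_lt_self r e1)
  obtain ⟨y₀, -, hM⟩ := P097E.PB.max_strip (g := fun z => ‖deriv θ z‖ ^ 4 + ‖Q z‖ ^ 2)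
    (sub_nonneg.2 (min_le_right e r))
    (((E.df.continuousOn.norm.pow 4).add (E.dq.continuousOn.norm.pow 2)).mono sb)
    fun z hz => by simp only [E.perf z (sb hz), E.perq z (sb hz)]
  obtain ⟨M, M0, hM⟩ : ∃ M, 0 ≤ M ∧ ∀ z : ℂ, |z.im| ≤ r - min e r →
      ‖deriv θ z‖ ^ 4 ≤ M ∧ ‖Q z‖ ^ 2 ≤ M := ⟨‖deriv θ y₀‖ ^ 4 + ‖Q y₀‖ ^ 2, by positivity,
    fun z hz => ⟨le_trans (le_add_of_nonneg_right (by positivity)) (hM z hz),
      le_trans (le_add_of_nonneg_left (by positivity)) (hM z hz)⟩⟩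
  have p1 : 0 ≤ M * r ^ 3 * r := by positivity
  have p2 := le_abs_self B
  have p3 := abs_nonneg B
  have p4 : 1 + |B| + M * r ^ 3 * r ≤ (1 + |B| + M * r ^ 3 * r) ^ 4 :=
    le_self_pow₀ (by linarith) (by norm_num)
  refine ⟨a, 1 + |B| + M * r ^ 3 * r, e, a0, e0, fun d d0 d1 => ?_⟩
  obtain ⟨s, hs⟩ := hB d d0 d1
  refine ⟨s, fun y ⟨y1, y2, y3⟩ => ?_⟩
  have t0 : 0 < r - y.im := d0.trans y2
  suffices k : ‖deriv θ y‖ ^ 4 * (r - y.im) ^ 3 * d ≤ 1 + |B| + M * r ^ 3 * r ∧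
      ‖Q y‖ ^ 2 * (r - y.im) ^ 3 * d ≤ 1 + |B| + M * r ^ 3 * r from
    ⟨le_trans (le_of_eq (by ring)) (mul_le_mul_of_nonneg_right (k.1.trans p4) t0.le),
      le_trans (le_of_eq (by ring)) (mul_le_mul_of_nonneg_right (k.2.trans p4) t0.le)⟩
  rcases lt_or_ge (r - y.im) e with k | k
  · have := q_le (B := B) (n := 2)
      (U := {z | d < r - z.im ∧ r - z.im < e ∧ |z.re - s| < a * (r - z.im)})
      (w := fun z => (r - z.im) ^ 3 * d) C (show |y.im| < r from abs_lt.2 ⟨by linarith, by linarith⟩)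
      (IsOpen.mem_nhds (by
        refine IsOpen.and ?_ (IsOpen.and ?_ ?_) <;> exact isOpen_lt (by fun_prop) (by fun_prop))
        ⟨y2, k, y3⟩) (by fun_prop) fun z hz => by
          simpa only [mul_assoc] using (hs z hz.1 hz.2.1 hz.2.2).2
    exact ⟨by linarith [(hs y y2 k y3).1], by linarith⟩
  · obtain ⟨b1, b2⟩ := hM y (by rw [abs_of_pos y1]; linarith [min_le_left e r])
    have g : ∀ X : ℝ, X ≤ M → X * (r - y.im) ^ 3 * d ≤ M * r ^ 3 * r := fun X hX => by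
      gcongr <;> linarith
    exact ⟨by linarith [g _ b1], by linarith [g _ b2]⟩

theorem der_add (f : ℂ → ℂ) (a : ℂ) : deriv (fun y => f (y + a)) = fun y => deriv f (y + a) :=
  funext fun y => deriv_comp_add_const f _ y

theorem Ang.shift {r a : ℝ} {θ : ℂ → ℂ} (K : Ang r fun y => θ (y + a)) : Ang r θ := by
  obtain ⟨b, B, e, b0, e0, hB⟩ := K
  refine ⟨b, B, e, b0, e0, fun d d0 d1 => ?_⟩
  obtain ⟨s, hs⟩ := hB d d0 d1
  refine ⟨s + a, fun y y1 y2 y3 => ?_⟩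
  have := hs (y - a) (by simpa using y1) (by simpa using y2) (by simpa [sub_sub, add_comm] using y3)
  simpa [der_add] using this

/-- a shift invariant property of all configurations holds for a counterexample -/
theorem clsG (TRI : Spec_TRI) (Y0 : Spec_Y0) (N1 : Spec_N1) (DISC : Spec_DISC)
    {K : ℝ → (ℂ → ℂ) → Prop} (sh : ∀ r θ (a : ℝ), K r θ → K r fun y => θ (y + a))
    (hK : ∀ (h : ℝ → ℝ) (ε : ℝ) (ψ δ : ℝ × ℝ → ℝ) (r c : ℝ) (θ H Q : ℂ → ℂ), Gm.NF h ε ψ δ →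
      Cur r c θ H Q → Agr h ψ θ H → NatB r θ → K r θ)
    {h p : ℝ → ℝ} {c : ℝ} (hT : IsTable h) (hI : H402.IntBd h) (L : Laz h p c)
    (k : ¬ H407.IsEllipse h) :
    ∃ (r : ℝ) (θ : ℂ → ℂ), 0 < r ∧ HolExt p θ (Strip r) ∧ NatB r θ ∧ K r θ := by
  rcases TRI h hT hI with k' | ⟨ε, c', ψ, δ, θ, H, Q, N, L', A, C | ⟨r, C, B⟩⟩
  · exact (k k').elim
  · exact (k (ent Y0 N1 DISC N L' A C)).elim
  obtain ⟨a, ha⟩ := lazu h _ p c' c hT L' L
  have s : ∀ (b : ℝ) (y : ℂ), y ∈ Strip r → y + b ∈ Strip r := fun b y m => by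
    simpa [Strip] using m
  refine ⟨r, fun y => θ (y + a), C.rpos, ⟨?_, fun x => ?_⟩, fun y₀ ρ χ m ρ0 d e => ?_,
    sh r θ a (hK h ε ψ δ r c' θ H Q N C A B)⟩
  · exact C.dθ.comp (differentiableOn_id.add_const _) (s a)
  · rw [ha, ← (A (x + a)).1, ofReal_add]
  · refine B (y₀ + a) ρ (fun y => χ (y + (-a : ℝ))) (by simpa using m) ρ0
      (d.comp (differentiableOn_id.add_const _) fun y hy => hy.imp (s _ y) fun hy => ?_)
      fun y hy => ?_
    · rw [mem_ball, dist_eq_norm] at hy ⊢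
      rwa [ofReal_neg, ← sub_eq_add_neg, sub_sub, add_comm]
    · show χ (y + (-a : ℝ)) = θ y
      rw [e (s _ y hy)]
      show θ (y + (-a : ℝ) + a) = θ y
      rw [ofReal_neg, neg_add_cancel_right]

/-- the case of a good cone at every depth -/
def Spec_MV : Prop := ∀ (h : ℝ → ℝ) (ε : ℝ) (ψ δ : ℝ × ℝ → ℝ) (r c : ℝ) (θ H Q : ℂ → ℂ),
  Gm.NF h ε ψ δ → Cur r c θ H Q → Agr h ψ θ H → NatB r θ → Mov r θ Q → False

theorem clsS (TRI : Spec_TRI) (Y0 : Spec_Y0) (N1 : Spec_N1) (DISC : Spec_DISC) (ST : Spec_MV)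
    {h p : ℝ → ℝ} {c : ℝ} (hT : IsTable h) (hI : H402.IntBd h) (L : Laz h p c)
    (k : ¬ H407.IsEllipse h) :
    ∃ (r : ℝ) (θ : ℂ → ℂ), 0 < r ∧ HolExt p θ (Strip r) ∧ NatB r θ ∧ ¬ Ang r θ :=
  clsG TRI Y0 N1 DISC (K := fun r θ => ¬ Ang r θ) (fun _ _ _ n m => n m.shift)
    (fun h ε ψ δ r c θ H Q N C A B m => ST h ε ψ δ r c θ H Q N C A B (mov_of C m)) hT hI L k

end Vale.Agent.P097S
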