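import Vale.Agent.P097S.Asm2
import Vale.Agent.P097S.Ang

/-!
# P097S: the case of a good cone at every depth, from the cone baseline and the moments
-/

set_option linter.all false

noncomputable section

namespace Vale.Agent.P097S

open Filter Topology Set Metric Complex Vale.Agent.P097 Vale.Agent.P097T Vale.Agent.P097Top

/-- small leaves do not reach the depth `C u` -/
def Spec_NE : Prop := ∀ (h : ℝ → ℝ) (ε : ℝ) (ψ δ : ℝ × ℝ → ℝ) (r c : ℝ) (θ H Q : ℂ → ℂ),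
  Gm.NF h ε ψ δ → Cur r c θ H Q → Agr h ψ θ H → NatB r θ → ¬ P097M.Eta θ H r

theorem asmE (Y0 : Spec_Y0) (SUP : Spec_SUP2) (LEAF : Spec_LEAF) (NR : Spec_NOREG) (CB : Spec_CB)
    (H2 : P097M.Spec_H2) (NC : Spec_NCL2) (CORE : P097K.Spec_CORE2) : Spec_NE := by
  intro h ε ψ δ r c θ H Q N C A B K
  obtain ⟨κ, Y₀, S, k1, k2, e⟩ := Y0 h ε ψ δ r c θ H Q N C A
  have D := dt_of C S k2
  have Sy := sym_of C S
  have cb := CB _ _ _ _ _ _ _ D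
  obtain ⟨k, m1, m2, m3⟩ := brg2 C.rpos (P097E.PB.fn_of_cur C).df.continuousOn C.dQ.continuousOn Sy
    (H2 r c θ H Q C K) (NC _ _ _ _ _ _ _ D Sy cb (P097N.Bridge.not_over C.rpos C.dθ B))
  obtain ⟨n₀, L⟩ := LEAF h ε ψ δ r c θ H Q N C A
  obtain ⟨m, hm⟩ := exists_nat_one_div_lt S.pos
  set n : ℕ := 2 * (n₀ + m) + 1 with hn
  have n0 : (0 : ℝ) < 1 / n := by positivity
  have n1 : (1 : ℝ) / n < κ := lt_of_le_of_lt
    (one_div_le_one_div_of_le (by positivity) (by rw [hn]; push_cast; nlinarith [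
      (Nat.cast_nonneg n₀ : (0 : ℝ) ≤ n₀), (Nat.cast_nonneg m : (0 : ℝ) ≤ m)])) hm
  obtain ⟨l1, l2, l3⟩ := L n (by omega) ⟨n₀ + m, hn⟩
  obtain ⟨T, Y, F, mx⟩ := SUP h ε ψ δ r c (1 / n) κ θ H Q Y₀ N C A n0 l1
    (lf2_of S k2 e (by rwa [abs_of_pos n0]))
  obtain ⟨φ, p, D'⟩ := l3 T Y F
  exact CORE r c T θ H Q _ φ p k n C m1 m2 m3 D'
    (NR h ε ψ δ r c T θ H Q φ p n Y N C A B l1 l2 F mx D')

theorem asmM (Y0 : Spec_Y0) (CB : Spec_CB) (LIP : Spec_LIPM) (NE : Spec_NE) : Spec_MV := by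
  intro h ε ψ δ r c θ H Q N C A B K
  obtain ⟨κ, Y₀, S, k1, k2, e⟩ := Y0 h ε ψ δ r c θ H Q N C A
  exact NE h ε ψ δ r c θ H Q N C A B (eta C S k2
    (LIP h ε ψ δ r c κ θ H Q Y₀ N C A B S k1 k2 e (CB _ _ _ _ _ _ _ (dt_of C S k2)) K))

end Vale.Agent.P097S
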