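import Vale.Agent.P097S.Defs

/-!
# P097S: the cone baseline (definitions and statements of the steps)

`Φ` is the chord function, the law at `b` is `Φ (b, c) + Φ (b, a) = 0`.
-/

set_option linter.all false

noncomputable section

namespace Vale.Agent.P097S

open Filter Topology Set Metric Vale.Agent.P097N

/-- the local estimate and the bound of the even part -/
def LocE (Φ : ℂ × ℂ → ℂ) (b : ℂ) (ρ E : ℝ) : Prop := Loc Φ b ρ ∧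
  ∀ s : ℂ, ‖s‖ < ρ → ‖Φ (b, b + s) + Φ (b, b - s)‖ ≤ E * ‖s‖ ^ 4

/-- a weight like `τ ^ (-3 / 2)` -/
structure Wt (ω : ℝ → ℝ) : Prop where
  pos : ∀ τ, 0 < τ → 0 < ω τ
  anti : ∀ τ τ', 0 < τ → τ ≤ τ' → ω τ' ≤ ω τ
  dbl : ∀ τ, 0 < τ → ω τ ≤ 3 * ω (2 * τ)
  s1 : ∀ τ τ', 0 < τ → τ ≤ τ' → τ' ≤ 2 * τ → (τ' - τ) * ω τ ≤ 4 * τ * (ω τ - ω τ')
  s2 : ∀ τ τ', 0 < τ → τ ≤ τ' → τ' ≤ 2 * τ → (τ' - τ) * ω τ ≤ 4 * (τ * ω τ - τ' * ω τ')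

/-- the weight of the cone bound -/
def om (A d τ : ℝ) : ℝ := A ^ 2 / (τ * √(τ * d))

/-- the data for one value of `w`; `y₀` is the solution near the real axis -/
structure Fw (Φ : ℂ × ℂ → ℂ) (y₀ : ℂ → ℂ) (w : ℂ) (r κ s a T ε E C₀ : ℝ) (ω : ℝ → ℝ) : Prop where
  calm : ∀ x ∈ Cn r s a T (κ / 4), ∀ b : ℂ, ‖b - x‖ ≤ ε * (r - x.im) →
    LocE Φ b (8 * ‖w‖) (E * ω (r - x.im) / (r - x.im))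
  d0 : DifferentiableOn ℂ y₀ (St κ)
  bp : ∀ x ∈ St κ, ‖y₀ x - x‖ ≤ C₀ * ‖w‖ ^ 2
  bv : ∀ x ∈ St (κ / 2), x + w ∈ St (κ / 2) → ‖y₀ (x + w) - y₀ x - w‖ ≤ C₀ * ‖w‖ ^ 3
  law : ∀ x ∈ Cn r s a T (κ / 4), x - w ∈ St (κ / 2) → x ∈ St (κ / 2) → x + w ∈ St (κ / 2) →
    Φ (y₀ x, y₀ (x + w)) + Φ (y₀ x, y₀ (x - w)) = 0

/-- smallness of the step -/
structure Sm (m : ℝ) (w : ℂ) (r κ T E C₀ : ℝ) (ω : ℝ → ℝ) : Prop where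
  w0 : w ≠ 0
  κ0 : 0 < κ
  kr : 2 * κ ≤ r
  E1 : 1 ≤ E
  C0 : 0 ≤ C₀
  e : E * ‖w‖ ^ 2 * ω T ≤ m
  t : ‖w‖ ≤ m * T
  k : ‖w‖ ≤ m * κ
  c : C₀ * ‖w‖ ^ 2 ≤ m
  ct : C₀ * ‖w‖ ^ 2 * (1 + r) ≤ m * T

/-- a continuation of `y₀` to `U` with the crude bounds -/
structure Ex (Φ : ℂ × ℂ → ℂ) (y₀ : ℂ → ℂ) (w : ℂ) (r κ ε : ℝ) (U : Set ℂ) (y : ℂ → ℂ) : Prop where
  d : DifferentiableOn ℂ y U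
  eq : ∀ x ∈ U, x.im < κ / 2 → y x = y₀ x
  p : ∀ x ∈ U, ‖y x - x‖ ≤ ε * (r - x.im)
  v : ∀ x ∈ U, x + w ∈ U → ‖y (x + w) - y x - w‖ ≤ ‖w‖ / 16
  law : ∀ x ∈ U, x - w ∈ U → x + w ∈ U → Φ (y x, y (x + w)) + Φ (y x, y (x - w)) = 0

/-- the chord coordinate: chords of direction `w` are the lines `im = const` -/
def fc (r s : ℝ) (w x : ℂ) : ℂ := (s + r * Complex.I - x) / w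

/-- the part of the cone below a chord -/
def Om (r κ s a : ℝ) (w : ℂ) (σ : ℝ) : Set ℂ :=
  {x | x ∈ Cn r s a 0 (κ / 4) ∧ σ < (fc r s w x).im}

/-- the window round the point where the chord meets the axis -/
def Mid (r s : ℝ) (w : ℂ) (t σ : ℝ) : Set ℂ :=
  {x | |(fc r s w x).re - t| < 3 ∧ σ - 1 < (fc r s w x).im ∧ (fc r s w x).im < σ + 1}

/-! ### rows -/

/-- second differences -/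
def SEC : Prop := ∀ (Φ : ℂ × ℂ → ℂ) (a b c w : ℂ) (E : ℝ), w ≠ 0 → LocE Φ b (8 * ‖w‖) E →
  ‖b - a - w‖ ≤ ‖w‖ / 16 → ‖c - b - w‖ ≤ ‖w‖ / 16 → Φ (b, c) + Φ (b, a) = 0 →
  ‖c - 2 * b + a‖ ≤ 8 * E * ‖w‖ ^ 4

/-- continuation along the orbits, with a supersolution `(P, V)` -/
def DYN : Prop := ∀ (Φ : ℂ × ℂ → ℂ) (W W₀ : Set ℂ) (w n : ℂ) (t₀ t₁ : ℝ) (y₀ : ℂ → ℂ)
  (P V E : ℂ → ℝ), w ≠ 0 → IsOpen W → IsOpen W₀ → W₀ ⊆ W → (n * w).re = 1 →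
  (∀ x ∈ W, (n * x).re < t₁) → (∀ x ∈ W, (n * x).re < t₀ → x ∈ W₀) →
  (∀ x ∈ W₀, x - w ∈ W → x - w ∈ W₀) →
  (∀ x ∈ W, x ∉ W₀ → x - w ∈ W ∧ x - 2 * w ∈ W ∧
    V (x - w) + 8 * E (x - w) * ‖w‖ ^ 4 ≤ V x ∧ P (x - w) + V x ≤ P x) →
  (∀ x ∈ W, V x ≤ ‖w‖ / 16 ∧ ∀ b : ℂ, ‖b - x‖ ≤ P x → LocE Φ b (8 * ‖w‖) (E x)) →
  DifferentiableOn ℂ y₀ W₀ → (∀ x ∈ W₀, ‖y₀ x - x‖ ≤ P x) →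
  (∀ x ∈ W₀, x - w ∈ W₀ → ‖y₀ x - y₀ (x - w) - w‖ ≤ V x) →
  (∀ x ∈ W₀, x - w ∈ W₀ → x + w ∈ W₀ → Φ (y₀ x, y₀ (x + w)) + Φ (y₀ x, y₀ (x - w)) = 0) →
  ∃ y : ℂ → ℂ, DifferentiableOn ℂ y W ∧ EqOn y y₀ W₀ ∧ (∀ x ∈ W, ‖y x - x‖ ≤ P x) ∧
    (∀ x ∈ W, x - w ∈ W → ‖y x - y (x - w) - w‖ ≤ V x) ∧
    ∀ x ∈ W, x - w ∈ W → x + w ∈ W → Φ (y x, y (x + w)) + Φ (y x, y (x - w)) = 0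

/-- a small difference gives a small derivative far from the boundary -/
def M0 : Prop := ∀ (F : ℂ → ℂ) (x₀ w : ℂ) (k : ℕ) (B G : ℝ), w ≠ 0 →
  DifferentiableOn ℂ F (ball x₀ ((3 * k + 2) * ‖w‖)) →
  (∀ x ∈ ball x₀ ((3 * k + 2) * ‖w‖), ‖F x‖ ≤ B) →
  (∀ x ∈ ball x₀ ((3 * k + 2) * ‖w‖), x + w ∈ ball x₀ ((3 * k + 2) * ‖w‖) →
    ‖F (x + w) - F x‖ ≤ G) → 0 ≤ G → ‖deriv F x₀‖ * ‖w‖ ≤ 2 * G + B / 2 ^ k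

/-- joint analyticity of a bounded family along a connected set -/
def JOINT : Prop := ∀ (Z : ℂ × ℂ → ℂ) (Ω : Set (ℂ × ℂ)) (K : Set ℂ) (l x₀ : ℂ) (B : ℝ),
  IsOpen Ω → (∀ u, DifferentiableOn ℂ (fun x => Z (x, u)) {x | (x, u) ∈ Ω}) →
  (∀ q ∈ Ω, ‖Z q - q.1‖ ≤ B) → IsPreconnected K → (∀ x ∈ K, (x, l) ∈ Ω) → x₀ ∈ K →
  AnalyticAt ℂ Z (x₀, l) → ∀ x ∈ K, AnalyticAt ℂ Z (x, l)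

/-- steep directions -/
def STEEP : Prop := ∀ ε : ℝ, 0 < ε → ∃ m : ℝ, 0 < m ∧
  ∀ (Φ : ℂ × ℂ → ℂ) (y₀ : ℂ → ℂ) (w : ℂ) (r κ s a T E C₀ : ℝ) (ω : ℝ → ℝ), 0 < a → a ≤ 1 → Wt ω →
    Fw Φ y₀ w r κ s a T ε E C₀ ω → Sm m w r κ T E C₀ ω → |w.re| ≤ a * |w.im| →
    ∃ y, Ex Φ y₀ w r κ ε (Cn r s a T (κ / 4)) y

/-- crude bounds improve away from the boundary -/
def SHARP : Prop := ∀ a₁ γ ε η : ℝ, 0 < a₁ → a₁ ≤ 1 → 0 < γ → 0 < ε → 0 < η →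
  ∃ m L : ℝ, 0 < m ∧ 1 ≤ L ∧
  ∀ (Φ : ℂ × ℂ → ℂ) (y₀ y : ℂ → ℂ) (w : ℂ) (r κ s a T E C₀ σ : ℝ) (ω : ℝ → ℝ), Wt ω →
    Fw Φ y₀ w r κ s a T ε E C₀ ω → Sm m w r κ T E C₀ ω → γ * ‖w‖ ≤ w.re → 8 * a₁ * r ≤ κ →
    Om r κ s a₁ w σ ⊆ Cn r s a T (κ / 4) → Ex Φ y₀ w r κ ε (Om r κ s a₁ w σ) y →
    ∀ x ∈ Om r κ s a₁ w σ, x + w ∈ Om r κ s a₁ w σ →
      L * ‖w‖ ≤ a₁ * (r - x.im) - |x.re - s| → σ + L ≤ (fc r s w x).im →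
      ‖y x - x‖ ≤ η * (r - x.im) ∧ ‖y (x + w) - y x - w‖ ≤ η * ‖w‖

/-- from the window to the whole chord -/
def LAT : Prop := ∀ γ ε : ℝ, 0 < γ → 0 < ε → ∃ m η : ℝ, 0 < m ∧ 0 < η ∧
  ∀ (Φ : ℂ × ℂ → ℂ) (y₀ y : ℂ → ℂ) (w : ℂ) (r κ s a a₁ T E C₀ σ t : ℝ) (ω : ℝ → ℝ), Wt ω →
    Fw Φ y₀ w r κ s a T ε E C₀ ω → Sm m w r κ T E C₀ ω → γ * ‖w‖ ≤ w.re → 0 < a₁ → 4 * a₁ ≤ γ →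
    Om r κ s a₁ w (σ - 1) ⊆ Cn r s a T (κ / 4) → Mid r s w t σ ⊆ Cn r s a₁ 0 (κ / 4) →
    Ex Φ y₀ w r κ ε (Om r κ s a₁ w σ ∪ Mid r s w t σ) y →
    (∀ x ∈ Mid r s w t σ, ‖y x - x‖ ≤ η * (r - x.im) ∧
      (x + w ∈ Mid r s w t σ → ‖y (x + w) - y x - w‖ ≤ η * ‖w‖)) →
    ∃ y', Ex Φ y₀ w r κ ε (Om r κ s a₁ w (σ - 1)) y'

/-- a new layer in the region near the real axis -/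
def LOWL : Prop := ∀ ε : ℝ, 0 < ε → ∃ m : ℝ, 0 < m ∧
  ∀ (Φ : ℂ × ℂ → ℂ) (y₀ y : ℂ → ℂ) (w : ℂ) (r κ s a a₁ T E C₀ σ σ' : ℝ) (ω : ℝ → ℝ),
    Fw Φ y₀ w r κ s a T ε E C₀ ω → Sm m w r κ T E C₀ ω →
    Om r κ s a₁ w σ' ⊆ Cn r s a T (κ / 4) → Ex Φ y₀ w r κ ε (Om r κ s a₁ w σ) y →
    (∀ x ∈ Om r κ s a₁ w σ', (fc r s w x).im ≤ σ → x.im < 7 * κ / 16) →
    ∃ y', Ex Φ y₀ w r κ ε (Om r κ s a₁ w σ') y'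

/-- the abstract cone baseline, for one value of `w` -/
def CBA : Prop := ∀ r κ a ε E C₀ m₀ : ℝ, 0 < κ → 2 * κ ≤ r → 0 < a → a ≤ 1 → 0 < ε → ε ≤ 1 →
  1 ≤ E → 0 ≤ C₀ → 0 < m₀ → ∃ a₁ c : ℝ, 0 < a₁ ∧ a₁ ≤ a / 4 ∧ 0 < c ∧ c * r ≤ κ ∧
  ∀ (Φ Y : ℂ × ℂ → ℂ) (s d A : ℝ) (ω : ℝ → ℝ), 0 < d → d ≤ r → 1 ≤ A → Wt ω →
    (∀ τ, d ≤ τ → ω τ * (τ * d) ≤ A ^ 2) → DifferentiableOn ℂ Y (St κ ×ˢ ball 0 κ) →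
    (∀ x ∈ St κ, ∀ w ∈ ball (0 : ℂ) κ, Y (x, -w) = Y (x, w)) →
    (∀ (w : ℂ) (T : ℝ), 3 * d ≤ T → Sm m₀ w r κ T E C₀ ω →
      Fw Φ (fun x => Y (x, w)) w r κ s a T ε E C₀ ω) →
    ∀ w : ℂ, w ≠ 0 → ‖w‖ < c * d / A → ∃ y : ℂ → ℂ,
      DifferentiableOn ℂ y (Cn r s a₁ (8 * d) (κ / 4)) ∧ ∀ x ∈ Cn r s a₁ (8 * d) (κ / 4),
        (x.im < κ / 2 → y x = Y (x, w)) ∧ ‖y x - x‖ ≤ ε * (r - x.im)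

/-- the curve gives the data -/
def ENV : Prop := ∀ θ h Q Y c r κ, Dt θ h Q Y c r κ → ∀ a : ℝ, 0 < a → a ≤ 1 →
  ∃ ε E C₀ m₀ : ℝ, 0 < ε ∧ ε ≤ 1 / 8 ∧ 1 ≤ E ∧ 0 ≤ C₀ ∧ 0 < m₀ ∧
    ∀ s d A : ℝ, 0 < d → 1 ≤ A → Kc r θ Q s a d A → ∀ (w : ℂ) (T : ℝ), 3 * d ≤ T →
      Sm m₀ w r κ T E C₀ (om A d) →
      Fw (Ph θ h) (fun x => Y (x, w)) w r κ s (a / 2) T ε E C₀ (om A d)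

def WOM : Prop := ∀ A d : ℝ, 0 < A → 0 < d → Wt (om A d) ∧
  ∀ τ, d ≤ τ → om A d τ * (τ * d) ≤ A ^ 2

/-- the chart -/
def FIN : Prop := CBA → ENV → WOM → JOINT → Spec_CB

end Vale.Agent.P097S
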