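import Vale.Agent.P097S.CbaC

/-!
# P097S: the abstract cone baseline
-/

set_option linter.all false

noncomputable section

namespace Vale.Agent.P097S

open Filter Topology Set Metric Complex Vale.Agent.P097N

namespace Cba

theorem smMono {m m' r κ T E C₀ : ℝ} {w : ℂ} {ω : ℝ → ℝ} (S : Sm m w r κ T E C₀ ω) (h : m ≤ m')
    (T0 : 0 ≤ T) : Sm m' w r κ T E C₀ ω :=
  ⟨S.w0, S.κ0, S.kr, S.E1, S.C0, S.e.trans h, S.t.trans (mul_le_mul_of_nonneg_right h T0),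
    S.k.trans (mul_le_mul_of_nonneg_right h S.κ0.le), S.c.trans h,
    S.ct.trans (mul_le_mul_of_nonneg_right h T0)⟩

theorem sm {m M μ r κ E C₀ d A : ℝ} {w : ℂ} {ω : ℝ → ℝ} (κ0 : 0 < κ) (kr : 2 * κ ≤ r) (E1 : 1 ≤ E)
    (C0 : 0 ≤ C₀) (m0 : 0 < m) (M0 : 0 < M) (d0 : 0 < d) (dr : d ≤ r) (A1 : 1 ≤ A)
    (ωp : ∀ τ, 0 < τ → 0 < ω τ) (hω : ∀ τ, d ≤ τ → ω τ * (τ * d) ≤ A ^ 2) (k1 : E ≤ M * m)
    (k2 : 1 ≤ M * m ^ 2) (k3 : C₀ * (1 + r) * r ≤ M * m) (k4 : μ ≤ m * κ) (k5 : C₀ * μ ^ 2 ≤ m)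
    (w0 : w ≠ 0) (hw : ‖w‖ ≤ μ) : Sm m w r κ (3 * d + M * ‖w‖ ^ 2 * A ^ 2 / d) E C₀ ω := by
  have n0 := norm_nonneg w
  obtain ⟨U, hU⟩ : ∃ U, U = M * ‖w‖ ^ 2 * A ^ 2 / d := ⟨_, rfl⟩
  have U1 : U * d = M * ‖w‖ ^ 2 * A ^ 2 := by rw [hU]; field_simp
  have U0 : 0 ≤ U := by rw [hU]; positivity
  have A2 : 1 ≤ A ^ 2 := by nlinarith
  have U2 : M * ‖w‖ ^ 2 ≤ U * d := U1 ▸ le_mul_of_one_le_right (by positivity) A2
  rw [← hU]
  refine ⟨w0, κ0, kr, E1, C0, ?_, ?_, hw.trans k4, ?_, ?_⟩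
  · have h1 := hω (3 * d + U) (by linarith)
    have h2 := ωp (3 * d + U) (by linarith)
    have h3 : ω (3 * d + U) * (M * ‖w‖ ^ 2) * A ^ 2 ≤ 1 * A ^ 2 := by
      nlinarith [mul_pos h2 (mul_pos d0 d0)]
    have h4 := le_of_mul_le_mul_right h3 (by linarith)
    nlinarith [mul_le_mul_of_nonneg_right k1 (mul_nonneg (sq_nonneg ‖w‖) h2.le)]
  · refine le_of_mul_le_mul_right (a := m * d) ?_ (by positivity)
    nlinarith [mul_le_mul_of_nonneg_left U2 (sq_nonneg m), sq_nonneg (‖w‖ - m * d),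
      mul_le_mul_of_nonneg_right k2 (sq_nonneg ‖w‖), sq_nonneg (m * d), sq_nonneg ‖w‖]
  · exact (mul_le_mul_of_nonneg_left (pow_le_pow_left₀ n0 hw 2) C0).trans k5
  · refine le_of_mul_le_mul_right (a := r) ?_ (by linarith)
    nlinarith [mul_le_mul_of_nonneg_right k3 (sq_nonneg ‖w‖), mul_le_mul_of_nonneg_left U2 m0.le,
      mul_le_mul_of_nonneg_left dr (mul_nonneg m0.le U0), mul_pos (mul_pos m0 d0) (by linarith : 0 < r)]

theorem Hb_mul (M₁ M₂ e q : ℝ) (l : ℂ) : (Hb M₁ M₂ e q l).re * ‖exp l‖ ^ 2 =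
    M₁ * (exp l).re + M₂ * ‖exp l‖ ^ 2 * (exp l).re +
      e * ‖exp (-(q * l))‖ * Real.cos (q * l.im) * ‖exp l‖ ^ 2 := by
  rw [Hb_re, exp_neg l, norm_inv, exp_re, ← norm_exp]
  have := norm_pos_iff.2 (exp_ne_zero l)
  field_simp

theorem start {r e β q : ℝ} (r0 : 0 < r) (e0 : 0 < e) (β0 : 0 < β) (q1 : 1 < q) :
    ∃ K : ℕ, ∀ l : ℂ, r ≤ (K + e * ‖exp (-(q * l))‖ * β) * ‖exp l‖ := by
  obtain ⟨ρ, hρ⟩ : ∃ ρ, ρ = r / (e * β * (q - 1)) := ⟨_, rfl⟩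
  have q0 : 0 < q - 1 := by linarith
  have e1 : e * β * ((q - 1) * ρ) = r := by rw [hρ]; field_simp
  obtain ⟨K, hK⟩ := exists_nat_ge (r * Real.exp ρ)
  refine ⟨K, fun l => ?_⟩
  have p1 : 0 ≤ e * ‖exp (-(q * l))‖ * β * ‖exp l‖ := by positivity
  have p2 : 0 ≤ (K : ℝ) * ‖exp l‖ := by positivity
  rcases le_total (-ρ) l.re with h | h
  · have : r ≤ K * ‖exp l‖ := by
      rw [norm_exp]
      calc r = r * Real.exp ρ * Real.exp (-ρ) := by rw [mul_assoc, ← Real.exp_add]; simp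
        _ ≤ K * Real.exp l.re := by gcongr
    linarith
  · have a1 : ‖exp (-(q * l))‖ * ‖exp l‖ = Real.exp ((1 - q) * l.re) := by
      rw [norm_exp, norm_exp, ← Real.exp_add]; congr 1; simp; ring
    have a2 : (q - 1) * ρ ≤ Real.exp ((1 - q) * l.re) := by
      nlinarith [Real.add_one_le_exp ((1 - q) * l.re)]
    have a3 := mul_le_mul_of_nonneg_left a2 (mul_pos e0 β0).le
    rw [← a1] at a3
    linarith

end Cba

open Cba in
theorem cba (J : JOINT) (ST : STEEP) (SH : SHARP) (LA : LAT) : CBA := by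
  intro r κ a ε E C₀ m₀ κ0 kr a0 a1 ε0 ε1 E1 C0 m00
  have r0 : 0 < r := by linarith
  obtain ⟨α, α', q, β, β0, β1, q1, q2, αα, απ, cs, stp⟩ := ang a0 a1
  have α2 : α ≤ 2 := by linarith [Real.pi_le_four]
  obtain ⟨a₁, b0, b1, b2, b3⟩ : ∃ a₁ : ℝ, 0 < a₁ ∧ a₁ ≤ a / 4 ∧ a₁ ≤ 1 / 4 * β ∧
      a₁ ≤ κ / (64 * r) * β := ⟨min (a / 4) (min (1 / 4 * β) (κ / (64 * r) * β)), by positivity,
    min_le_left _ _, (min_le_right _ _).trans (min_le_left _ _),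
    (min_le_right _ _).trans (min_le_right _ _)⟩
  have θr : κ / (64 * r) * r = κ / 64 := by field_simp
  have b4 : 8 * a₁ * r ≤ κ := by
    have h1 := b3.trans (mul_le_of_le_one_right (by positivity) β1)
    linarith [mul_le_mul_of_nonneg_right h1 r0.le]
  obtain ⟨mL, ηL, mL0, ηL0, LA⟩ := LA β ε β0 ε0
  obtain ⟨η, η0, η1, η2, η3⟩ : ∃ η : ℝ, 0 < η ∧ 2 * η ≤ ε ∧ 2 * η ≤ 1 / 16 ∧ 2 * η ≤ ηL :=
    ⟨min ε (min (1 / 16) ηL) / 2, by positivity, by linarith [min_le_left ε (min (1 / 16) ηL)],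
      by linarith [min_le_right ε (min (1 / 16) ηL), min_le_left (1 / 16) ηL],
      by linarith [min_le_right ε (min (1 / 16) ηL), min_le_right (1 / 16) ηL]⟩
  obtain ⟨mS, L, mS0, L1, SH⟩ := SH a₁ β ε η b0 (by linarith) β0 ε0 η0
  obtain ⟨mT, mT0, ST⟩ := ST ε ε0
  have sml : ∀ {x : ℝ}, 0 < x → ∀ᶠ m in 𝓝[>] (0 : ℝ), m ≤ x := fun h =>
    mem_nhdsWithin_of_mem_nhds (Iic_mem_nhds h)
  obtain ⟨m, m1, m2, m3, m4, m5, m6, m7, m0⟩ : ∃ m : ℝ, m ≤ m₀ ∧ m ≤ mL ∧ m ≤ mS ∧ m ≤ mT ∧ m ≤ ε ∧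
      m ≤ 1 / 16 ∧ m ≤ β / 64 ∧ 0 < m :=
    ((sml m00).and ((sml mL0).and ((sml mS0).and ((sml mT0).and ((sml ε0).and
      ((sml (by norm_num)).and ((sml (by positivity)).and self_mem_nhdsWithin))))))).exists
  have big : ∀ {x : ℝ} (y : ℝ), 0 < x → ∀ᶠ M in atTop, y ≤ M * x := fun y h =>
    (tendsto_id.atTop_mul_const h).eventually_ge_atTop y
  obtain ⟨M, k1, k2, k3, M0⟩ : ∃ M : ℝ, E ≤ M * m ∧ 1 ≤ M * m ^ 2 ∧ C₀ * (1 + r) * r ≤ M * m ∧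
      0 < M := ((big _ m0).and ((big _ (by positivity)).and ((big _ m0).and
        (eventually_gt_atTop 0)))).exists
  obtain ⟨μ, k4, k5, k6, μ0⟩ : ∃ μ : ℝ, μ ≤ m * κ ∧ μ ≤ 1 ∧ μ ≤ m / (C₀ + 1) ∧ 0 < μ :=
    ((sml (by positivity)).and ((sml one_pos).and ((sml (by positivity)).and
      self_mem_nhdsWithin))).exists
  have k7 : C₀ * μ ^ 2 ≤ m := by
    rw [le_div_iff₀ (by positivity)] at k6
    have := mul_le_mul_of_nonneg_left k5 (mul_nonneg C0 μ0.le)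
    linarith
  have μκ : μ ≤ κ := k4.trans (mul_le_of_le_one_left κ0.le (by linarith))
  obtain ⟨δ, δ1, δ2, δ3, δ0⟩ : ∃ δ : ℝ, δ ≤ 1 / 2 ∧ δ ≤ a₁ * β / 224 ∧ δ ≤ α - α' ∧ 0 < δ :=
    ((sml (by norm_num)).and ((sml (by positivity)).and ((sml (by linarith)).and
      self_mem_nhdsWithin))).exists
  obtain ⟨Γ, Γ0, Γ1⟩ : ∃ Γ : ℝ, 0 ≤ Γ ∧ Γ * δ ^ 2 = 2 * L + 2 :=
    ⟨(2 * L + 2) / δ ^ 2, by positivity, by field_simp⟩
  obtain ⟨N, n1, n2, n3, N0⟩ : ∃ N : ℝ, 48 * (6 + 3 * Γ) ≤ N * a₁ ∧ 4 * L ≤ N * a₁ ∧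
      2 * r ≤ N * μ ∧ 0 < N :=
    ((big _ b0).and ((big _ b0).and ((big _ μ0).and (eventually_gt_atTop 0)))).exists
  obtain ⟨c, c1, c2, c3, c4, c0⟩ : ∃ c : ℝ, c ≤ μ / r ∧ c ≤ β / (N + 4 * Γ + 1) ∧ c ≤ 1 ∧
      c ≤ 1 / (2 * M) ∧ 0 < c := ((sml (by positivity)).and ((sml (by positivity)).and
        ((sml one_pos).and ((sml (by positivity)).and self_mem_nhdsWithin)))).exists
  rw [le_div_iff₀ (by positivity)] at c1 c2 c4
  refine ⟨a₁, c, b0, b1, c0, c1.trans μκ, fun Φ Y s d A ω d0 dr A1 W hω dY ev HF => ?_⟩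
  let T : ℂ → ℝ := fun w => 3 * d + M * ‖w‖ ^ 2 * A ^ 2 / d
  have T3 : ∀ w, 3 * d ≤ T w := fun w => le_add_of_nonneg_right (by positivity)
  have S0 : ∀ w : ℂ, w ≠ 0 → ‖w‖ ≤ μ → ∀ m', m ≤ m' → Sm m' w r κ (T w) E C₀ ω :=
    fun w w0 hw m' h => smMono (sm κ0 kr E1 C0 m0 M0 d0 dr A1 W.pos hω k1 k2 k3 k4 k7 w0 hw) h
      (by linarith [T3 w])
  have F0 : ∀ w : ℂ, w ≠ 0 → ‖w‖ ≤ μ → Fw Φ (fun x => Y (x, w)) w r κ s a (T w) ε E C₀ ω :=
    fun w w0 hw => HF w _ (T3 w) (S0 w w0 hw _ m1)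
  have re1 : ∀ l : ℂ, |l.im| ≤ α → β * ‖exp l‖ ≤ (exp l).re := fun l h => by
    rw [exp_re, norm_exp, mul_comm]
    exact mul_le_mul_of_nonneg_left (cs _ h).1 (Real.exp_pos _).le
  have n0 : ∀ l : ℂ, 0 < ‖exp l‖ := fun l => norm_pos_iff.2 (exp_ne_zero l)
  have stE : ∀ l : ℂ, ‖exp l‖ ≤ μ → α' ≤ |l.im| → |l.im| ≤ Real.pi / 2 → ∃ y,
      Ex Φ (fun x => Y (x, exp l)) (exp l) r κ ε (Cn r s a (T (exp l)) (κ / 4)) y :=
    fun l h1 h2 h3 => ST Φ _ _ r κ s a _ E C₀ ω a0 a1 W (F0 _ (exp_ne_zero l) h1)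
      (S0 _ (exp_ne_zero l) h1 _ m4) (by
        rw [exp_re, exp_im, abs_mul, abs_mul, mul_left_comm]
        exact mul_le_mul_of_nonneg_left (stp _ h2 h3) (abs_nonneg _))
  have M2 : 0 ≤ 2 * M * A ^ 2 / d := by positivity
  have key : ∀ e : ℝ, 0 < e → ∀ l ∈ Rt μ α, ∃ y, Ex Φ (fun x => Y (x, exp l)) (exp l) r κ ε
      (Om r κ s a₁ (exp l) (N + 4 * Γ + ph (4 * d) (2 * M * A ^ 2 / d) e q Γ l)) y := by
    intro e e0
    have w0 : ∀ l ∈ Rt μ α, 0 < (exp l).re := fun l hl =>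
      (mul_pos β0 (n0 l)).trans_le (re1 l hl.2.le)
    have lo : ∀ l ∈ Rt μ α, ∀ S : ℝ, S - 4 * Γ + (Hb (4 * d) (2 * M * A ^ 2 / d) e q l).re ≤
        S + ph (4 * d) (2 * M * A ^ 2 / d) e q Γ l := fun l hl S => by
      have := abs_lt.1 hl.2
      have sq4 : Γ * l.im ^ 2 ≤ Γ * 2 ^ 2 :=
        mul_le_mul_of_nonneg_left (sq_le_sq' (by linarith) (by linarith)) Γ0
      rw [ph]; linarith
    have H3 : ∀ l ∈ Rt μ α, e * ‖exp (-(q * l))‖ * β * ‖exp l‖ ^ 2 ≤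
        e * ‖exp (-(q * l))‖ * Real.cos (q * l.im) * ‖exp l‖ ^ 2 := fun l hl => by
      have := (cs _ hl.2.le).2
      gcongr
    have sub : ∀ l ∈ Rt μ α, ∀ σ, (Hb (4 * d) (2 * M * A ^ 2 / d) e q l).re ≤ σ →
        Om r κ s a₁ (exp l) σ ⊆ Cn r s a (T (exp l)) (κ / 4) := fun l hl σ h x hx => by
      obtain ⟨⟨x1, x2, x3⟩, x4⟩ := hx
      refine ⟨x1, ?_, x3.trans_le (mul_le_mul_of_nonneg_right (by linarith) x2.le)⟩
      have h1 := (cmp (exp_ne_zero l) (re1 l hl.2.le) b2 b0.le (by norm_num) x2.le x3.le).2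
      have h2 := mul_lt_mul_of_pos_right (h.trans_lt x4) (pow_pos (n0 l) 2)
      have h3 := H3 l hl
      have h4 : 0 ≤ e * ‖exp (-(q * l))‖ * β * ‖exp l‖ ^ 2 := by positivity
      rw [Hb_mul] at h2
      have h5 : (4 * d + 2 * (M * ‖exp l‖ ^ 2 * A ^ 2 / d)) * (exp l).re <
          5 / 4 * (r - x.im) * (exp l).re := by
        have : 2 * M * A ^ 2 / d * ‖exp l‖ ^ 2 = 2 * (M * ‖exp l‖ ^ 2 * A ^ 2 / d) := by ring
        rw [this] at h2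
        linarith
      have h6 := lt_of_mul_lt_mul_right h5 (w0 l hl).le
      have h7 : 0 ≤ M * ‖exp l‖ ^ 2 * A ^ 2 / d := by positivity
      show 3 * d + _ < _
      linarith
    have low : ∀ l ∈ Rt μ α, ∀ σ, (Hb (4 * d) (2 * M * A ^ 2 / d) e q l).re ≤ σ →
        (r - κ / 2 + κ / 64) * (exp l).re ≤ σ * ‖exp l‖ ^ 2 → ∃ y,
        Ex Φ (fun x => Y (x, exp l)) (exp l) r κ ε (Om r κ s a₁ (exp l) σ) y := fun l hl σ h k =>
      ⟨_, exLow (F0 _ (exp_ne_zero l) hl.1.le) (S0 _ (exp_ne_zero l) hl.1.le m le_rfl) m0 m5 m6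
        (sub l hl σ h) fun x hx => by
          obtain ⟨⟨x1, x2, x3⟩, x4⟩ := hx
          have h1 := (cmp (exp_ne_zero l) (re1 l hl.2.le) b3 b0.le (by positivity) x2.le x3.le).2
          have h2 := mul_lt_mul_of_pos_right x4 (pow_pos (n0 l) 2)
          have h3 : (r - κ / 2 + κ / 64) * (exp l).re <
              (1 + κ / (64 * r)) * (r - x.im) * (exp l).re := by linarith
          have h4 := lt_of_mul_lt_mul_right h3 (w0 l hl).le
          have h5 := mul_le_mul_of_nonneg_left (show r - x.im ≤ r by linarith)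
            (show 0 ≤ κ / (64 * r) by positivity)
          linarith⟩
    have H0 : ∀ l ∈ Rt μ α, e * ‖exp (-(q * l))‖ * β * ‖exp l‖ ^ 2 ≤
        (Hb (4 * d) (2 * M * A ^ 2 / d) e q l).re * ‖exp l‖ ^ 2 := fun l hl => by
      have := (w0 l hl).le
      have h1 : 0 ≤ 4 * d * (exp l).re + 2 * M * A ^ 2 / d * ‖exp l‖ ^ 2 * (exp l).re := by
        positivity
      rw [Hb_mul]; linarith [H3 l hl]
    obtain ⟨K, hK⟩ := start r0 e0 β0 q1
    have ind : ∀ j : ℕ, j ≤ K → ∀ l ∈ Rt μ α, ∃ y, Ex Φ (fun x => Y (x, exp l)) (exp l) r κ ε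
        (Om r κ s a₁ (exp l) (N + 4 * Γ + (K - j) + ph (4 * d) (2 * M * A ^ 2 / d) e q Γ l)) y := by
      intro j
      induction j with
      | zero =>
        intro _ l hl
        have h1 := lo l hl (N + 4 * Γ + (K - (0 : ℕ)))
        have h2 := mul_le_mul_of_nonneg_right h1 (sq_nonneg ‖exp l‖)
        have h3 := mul_le_mul_of_nonneg_right (hK l) (n0 l).le
        have h4 := mul_le_mul (show r - κ / 2 + κ / 64 ≤ r by linarith) (re_le_norm (exp l))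
          (w0 l hl).le r0.le
        have h5 := mul_pos N0 (pow_pos (n0 l) 2)
        have h6 := H0 l hl
        simp only [Nat.cast_zero, sub_zero] at h1 h2 ⊢
        exact low l hl _ (by linarith [Nat.cast_nonneg (α := ℝ) K]) (by linarith)
      | succ j ih =>
        intro hj l hl
        have jK : (j : ℝ) + 1 ≤ K := by exact_mod_cast hj
        have X := ih (by omega)
        choose! y X using X
        obtain ⟨S, hS⟩ : ∃ S, S = N + 4 * Γ + ((K : ℝ) - j) := ⟨_, rfl⟩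
        rw [← hS] at X
        rw [show N + 4 * Γ + ((K : ℝ) - (j + 1 : ℕ)) + ph (4 * d) (2 * M * A ^ 2 / d) e q Γ l =
          S + ph (4 * d) (2 * M * A ^ 2 / d) e q Γ l - 1 by rw [hS]; push_cast; ring]
        have h1 := lo l hl S
        have h2 : (Hb (4 * d) (2 * M * A ^ 2 / d) e q l).re ≤
            S + ph (4 * d) (2 * M * A ^ 2 / d) e q Γ l - 1 := by linarith
        by_cases c1 : α' ≤ |l.im|
        · obtain ⟨y', h⟩ := stE l hl.1.le c1 (hl.2.le.trans απ)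
          exact ⟨y', exMono h (sub l hl _ h2)⟩
        by_cases c2 : (r - κ / 2 + κ / 64) * (exp l).re ≤
            (S + ph (4 * d) (2 * M * A ^ 2 / d) e q Γ l - 1) * ‖exp l‖ ^ 2
        · exact low l hl _ h2 c2
        have F := F0 _ (exp_ne_zero l) hl.1.le
        have h4 := mul_le_mul (show r - κ / 2 + κ / 64 ≤ r by linarith) (re_le_norm (exp l))
          (w0 l hl).le r0.le
        have h5 : 0 ≤ e * ‖exp (-(q * l))‖ * β * ‖exp l‖ ^ 2 := by positivity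
        have h6 := mul_le_mul_of_nonneg_right (show N + (Hb (4 * d) (2 * M * A ^ 2 / d) e q l).re ≤
          S + ph (4 * d) (2 * M * A ^ 2 / d) e q Γ l - 1 by linarith) (sq_nonneg ‖exp l‖)
        have h7 : N * ‖exp l‖ * ‖exp l‖ < r * ‖exp l‖ := by linarith [H0 l hl, not_le.1 c2]
        have h8 := lt_of_mul_lt_mul_right h7 (n0 l).le
        have l1 : 2 * ‖exp l‖ < μ := lt_of_mul_lt_mul_left (a := N) (by linarith) N0.le
        have h9 : ‖exp l‖ ^ 2 ≤ κ / 64 * (exp l).re := by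
          have g1 : ‖exp l‖ ≤ β / 64 * κ :=
            (hl.1.le.trans k4).trans (mul_le_mul_of_nonneg_right m7 κ0.le)
          linarith [mul_le_mul_of_nonneg_right g1 (n0 l).le,
            mul_le_mul_of_nonneg_left (re1 l hl.2.le) κ0.le]
        obtain ⟨t, y', g1, g2, g3⟩ := high J κ0 b0 (by linarith) ε0.le μκ β0 β1 δ0.le δ1 Γ0
          (by positivity) M2 e0.le (by linarith) q2 α2 L1 η0.le η1 η2 cs (by linarith)
          (by linarith) b4 Γ1 (by linarith) (show N + 4 * Γ ≤ S by linarith) dY X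
          (fun l' hl' => SH Φ _ _ _ r κ s a _ E C₀ _ ω W (F0 _ (exp_ne_zero l') hl'.1.le)
            (S0 _ (exp_ne_zero l') hl'.1.le _ m3) (re1 l' hl'.2.le) b4
            (sub l' hl' _ (by linarith [lo l' hl' S])) (X l' hl'))
          l1 (by linarith [not_le.1 c1])
          (by linarith [not_le.1 c2, mul_pos κ0 (w0 l hl)]) F (sub l hl _ h2)
        exact LA Φ _ y' _ r κ s a a₁ _ E C₀ _ t ω W F (S0 _ (exp_ne_zero l) hl.1.le _ m2)
          (re1 l hl.2.le) b0 (by linarith) (sub l hl _ h2) g1 g2 fun x hx =>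
          ⟨(g3 x hx).1.trans (mul_le_mul_of_nonneg_right η3 (g1 hx).2.1.le), fun k =>
            ((g3 x hx).2 k).trans (mul_le_mul_of_nonneg_right η3 (n0 l).le)⟩
    simpa using ind K le_rfl
  have fin : ∀ w : ℂ, w ≠ 0 → ‖w‖ < c * d / A → 0 ≤ w.re → ∃ y,
      Ex Φ (fun x => Y (x, w)) w r κ ε (Cn r s a₁ (8 * d) (κ / 4)) y := fun w w0 hw h => by
    obtain ⟨l, rfl, l1⟩ : ∃ l, exp l = w ∧ |l.im| ≤ Real.pi / 2 :=
      ⟨log w, exp_log w0, by rw [log_im]; exact abs_arg_le_pi_div_two_iff.2 h⟩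
    rw [lt_div_iff₀ (by linarith)] at hw
    have g1 : ‖exp l‖ < c * d := (le_mul_of_one_le_right (n0 l).le A1).trans_lt hw
    have g2 : ‖exp l‖ < μ := g1.trans_le ((mul_le_mul_of_nonneg_left dr c0.le).trans c1)
    have g3 : 2 * (M * ‖exp l‖ ^ 2 * A ^ 2 / d) ≤ d := by
      have g4 := mul_le_mul_of_nonneg_left (pow_le_pow_left₀ (by positivity) hw.le 2) M0.le
      have g5 := mul_le_mul c4 c3 c0.le zero_le_one
      have g6 := mul_le_mul_of_nonneg_right g5 (sq_nonneg d)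
      rw [← mul_div_assoc, div_le_iff₀ d0]
      linarith
    by_cases c1 : α' ≤ |l.im|
    · obtain ⟨y, X⟩ := stE l g2.le c1 l1
      exact ⟨y, exMono X fun x hx => ⟨hx.1, by
        have := hx.2.1
        show 3 * d + _ < _
        linarith, hx.2.2.trans_le (mul_le_mul_of_nonneg_right (by linarith)
          (by linarith [hx.2.1]))⟩⟩
    have hl : l ∈ Rt μ α := ⟨g2, by linarith [not_le.1 c1]⟩
    obtain ⟨y, X⟩ := key ‖exp (-(q * l))‖⁻¹ (inv_pos.2 (n0 _)) l hl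
    refine ⟨y, exMono X fun x hx => ?_⟩
    obtain ⟨x1, x2, x3⟩ := hx
    refine ⟨⟨x1, by linarith, x3⟩, lt_of_mul_lt_mul_right ?_ (sq_nonneg ‖exp l‖)⟩
    have h0 := re1 l hl.2.le
    have w1 := (mul_pos β0 (n0 l)).trans_le h0
    have h1 := (cmp (exp_ne_zero l) h0 b2 b0.le (by norm_num) (by linarith) x3.le).1
    have h2 := Hb_mul (4 * d) (2 * M * A ^ 2 / d) ‖exp (-(q * l))‖⁻¹ q l
    rw [inv_mul_cancel₀ (n0 _).ne', one_mul, show 2 * M * A ^ 2 / d * ‖exp l‖ ^ 2 =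
      2 * (M * ‖exp l‖ ^ 2 * A ^ 2 / d) by ring] at h2
    have h3 := mul_le_mul_of_nonneg_right (Real.cos_le_one (q * l.im)) (sq_nonneg ‖exp l‖)
    have h4 := mul_le_mul_of_nonneg_right g3 w1.le
    have h5 := mul_lt_mul_of_pos_right x2 w1
    have h6 : 0 ≤ Γ * l.im ^ 2 * ‖exp l‖ ^ 2 := by positivity
    have h7 := mul_le_mul_of_nonneg_right (mul_le_mul_of_nonneg_left g1.le
      (show 0 ≤ N + 4 * Γ + 1 by positivity)) (n0 l).le
    have h8 := mul_le_mul_of_nonneg_right c2 (mul_pos d0 (n0 l)).le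
    have h9 := mul_le_mul_of_nonneg_left h0 d0.le
    rw [ph]
    linarith
  intro w w0 hw
  rcases le_total 0 w.re with h | h
  · obtain ⟨y, X⟩ := fin w w0 hw h
    exact ⟨y, X.d, fun x hx => ⟨X.eq x hx, X.p x hx⟩⟩
  · obtain ⟨y, X⟩ := fin (-w) (neg_ne_zero.2 w0) (by rwa [norm_neg]) (by simpa using h)
    refine ⟨y, X.d, fun x hx => ⟨fun k => (X.eq x hx k).trans (ev x ?_ w ?_), X.p x hx⟩⟩
    · have := hx.1
      show |x.im| < κ
      rw [abs_lt]; constructor <;> linarith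
    · rw [lt_div_iff₀ (by linarith)] at hw
      exact mem_ball_zero_iff.2 (((le_mul_of_one_le_right (norm_nonneg w) A1).trans_lt hw).trans_le
        ((mul_le_mul_of_nonneg_left dr c0.le).trans (c1.trans μκ)))

end Vale.Agent.P097S
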