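import Vale.Agent.P097S.CDefs

/-!
# P097S: geometry of the cones and the barrier
-/

set_option linter.all false

noncomputable section

namespace Vale.Agent.P097S.Cba

open Filter Topology Set Metric Complex Vale.Agent.P097N

theorem ang {a : ℝ} (a0 : 0 < a) (a1 : a ≤ 1) : ∃ α α' q β : ℝ, 0 < β ∧ β ≤ 1 ∧ 1 < q ∧ q ≤ 2 ∧
    α' < α ∧ α ≤ Real.pi / 2 ∧ (∀ t, |t| ≤ α → β ≤ Real.cos t ∧ β ≤ Real.cos (q * t)) ∧
    ∀ t, α' ≤ |t| → |t| ≤ Real.pi / 2 → |Real.cos t| ≤ a * |Real.sin t| := by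
  have p3 := Real.pi_gt_three
  have p4 := Real.pi_le_four
  have key : ∀ t, |t| ≤ Real.pi / 2 - a / 8 → a / 16 ≤ Real.cos t := fun t ht => by
    rw [← Real.cos_abs]
    have h1 : Real.cos (Real.pi / 2 - a / 8) ≤ Real.cos |t| :=
      Real.cos_le_cos_of_nonneg_of_le_pi (abs_nonneg t) (by linarith) ht
    rw [Real.cos_pi_div_two_sub] at h1
    have h2 := Real.mul_le_sin (x := a / 8) (by linarith) (by linarith)
    have h3 : 1 / 2 ≤ 2 / Real.pi := by rw [div_le_div_iff₀ (by norm_num) (by linarith)]; linarith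
    nlinarith
  refine ⟨Real.pi / 2 - a / 4, Real.pi / 2 - a / 2, 1 + a / 16, a / 16, by linarith, by linarith,
    by linarith, by linarith, by linarith, by linarith, fun t ht => ⟨key t (by linarith), key _ ?_⟩,
    fun t h1 h2 => ?_⟩
  · rw [abs_mul, abs_of_pos (by linarith : 0 < 1 + a / 16)]
    nlinarith [abs_nonneg t]
  · have e1 : |Real.cos t| = Real.sin (Real.pi / 2 - |t|) := by
      rw [Real.sin_pi_div_two_sub, Real.cos_abs, abs_of_nonneg]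
      exact Real.cos_nonneg_of_neg_pi_div_two_le_of_le (abs_le.1 h2).1 (abs_le.1 h2).2
    have e2 : |Real.sin t| = Real.cos (Real.pi / 2 - |t|) := by
      rw [Real.cos_pi_div_two_sub, Real.abs_sin_eq_sin_abs_of_abs_le_pi (by linarith)]
    have e3 := Real.sin_le (x := Real.pi / 2 - |t|) (by linarith)
    have e4 := Real.one_sub_sq_div_two_le_cos (x := Real.pi / 2 - |t|)
    rw [e1, e2]
    have e5 : (Real.pi / 2 - |t|) ^ 2 ≤ 1 := by nlinarith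
    nlinarith

variable {r κ s a d b σ β : ℝ} {w x : ℂ}

theorem fc_im (r s : ℝ) (hw : w ≠ 0) (x : ℂ) :
    (fc r s w x).im * ‖w‖ ^ 2 = (r - x.im) * w.re - (s - x.re) * w.im := by
  have h := normSq_pos.2 hw
  rw [fc, div_im, ← Complex.normSq_eq_norm_sq]
  field_simp
  simp
  ring

theorem fc_add (r s : ℝ) (hw : w ≠ 0) (x : ℂ) : fc r s w (x + w) = fc r s w x - 1 := by
  unfold fc; field_simp; ring

theorem fc_sub (r s : ℝ) (hw : w ≠ 0) (x : ℂ) : fc r s w (x - w) = fc r s w x + 1 := by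
  unfold fc; field_simp; ring

theorem fc_inv (r s : ℝ) (hw : w ≠ 0) (ξ : ℂ) : fc r s w (s + r * I - w * ξ) = ξ := by
  unfold fc; field_simp; ring

theorem inv_fc (r s : ℝ) (hw : w ≠ 0) (x : ℂ) : s + r * I - w * fc r s w x = x := by
  unfold fc; field_simp; ring

/-- the chord coordinate is comparable with the depth -/
theorem cmp {θ : ℝ} (hw : w ≠ 0) (hβ : β * ‖w‖ ≤ w.re) (ha : a ≤ θ * β) (a0 : 0 ≤ a) (θ0 : 0 ≤ θ)
    (hτ : 0 ≤ r - x.im) (hx : |x.re - s| ≤ a * (r - x.im)) :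
    (1 - θ) * ((r - x.im) * w.re) ≤ (fc r s w x).im * ‖w‖ ^ 2 ∧
      (fc r s w x).im * ‖w‖ ^ 2 ≤ (1 + θ) * ((r - x.im) * w.re) := by
  have h1 : |(s - x.re) * w.im| ≤ θ * ((r - x.im) * w.re) := by
    rw [abs_mul, abs_sub_comm]
    calc |x.re - s| * |w.im| ≤ a * (r - x.im) * ‖w‖ :=
          mul_le_mul hx (abs_im_le_norm w) (abs_nonneg _) (by positivity)
      _ ≤ θ * β * (r - x.im) * ‖w‖ := by gcongr
      _ = θ * ((r - x.im) * (β * ‖w‖)) := by ring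
      _ ≤ θ * ((r - x.im) * w.re) := by gcongr
  rw [fc_im r s hw]
  constructor <;> linarith [(abs_le.1 h1).1, (abs_le.1 h1).2]

theorem Cn_open (r s a d b : ℝ) : IsOpen (Cn r s a d b) :=
  (isOpen_lt continuous_const continuous_im).inter
    ((isOpen_lt (f := fun _ : ℂ => d) (g := fun y => r - y.im) continuous_const (by fun_prop)).inter
      (isOpen_lt (f := fun y : ℂ => |y.re - s|) (g := fun y => a * (r - y.im)) (by fun_prop)
        (by fun_prop)))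

theorem Cn_cvx (r s a d b : ℝ) : Convex ℝ (Cn r s a d b) := by
  rintro x ⟨h1, h2, h3⟩ y ⟨k1, k2, k3⟩ u v u0 v0 e
  have f : ∀ p q p' q' : ℝ, p < q → p' < q' → u * p + v * p' < u * q + v * q' := fun p q p' q' h k => by
    rcases u0.eq_or_lt with h0 | h0
    · have : v = 1 := by linarith
      rw [← h0, this]; linarith
    · nlinarith [mul_le_mul_of_nonneg_left k.le v0, mul_lt_mul_of_pos_left h h0]
  have ei : (u • x + v • y).im = u * x.im + v * y.im := by simp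
  have er : (u • x + v • y).re = u * x.re + v * y.re := by simp
  have e1 : ∀ c : ℝ, c = u * c + v * c := fun c => by rw [← add_mul, e, one_mul]
  rw [abs_lt] at h3 k3
  refine ⟨?_, ?_, abs_lt.2 ⟨?_, ?_⟩⟩ <;> simp only [ei, er]
  · linarith [f _ _ _ _ h1 k1, e1 b]
  · linarith [f _ _ _ _ h2 k2, e1 d, e1 r]
  · nlinarith [f _ _ _ _ h3.1 k3.1, e1 s, e1 (a * r)]
  · nlinarith [f _ _ _ _ h3.2 k3.2, e1 s, e1 (a * r)]

theorem fc_cvx (r s : ℝ) (w : ℂ) {S : Set ℂ} (h : Convex ℝ S) : Convex ℝ {x | fc r s w x ∈ S} := by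
  intro x hx y hy u v u0 v0 e
  have : fc r s w (u • x + v • y) = u • fc r s w x + v • fc r s w y := by
    have e' : (u : ℂ) + v = 1 := by exact_mod_cast e
    simp only [fc, real_smul]
    linear_combination (-(s + r * I) / w) * e'
  show fc r s w _ ∈ S
  rw [this]
  exact h hx hy u0 v0 e

theorem Om_cvx (r κ s a : ℝ) (w : ℂ) (σ : ℝ) : Convex ℝ (Om r κ s a w σ) :=
  (Cn_cvx _ _ _ _ _).inter (fc_cvx r s w (convex_halfSpace_im_gt σ))

theorem fc_cont (r s : ℝ) (w : ℂ) : Continuous (fc r s w) := by unfold fc; fun_prop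

theorem Om_open (r κ s a : ℝ) (w : ℂ) (σ : ℝ) : IsOpen (Om r κ s a w σ) :=
  (Cn_open _ _ _ _ _).inter (isOpen_lt continuous_const (continuous_im.comp (fc_cont r s w)))

/-- the rectangle of chord coordinates -/
def Rc (t σ n : ℝ) : Set ℂ := {ξ | |ξ.re - t| < n ∧ σ - 1 < ξ.im ∧ ξ.im < σ + 1}

theorem Rc_open (t σ n : ℝ) : IsOpen (Rc t σ n) :=
  (isOpen_lt (f := fun ξ : ℂ => |ξ.re - t|) (by fun_prop) continuous_const).inter
    ((isOpen_lt continuous_const continuous_im).inter (isOpen_lt continuous_im continuous_const))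

theorem Rc_cvx (t σ n : ℝ) : Convex ℝ (Rc t σ n) := by
  have : Rc t σ n = ({ξ : ℂ | t - n < ξ.re} ∩ {ξ : ℂ | ξ.re < t + n}) ∩
      ({ξ : ℂ | σ - 1 < ξ.im} ∩ {ξ : ℂ | ξ.im < σ + 1}) := by
    ext ξ
    simp only [Rc, mem_setOf_eq, mem_inter_iff, abs_lt]
    constructor
    · rintro ⟨⟨h1, h2⟩, h3⟩; exact ⟨⟨by linarith, by linarith⟩, h3⟩
    · rintro ⟨⟨h1, h2⟩, h3⟩; exact ⟨⟨by linarith, by linarith⟩, h3⟩
  rw [this]
  exact ((convex_halfSpace_re_gt _).inter (convex_halfSpace_re_lt _)).inter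
    ((convex_halfSpace_im_gt _).inter (convex_halfSpace_im_lt _))

/-- moving down -/
theorem down (hw : w ≠ 0) (h0 : 0 ≤ w.re) (a0 : 0 ≤ a) (κ0 : 0 < κ) (hx : x ∈ Om r κ s a w σ) :
    ∃ x₀ ∈ Om r κ s a w σ, x₀.im < κ / 2 := by
  by_cases h : x.im < κ / 2
  · exact ⟨x, hx, h⟩
  obtain ⟨⟨h1, h2, h3⟩, h4⟩ := hx
  have n := pow_pos (norm_pos_iff.2 hw) 2
  refine ⟨x.re + (3 * κ / 8 : ℝ) * I, ⟨⟨by simp; linarith, by simp; linarith, ?_⟩, ?_⟩,
    by simp; linarith⟩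
  · simp only [add_re, ofReal_re, mul_re, I_re, mul_zero, ofReal_im, I_im, mul_one, sub_self,
      add_zero, add_im, mul_im, zero_add]
    nlinarith
  · refine h4.trans_le (le_of_mul_le_mul_right ?_ n)
    rw [fc_im r s hw, fc_im r s hw]
    simp only [add_re, ofReal_re, mul_re, I_re, mul_zero, ofReal_im, I_im, mul_one, sub_self,
      add_zero, add_im, mul_im, zero_add]
    nlinarith

/-! ### the barrier -/

def Hb (M₁ M₂ e q : ℝ) (l : ℂ) : ℂ := M₁ * exp (-l) + M₂ * exp l + e * exp (-(q * l))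

def ph (M₁ M₂ e q Γ : ℝ) (l : ℂ) : ℝ := (Hb M₁ M₂ e q l).re - Γ * l.im ^ 2

def pp (M₁ M₂ e q Γ δ : ℝ) (l u : ℂ) : ℂ := I * (Hb M₁ M₂ e q (l + δ * u) - Hb M₁ M₂ e q l +
  2 * I * Γ * l.im * δ * u + Γ * δ ^ 2 * u ^ 2 / 2)

variable {M₁ M₂ e q Γ δ : ℝ} {l u : ℂ}

theorem pp_im (M₁ M₂ e q Γ δ : ℝ) (l u : ℂ) : (pp M₁ M₂ e q Γ δ l u).im =
    ph M₁ M₂ e q Γ (l + δ * u) - ph M₁ M₂ e q Γ l + Γ * δ ^ 2 * ‖u‖ ^ 2 / 2 := by
  rw [← Complex.normSq_eq_norm_sq, normSq_apply]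
  simp only [pp, ph, mul_im, I_re, I_im, zero_mul, one_mul, zero_add, add_re, sub_re, add_im,
    ofReal_re, ofReal_im, mul_re, pow_two, div_ofNat_re, re_ofNat, im_ofNat]
  ring

theorem pp_zero (M₁ M₂ e q Γ δ : ℝ) (l : ℂ) : pp M₁ M₂ e q Γ δ l 0 = 0 := by simp [pp]

theorem Hb_re (M₁ M₂ e q : ℝ) (l : ℂ) : (Hb M₁ M₂ e q l).re =
    M₁ * (‖exp (-l)‖ * Real.cos l.im) + M₂ * (‖exp l‖ * Real.cos l.im) +
      e * (‖exp (-(q * l))‖ * Real.cos (q * l.im)) := by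
  simp only [Hb, add_re, re_ofReal_mul, exp_re, norm_exp, neg_im, Real.cos_neg, im_ofReal_mul]

theorem exp_step {z v : ℂ} (hv : ‖v‖ ≤ 1) : ‖exp (z + v) - exp z‖ ≤ 2 * ‖v‖ * ‖exp z‖ := by
  rw [exp_add, ← mul_sub_one, norm_mul, mul_comm]
  exact mul_le_mul_of_nonneg_right (norm_exp_sub_one_le hv) (norm_nonneg _)

theorem pp_le (M1 : 0 ≤ M₁) (M2 : 0 ≤ M₂) (e0 : 0 ≤ e) (q0 : 0 ≤ q) (q2 : q ≤ 2) (Γ0 : 0 ≤ Γ)
    (δ0 : 0 ≤ δ) (δ1 : δ ≤ 1 / 2) (β0 : 0 < β) (hu : ‖u‖ ≤ 1) (hl : |l.im| ≤ 2)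
    (c1 : β ≤ Real.cos l.im) (c2 : β ≤ Real.cos (q * l.im)) :
    β * ‖pp M₁ M₂ e q Γ δ l u‖ ≤ 4 * δ * (Hb M₁ M₂ e q l).re + β * (3 * Γ) := by
  have n1 : ‖(δ : ℂ) * u‖ ≤ δ := by
    rw [norm_mul, norm_real, Real.norm_of_nonneg δ0]; nlinarith
  have n2 : ‖-((q : ℂ) * (δ * u))‖ ≤ 2 * δ := by
    rw [norm_neg, norm_mul, norm_real, Real.norm_of_nonneg q0]
    nlinarith [norm_nonneg ((δ : ℂ) * u)]
  have a1 := exp_step (z := -l) (v := -(δ * u)) (by rw [norm_neg]; linarith)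
  have a2 := exp_step (z := l) (v := δ * u) (by linarith)
  have a3 := exp_step (z := -(q * l)) (v := -(q * (δ * u))) (by linarith)
  rw [norm_neg] at a1
  have p1 := norm_nonneg (exp (-l))
  have p2 := norm_nonneg (exp l)
  have p3 := norm_nonneg (exp (-(q * l)))
  have b0 : Hb M₁ M₂ e q (l + δ * u) - Hb M₁ M₂ e q l = M₁ * (exp (-l + -(δ * u)) - exp (-l)) +
      M₂ * (exp (l + δ * u) - exp l) + e * (exp (-(q * l) + -(q * (δ * u))) - exp (-(q * l))) := by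
    simp only [Hb]
    rw [show -(l + δ * u) = -l + -(δ * u) by ring,
      show -(q * (l + δ * u)) = -(q * l) + -(q * (δ * u)) by ring]
    ring
  have b1 : ‖Hb M₁ M₂ e q (l + δ * u) - Hb M₁ M₂ e q l‖ ≤
      4 * δ * (M₁ * ‖exp (-l)‖ + M₂ * ‖exp l‖ + e * ‖exp (-(q * l))‖) := by
    rw [b0]
    refine (norm_add₃_le).trans ?_
    simp only [norm_mul, norm_real, Real.norm_of_nonneg M1, Real.norm_of_nonneg M2,
      Real.norm_of_nonneg e0]
    have k1 : ‖exp (-l + -(δ * u)) - exp (-l)‖ ≤ 4 * δ * ‖exp (-l)‖ := a1.trans (by gcongr; linarith)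
    have k2 : ‖exp (l + δ * u) - exp l‖ ≤ 4 * δ * ‖exp l‖ := a2.trans (by gcongr; linarith)
    have k3 : ‖exp (-(q * l) + -(q * (δ * u))) - exp (-(q * l))‖ ≤ 4 * δ * ‖exp (-(q * l))‖ :=
      a3.trans (mul_le_mul_of_nonneg_right (by linarith) p3)
    nlinarith [mul_le_mul_of_nonneg_left k1 M1, mul_le_mul_of_nonneg_left k2 M2,
      mul_le_mul_of_nonneg_left k3 e0]
  have b2 : β * (M₁ * ‖exp (-l)‖ + M₂ * ‖exp l‖ + e * ‖exp (-(q * l))‖) ≤ (Hb M₁ M₂ e q l).re := by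
    rw [Hb_re]
    nlinarith [mul_le_mul_of_nonneg_left c1 (mul_nonneg M1 p1),
      mul_le_mul_of_nonneg_left c1 (mul_nonneg M2 p2), mul_le_mul_of_nonneg_left c2 (mul_nonneg e0 p3)]
  have b3 : ‖(2 * I * Γ * l.im * δ * u : ℂ)‖ ≤ 2 * Γ := by
    rw [mul_assoc _ (δ : ℂ), norm_mul]
    simp only [norm_mul, norm_real, norm_I, Real.norm_of_nonneg Γ0, Real.norm_eq_abs l.im,
      Complex.norm_ofNat] at n1 ⊢
    have : |l.im| * (‖δ‖ * ‖u‖) ≤ 1 := by nlinarith [abs_nonneg l.im, mul_nonneg (norm_nonneg δ) (norm_nonneg u)]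
    nlinarith
  have b4 : ‖(Γ * δ ^ 2 * u ^ 2 / 2 : ℂ)‖ ≤ Γ := by
    rw [mul_assoc, ← mul_pow, norm_div, norm_mul, norm_pow, norm_real, Real.norm_of_nonneg Γ0,
      Complex.norm_ofNat]
    have : ‖(δ : ℂ) * u‖ ^ 2 ≤ 1 := by nlinarith [norm_nonneg ((δ : ℂ) * u)]
    nlinarith
  have b5 : ‖pp M₁ M₂ e q Γ δ l u‖ ≤ ‖Hb M₁ M₂ e q (l + δ * u) - Hb M₁ M₂ e q l‖ + 2 * Γ + Γ := by
    rw [pp, norm_mul, norm_I, one_mul]
    exact norm_add₃_le.trans (by linarith)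
  nlinarith [mul_le_mul_of_nonneg_left b5 β0.le, mul_le_mul_of_nonneg_left b1 β0.le,
    mul_le_mul_of_nonneg_left b2 (by positivity : 0 ≤ 4 * δ)]

end Vale.Agent.P097S.Cba
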