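import Vale.Agent.P097S.CbaA
import Vale.Agent.P097E.Hart

/-!
# P097S: the Levi step
-/

set_option linter.all false

noncomputable section

namespace Vale.Agent.P097S.Cba

open Filter Topology Set Metric Complex Vale.Agent.P097N Vale.Agent.P097E.Hart

/-- the discs -/
def XX (r s δ : ℝ) (l : ℂ) (p : ℂ → ℂ) (ξ u : ℂ) : ℂ := s + r * I - exp (l + δ * u) * (ξ + p u)

theorem XX_sub (r s δ : ℝ) (l : ℂ) (p : ℂ → ℂ) (ξ u : ℂ) :
    XX r s δ l p (ξ - 1) u = XX r s δ l p ξ u + exp (l + δ * u) := by unfold XX; ring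

theorem lev0 {t σ B B' : ℝ} {G : ℂ × ℂ → ℂ}
    (h1 : ∀ ξ ∈ Rc t σ 4, ∀ u ∈ sphere (0 : ℂ) 1, AnalyticAt ℂ G (ξ, u) ∧ ‖G (ξ, u)‖ ≤ B ∧
      ‖G (ξ - 1, u) - G (ξ, u)‖ ≤ B')
    (h2 : ∀ ξ ∈ Rc t σ 4, σ < ξ.im → ∀ u ∈ closedBall (0 : ℂ) 1, AnalyticAt ℂ G (ξ, u)) :
    ∃ g : ℂ → ℂ, ∀ ξ ∈ Rc t σ 4, AnalyticAt ℂ g ξ ∧ ‖g ξ‖ ≤ B ∧ (σ < ξ.im → g ξ = G (ξ, 0)) ∧
      (ξ - 1 ∈ Rc t σ 4 → ‖g (ξ - 1) - g ξ‖ ≤ B') := by
  have e : ∀ ξ ∈ Rc t σ 4, σ < ξ.im → av G ξ = G (ξ, 0) := fun ξ hξ k => av_eq (h2 ξ hξ k)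
  have an : ∀ ξ ∈ Rc t σ 4, AnalyticAt ℂ (av G) ξ := fun ξ hξ =>
    av_diff fun u hu => (h1 ξ hξ u hu).1
  refine ⟨av G, fun ξ hξ => ⟨an ξ hξ, av_le fun u hu => (h1 ξ hξ u hu).2.1, e ξ hξ, fun k => ?_⟩⟩
  have sh : ∀ ζ u : ℂ, AnalyticAt ℂ G (ζ - 1, u) → AnalyticAt ℂ G (ζ, u) →
      AnalyticAt ℂ (fun q : ℂ × ℂ => G (q.1 - 1, q.2) - G q) (ζ, u) := fun ζ u a b => by
    have k : AnalyticAt ℂ (fun q : ℂ × ℂ => (q.1 - 1, q.2)) (ζ, u) :=
      (analyticAt_fst.sub analyticAt_const).prod analyticAt_snd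
    exact (AnalyticAt.comp (g := G) (x := (ζ, u)) a k).sub b
  have oU : IsOpen (Rc t σ 4 ∩ (fun ξ => ξ - 1) ⁻¹' Rc t σ 4) :=
    (Rc_open _ _ _).inter ((Rc_open _ _ _).preimage (by fun_prop))
  have cU : Convex ℝ (Rc t σ 4 ∩ (fun ξ => ξ - 1) ⁻¹' Rc t σ 4) := by
    refine (Rc_cvx _ _ _).inter ?_
    simpa only [sub_eq_add_neg] using (Rc_cvx t σ 4).translate_preimage_left (-1)
  have m0 : ((t + 1 / 2 : ℝ) + (σ + 1 / 2 : ℝ) * I : ℂ) ∈
      Rc t σ 4 ∩ (fun ξ => ξ - 1) ⁻¹' Rc t σ 4 := by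
    have a1 : ((t + 1 / 2 : ℝ) + (σ + 1 / 2 : ℝ) * I : ℂ).re = t + 1 / 2 := by simp
    have a2 : ((t + 1 / 2 : ℝ) + (σ + 1 / 2 : ℝ) * I : ℂ).im = σ + 1 / 2 := by simp
    simp only [Rc, mem_inter_iff, mem_preimage, mem_setOf_eq, sub_re, sub_im, a1, a2, one_re,
      one_im, abs_lt]
    refine ⟨⟨⟨?_, ?_⟩, ?_, ?_⟩, ⟨?_, ?_⟩, ?_, ?_⟩ <;> linarith
  have dg : DifferentiableOn ℂ (fun ξ => av G (ξ - 1) - av G ξ)
      (Rc t σ 4 ∩ (fun ξ => ξ - 1) ⁻¹' Rc t σ 4) := fun ζ hζ => by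
    have k : DifferentiableAt ℂ (fun ξ : ℂ => ξ - 1) ζ := by fun_prop
    exact ((DifferentiableAt.comp (g := av G) ζ (an _ hζ.2).differentiableAt k).sub
      (an _ hζ.1).differentiableAt).differentiableWithinAt
  refine tr (G := fun q : ℂ × ℂ => G (q.1 - 1, q.2) - G q) oU cU.isPreconnected m0 dg
    (fun ζ hζ u hu => sh ζ u (h1 _ hζ.2 u hu).1 (h1 _ hζ.1 u hu).1) ?_ ⟨hξ, k⟩
    fun u hu => (h1 ξ hξ u hu).2.2
  filter_upwards [oU.mem_nhds m0, (isOpen_lt continuous_const continuous_im).mem_nhds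
    (show σ < ((t + 1 / 2 : ℝ) + (σ + 1 / 2 : ℝ) * I : ℂ).im by simp)] with ζ a b
  have b' : σ < (ζ - 1).im := by simpa using b
  exact ⟨fun u hu => sh ζ u (h2 _ a.2 b' u hu) (h2 _ a.1 b u hu), by rw [e _ a.2 b', e _ a.1 b]⟩

theorem levi {r s δ t σ B B' : ℝ} {l : ℂ} {p : ℂ → ℂ} {Z : ℂ × ℂ → ℂ} (hp : Differentiable ℂ p)
    (p0 : p 0 = 0)
    (h1 : ∀ ξ ∈ Rc t σ 4, ∀ u ∈ sphere (0 : ℂ) 1, AnalyticAt ℂ Z (XX r s δ l p ξ u, l + δ * u) ∧
      ‖Z (XX r s δ l p ξ u, l + δ * u) - XX r s δ l p ξ u‖ ≤ B ∧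
      ‖Z (XX r s δ l p ξ u + exp (l + δ * u), l + δ * u) - Z (XX r s δ l p ξ u, l + δ * u) -
        exp (l + δ * u)‖ ≤ B')
    (h2 : ∀ ξ ∈ Rc t σ 4, σ < ξ.im → ∀ u ∈ closedBall (0 : ℂ) 1,
      AnalyticAt ℂ Z (XX r s δ l p ξ u, l + δ * u)) :
    ∃ g : ℂ → ℂ, ∀ ξ ∈ Rc t σ 4, AnalyticAt ℂ g ξ ∧ ‖g ξ‖ ≤ B ∧
      (σ < ξ.im → g ξ = Z (s + r * I - exp l * ξ, l) - (s + r * I - exp l * ξ)) ∧
      (ξ - 1 ∈ Rc t σ 4 → ‖g (ξ - 1) - g ξ‖ ≤ B') := by
  have aG : ∀ ξ u, AnalyticAt ℂ Z (XX r s δ l p ξ u, l + δ * u) → AnalyticAt ℂ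
      (fun q : ℂ × ℂ => Z (XX r s δ l p q.1 q.2, l + δ * q.2) - XX r s δ l p q.1 q.2) (ξ, u) :=
    fun ξ u h => by
      have a1 : AnalyticAt ℂ (fun q : ℂ × ℂ => l + δ * q.2) (ξ, u) :=
        analyticAt_const.add (analyticAt_const.mul analyticAt_snd)
      have a2 : AnalyticAt ℂ (fun q : ℂ × ℂ => p q.2) (ξ, u) :=
        AnalyticAt.comp (g := p) (x := (ξ, u)) (hp.analyticAt u) analyticAt_snd
      have a3 : AnalyticAt ℂ (fun q : ℂ × ℂ => XX r s δ l p q.1 q.2) (ξ, u) :=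
        analyticAt_const.sub (a1.cexp.mul (analyticAt_fst.add a2))
      exact (AnalyticAt.comp (g := Z) (x := (ξ, u)) h (a3.prod a1)).sub a3
  obtain ⟨g, hg⟩ := lev0 (t := t) (σ := σ) (B := B) (B' := B')
    (G := fun q => Z (XX r s δ l p q.1 q.2, l + δ * q.2) - XX r s δ l p q.1 q.2)
    (fun ξ hξ u hu => ⟨aG _ _ (h1 ξ hξ u hu).1, (h1 ξ hξ u hu).2.1, by
      convert (h1 ξ hξ u hu).2.2 using 2
      simp only [XX_sub]
      ring⟩) fun ξ hξ k u hu => aG _ _ (h2 ξ hξ k u hu)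
  refine ⟨g, fun ξ hξ => ⟨(hg ξ hξ).1, (hg ξ hξ).2.1, fun k => ?_, (hg ξ hξ).2.2.2⟩⟩
  rw [(hg ξ hξ).2.2.1 k]
  simp [XX, p0]

theorem ident {f : ℂ → ℂ} {U V : Set ℂ} (oU : IsOpen U) (cU : Convex ℝ U)
    (d : DifferentiableOn ℂ f U) (oV : IsOpen V) {x₀ : ℂ} (h0 : x₀ ∈ U) (h1 : x₀ ∈ V)
    (z : ∀ x ∈ U, x ∈ V → f x = 0) : ∀ x ∈ U, f x = 0 := fun x hx =>
  (d.analyticOnNhd oU).eqOn_zero_of_preconnected_of_eventuallyEq_zero cU.isPreconnected h0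
    (by filter_upwards [oU.mem_nhds h0, oV.mem_nhds h1] with y a b using z y a b) hx

theorem mid {Φ : ℂ × ℂ → ℂ} {y₀ y g : ℂ → ℂ} {w : ℂ} {r κ s a a₁ T ε E C₀ σ t η B : ℝ}
    {ω : ℝ → ℝ} (F : Fw Φ y₀ w r κ s a T ε E C₀ ω) (hw : w ≠ 0) (h0 : 0 ≤ w.re) (κ0 : 0 < κ)
    (sub : Om r κ s a₁ w (σ - 1) ⊆ Cn r s a T (κ / 4))
    (hM : Mid r s w t σ ⊆ Cn r s a₁ 0 (κ / 4)) (X : Ex Φ y₀ w r κ ε (Om r κ s a₁ w σ) y)
    (hg : ∀ ξ ∈ Rc t σ 4, AnalyticAt ℂ g ξ ∧ ‖g ξ‖ ≤ B ∧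
      (σ < ξ.im → g ξ = y (s + r * I - w * ξ) - (s + r * I - w * ξ)) ∧
      (ξ - 1 ∈ Rc t σ 4 → ‖g (ξ - 1) - g ξ‖ ≤ η * ‖w‖))
    (hB : ∀ x ∈ Mid r s w t σ, B ≤ η * (r - x.im)) (η1 : η ≤ ε) (η2 : η ≤ 1 / 16) :
    ∃ y', Ex Φ y₀ w r κ ε (Om r κ s a₁ w σ ∪ Mid r s w t σ) y' ∧
      ∀ x ∈ Mid r s w t σ, ‖y' x - x‖ ≤ η * (r - x.im) ∧
        (x + w ∈ Mid r s w t σ → ‖y' (x + w) - y' x - w‖ ≤ η * ‖w‖) := by
  classical
  let f := fc r s w
  let z : ℂ → ℂ := fun x => x + g (f x)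
  let y' : ℂ → ℂ := fun x => if σ < (f x).im then y x else z x
  have n0 := norm_pos_iff.2 hw
  have mR : ∀ x ∈ Mid r s w t σ, f x ∈ Rc t σ 4 := fun x hx => ⟨hx.1.trans (by norm_num), hx.2⟩
  have oM : IsOpen (Mid r s w t σ) := (Rc_open t σ 3).preimage (fc_cont r s w)
  have cM : Convex ℝ (Mid r s w t σ) := fc_cvx r s w (Rc_cvx t σ 3)
  have oH : IsOpen {x | σ < (f x).im} :=
    isOpen_lt continuous_const (continuous_im.comp (fc_cont r s w))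
  have e1 : ∀ x, σ < (f x).im → y' x = y x := fun x hx => if_pos hx
  have e2 : ∀ x ∈ Mid r s w t σ, y' x = z x := fun x hx => by
    by_cases h : σ < (f x).im
    · rw [e1 x h]
      simp only [z, (hg _ (mR x hx)).2.2.1 h, f, inv_fc r s hw]
      ring
    · exact if_neg h
  have dz : ∀ x ∈ Mid r s w t σ, DifferentiableAt ℂ y' x := fun x hx => by
    have : DifferentiableAt ℂ z x := differentiableAt_id.add
      ((hg _ (mR x hx)).1.differentiableAt.comp x (by unfold f fc; fun_prop))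
    exact this.congr_of_eventuallyEq (by filter_upwards [oM.mem_nhds hx] with x' h using e2 x' h)
  have up : ∀ x ∈ Om r κ s a₁ w σ ∪ Mid r s w t σ, σ < (f x).im → x ∈ Om r κ s a₁ w σ :=
    fun x hx h => hx.elim id fun k => ⟨hM k, h⟩
  have dn : ∀ x ∈ Om r κ s a₁ w σ ∪ Mid r s w t σ, ¬ σ < (f x).im → x ∈ Mid r s w t σ :=
    fun x hx h => hx.elim (fun k => (h k.2).elim) id
  have fa : ∀ x, (f (x + w)).im = (f x).im := fun x => by simp [f, fc_add r s hw]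
  have fs : ∀ x, (f (x - w)).im = (f x).im := fun x => by simp [f, fc_sub r s hw]
  have bp : ∀ x ∈ Mid r s w t σ, ‖y' x - x‖ ≤ η * (r - x.im) := fun x hx => by
    rw [e2 x hx]
    simpa [z] using (hg _ (mR x hx)).2.1.trans (hB x hx)
  have bv : ∀ x ∈ Mid r s w t σ, x + w ∈ Mid r s w t σ → ‖y' (x + w) - y' x - w‖ ≤ η * ‖w‖ :=
    fun x hx k => by
      have k1 := mR _ k
      simp only [f, fc_add r s hw] at k1
      rw [e2 x hx, e2 _ k]
      convert (hg _ (mR x hx)).2.2.2 k1 using 2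
      simp only [z, f, fc_add r s hw]
      ring
  have mC : ∀ x ∈ Mid r s w t σ, x ∈ Cn r s a T (κ / 4) := fun x hx => sub ⟨hM hx, hx.2.1⟩
  have bp' : ∀ x ∈ Mid r s w t σ, ‖y' x - x‖ ≤ ε * (r - x.im) := fun x hx =>
    (bp x hx).trans (mul_le_mul_of_nonneg_right η1 (hM hx).2.1.le)
  have bv' : ∀ x ∈ Mid r s w t σ, x + w ∈ Mid r s w t σ → ‖y' (x + w) - y' x - w‖ ≤ ‖w‖ / 16 :=
    fun x hx k => (bv x hx k).trans (by nlinarith)
  -- lifting a point of the window above the chord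
  have lift : ∀ x : ℂ, ∃ x' : ℂ, (f x').re = (f x).re ∧ x'.im ≤ x.im ∧
      (f x').im = max (f x).im (σ + 1 / 2) := fun x => by
    refine ⟨x - (max (f x).im (σ + 1 / 2) - (f x).im : ℝ) * I * w, ?_, ?_, ?_⟩
    · have : f (x - (max (f x).im (σ + 1 / 2) - (f x).im : ℝ) * I * w) =
          f x + (max (f x).im (σ + 1 / 2) - (f x).im : ℝ) * I := by
        simp only [f, fc]; field_simp; ring
      rw [this]; simp
    · have := mul_nonneg (sub_nonneg.2 (le_max_left (f x).im (σ + 1 / 2))) h0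
      simp only [sub_im, mul_im, mul_re, ofReal_re, ofReal_im, I_re, I_im]
      linarith
    · have : f (x - (max (f x).im (σ + 1 / 2) - (f x).im : ℝ) * I * w) =
          f x + (max (f x).im (σ + 1 / 2) - (f x).im : ℝ) * I := by
        simp only [f, fc]; field_simp; ring
      rw [this]; simp
  refine ⟨y', ⟨fun x hx => DifferentiableAt.differentiableWithinAt ?_, fun x hx k => ?_,
    fun x hx => ?_, fun x hx k => ?_, fun x hx k1 k2 => ?_⟩, fun x hx => ⟨bp x hx, bv x hx⟩⟩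
  · rcases hx with hx | hx
    · exact (X.d.differentiableAt ((Om_open r κ s a₁ w σ).mem_nhds hx)).congr_of_eventuallyEq
        (by filter_upwards [oH.mem_nhds hx.2] with x' h using e1 x' h)
    · exact dz x hx
  · by_cases h : σ < (f x).im
    · rw [e1 x h, X.eq x (up x hx h) k]
    have hx' := dn x hx h
    obtain ⟨x', a1, a2, a3⟩ := lift x
    have st : ∀ x ∈ Mid r s w t σ ∩ {x | x.im < κ / 2}, x ∈ St κ := fun x hx => by
      have b1 := (hM hx.1).1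
      have b2 : x.im < κ / 2 := hx.2
      show |x.im| < κ
      rw [abs_lt]
      constructor <;> linarith
    have oS : IsOpen (St κ) := isOpen_lt (continuous_abs.comp continuous_im) continuous_const
    refine sub_eq_zero.1 (ident (f := fun x => y' x - y₀ x)
      (oM.inter (isOpen_lt continuous_im continuous_const)) (cM.inter (convex_halfSpace_im_lt _))
      (fun v hv => ((dz v hv.1).sub
        (F.d0.differentiableAt (oS.mem_nhds (st v hv)))).differentiableWithinAt) oH (x₀ := x')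
      ⟨⟨by rw [show (fc r s w x').re = _ from a1]; exact hx'.1, ?_, ?_⟩, a2.trans_lt k⟩ ?_
      (fun v hv h => ?_) x ⟨hx', k⟩)
    · rw [show (fc r s w x').im = _ from a3]; exact lt_max_of_lt_right (by linarith)
    · rw [show (fc r s w x').im = _ from a3]; exact max_lt hx'.2.2 (by linarith)
    · show σ < (f x').im
      rw [a3]; exact lt_max_of_lt_right (by linarith)
    · rw [e1 v h, X.eq v ⟨hM hv.1, h⟩ hv.2, sub_self]
  · by_cases h : σ < (f x).im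
    · rw [e1 x h]; exact X.p x (up x hx h)
    · exact bp' x (dn x hx h)
  · by_cases h : σ < (f x).im
    · have h' : σ < (f (x + w)).im := by rwa [fa]
      rw [e1 x h, e1 _ h']; exact X.v x (up x hx h) (up _ k h')
    · exact bv' x (dn x hx h) (dn _ k (by rwa [fa]))
  · by_cases h : σ < (f x).im
    · have h1 : σ < (f (x + w)).im := by rwa [fa]
      have h2 : σ < (f (x - w)).im := by rwa [fs]
      rw [e1 x h, e1 _ h1, e1 _ h2]; exact X.law x (up x hx h) (up _ k1 h2) (up _ k2 h1)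
    have m0 := dn x hx h
    have m1 := dn _ k1 (by rwa [fs])
    have m2 := dn _ k2 (by rwa [fa])
    obtain ⟨x', a1, -, a3⟩ := lift x
    have mm : ∀ v v' : ℂ, (f v').re = (f v).re → (f v').im = max (f x).im (σ + 1 / 2) →
        v ∈ Mid r s w t σ → v' ∈ Mid r s w t σ := fun v v' b1 b2 hv =>
      ⟨by rw [show (fc r s w v').re = _ from b1]; exact hv.1,
        by rw [show (fc r s w v').im = _ from b2]; exact lt_max_of_lt_right (by linarith),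
        by rw [show (fc r s w v').im = _ from b2]; exact max_lt m0.2.2 (by linarith)⟩
    have aΦ : ∀ v ∈ Mid r s w t σ, ∀ c w' : ℂ, ‖w'‖ = ‖w‖ → ‖c - y' v - w'‖ ≤ ‖w‖ / 16 →
        AnalyticAt ℂ Φ (y' v, c) := fun v hv c w' e k => by
      have t1 := norm_sub_norm_le (c - y' v) w'
      refine (F.calm v (mC v hv) _ (bp' v hv)).1.1 c (fun k0 => ?_) (by linarith)
      rw [k0, sub_self, zero_sub, norm_neg] at k
      linarith
    refine ident (f := fun x => Φ (y' x, y' (x + w)) + Φ (y' x, y' (x - w)))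
      (U := Mid r s w t σ ∩ ((fun x => x + w) ⁻¹' Mid r s w t σ ∩ (fun x => x + -w) ⁻¹' Mid r s w t σ))
      (oM.inter ((oM.preimage (by fun_prop)).inter (oM.preimage (by fun_prop))))
      (cM.inter ((cM.translate_preimage_left w).inter (cM.translate_preimage_left (-w))))
      (fun v hv => DifferentiableAt.differentiableWithinAt ?_) oH (x₀ := x')
      ⟨mm x x' a1 a3 m0, mm (x + w) _ ?_ (by rw [fa, a3]) m2,
        mm (x - w) (x' + -w) ?_ (by rw [← sub_eq_add_neg, fs, a3]) m1⟩ ?_ (fun v hv h => ?_) x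
      ⟨m0, m2, by simpa only [mem_preimage, ← sub_eq_add_neg] using m1⟩
    · obtain ⟨v0, v1, v2⟩ := hv
      simp only [mem_preimage, ← sub_eq_add_neg] at v1 v2
      have b2 := bv' _ v2 (by rwa [sub_add_cancel])
      rw [sub_add_cancel, ← norm_neg, show -(y' v - y' (v - w) - w) = y' (v - w) - y' v - -w by ring]
        at b2
      have d1 : DifferentiableAt ℂ (fun x => y' (x + w)) v :=
        DifferentiableAt.comp (g := y') v (dz _ v1) (f := fun x => x + w) (by fun_prop)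
      have d2 : DifferentiableAt ℂ (fun x => y' (x - w)) v :=
        DifferentiableAt.comp (g := y') v (dz _ v2) (f := fun x => x - w) (by fun_prop)
      exact (DifferentiableAt.comp (g := Φ) v (aΦ v v0 _ w rfl (bv' v v0 v1)).differentiableAt
        ((dz v v0).prodMk d1)).add (DifferentiableAt.comp (g := Φ) v
          (aΦ v v0 _ (-w) (norm_neg w) b2).differentiableAt ((dz v v0).prodMk d2))
    · simp only [f, fc_add r s hw, sub_re] at a1 ⊢; rw [a1]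
    · simp only [f, ← sub_eq_add_neg, fc_sub r s hw, add_re] at a1 ⊢; rw [a1]
    · show σ < (f x').im
      rw [a3]; exact lt_max_of_lt_right (by linarith)
    · obtain ⟨v0, v1, v2⟩ := hv
      simp only [mem_preimage, ← sub_eq_add_neg] at v1 v2
      have h1 : σ < (f (v + w)).im := by rwa [fa]
      have h2 : σ < (f (v - w)).im := by rwa [fs]
      simp only [e1 v h, e1 _ h1, e1 _ h2]
      exact X.law v ⟨hM v0, h⟩ ⟨hM v2, h2⟩ ⟨hM v1, h1⟩

end Vale.Agent.P097S.Cba
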