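import Vale.Agent.P097S.CbaB

/-!
# P097S: one step of the induction
-/

set_option linter.all false

noncomputable section

namespace Vale.Agent.P097S.Cba

open Filter Topology Set Metric Complex Vale.Agent.P097N

theorem exMono {Φ : ℂ × ℂ → ℂ} {y₀ y : ℂ → ℂ} {w : ℂ} {r κ ε : ℝ} {U V : Set ℂ}
    (X : Ex Φ y₀ w r κ ε U y) (h : V ⊆ U) : Ex Φ y₀ w r κ ε V y :=
  ⟨X.d.mono h, fun x hx => X.eq x (h hx), fun x hx => X.p x (h hx),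
    fun x hx k => X.v x (h hx) (h k), fun x hx k k' => X.law x (h hx) (h k) (h k')⟩

theorem exLow {Φ : ℂ × ℂ → ℂ} {y₀ : ℂ → ℂ} {w : ℂ} {r κ s a T ε E C₀ m : ℝ} {ω : ℝ → ℝ}
    {U : Set ℂ} (F : Fw Φ y₀ w r κ s a T ε E C₀ ω) (S : Sm m w r κ T E C₀ ω) (m0 : 0 < m)
    (m1 : m ≤ ε) (m2 : m ≤ 1 / 16) (h : U ⊆ Cn r s a T (κ / 4)) (h' : ∀ x ∈ U, x.im < κ / 2) :
    Ex Φ y₀ w r κ ε U y₀ := by
  have κ0 := S.κ0
  have n0 := norm_pos_iff.2 S.w0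
  have st : ∀ x ∈ U, x ∈ St (κ / 2) ∧ x ∈ St κ := fun x hx => by
    have b1 := (h hx).1
    have b2 := h' x hx
    constructor
    · show |x.im| < κ / 2
      rw [abs_lt]; constructor <;> linarith
    · show |x.im| < κ
      rw [abs_lt]; constructor <;> linarith
  refine ⟨F.d0.mono fun x hx => (st x hx).2, fun _ _ _ => rfl, fun x hx => ?_, fun x hx k => ?_,
    fun x hx k k' => F.law x (h hx) (st _ k).1 (st _ hx).1 (st _ k').1⟩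
  · have T0 : 0 < T := pos_of_mul_pos_left' (n0.trans_le S.t) m0
    have a1 := F.bp x (st x hx).2
    have a2 := S.ct
    have a3 := (h hx).2.1
    have a4 : 0 ≤ C₀ * ‖w‖ ^ 2 * r := mul_nonneg (mul_nonneg S.C0 (sq_nonneg _)) (by linarith [S.kr])
    nlinarith
  · have a1 := F.bv x (st x hx).1 (st _ k).1
    nlinarith [S.c]
where pos_of_mul_pos_left' {a b : ℝ} (h : 0 < a * b) (ha : 0 < a) : 0 < b := by
        by_contra k; nlinarith [not_lt.1 k]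

theorem geo {a₁ β δ N Γ σ t τ : ℝ} {l u p ξ : ℂ} (β0 : 0 < β) (β1 : β ≤ 1) (a0 : 0 < a₁)
    (δ0 : 0 ≤ δ) (δ1 : δ ≤ 1 / 2) (Γ0 : 0 ≤ Γ) (hu : ‖u‖ ≤ 1) (e : exp l * (t + σ * I) = τ * I)
    (τ0 : 0 ≤ τ) (h1 : σ * ‖exp l‖ ≤ τ) (h2 : N * ‖exp l‖ ≤ τ)
    (hp : β * ‖p‖ ≤ 4 * δ * σ + β * (3 * Γ)) (hξ : ξ ∈ Rc t σ 5) (k1 : 224 * δ ≤ a₁ * β)
    (k2 : 48 * (6 + 3 * Γ) ≤ a₁ * N) :
    ‖exp (l + δ * u) * (ξ + p) - τ * I‖ ≤ a₁ * τ / 8 ∧ ‖exp (l + δ * u)‖ ≤ 2 * ‖exp l‖ := by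
  have n1 : ‖(δ : ℂ) * u‖ ≤ δ := by
    rw [norm_mul, norm_real, Real.norm_of_nonneg δ0]; nlinarith
  have n0 := norm_nonneg (exp l)
  have a1 : ‖exp (l + δ * u) - exp l‖ ≤ 2 * δ * ‖exp l‖ :=
    (exp_step (by linarith)).trans (by gcongr)
  have a2 : ‖exp (l + δ * u)‖ ≤ 2 * ‖exp l‖ := by
    nlinarith [norm_sub_norm_le (exp (l + δ * u)) (exp l)]
  have a3 : ‖ξ - (t + σ * I)‖ ≤ 6 := by
    refine (norm_le_abs_re_add_abs_im _).trans ?_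
    have b1 : |ξ.im - σ| < 1 := abs_lt.2 ⟨by linarith [hξ.2.1], by linarith [hξ.2.2]⟩
    simp only [sub_re, add_re, ofReal_re, mul_re, I_re, mul_zero, ofReal_im, I_im, mul_one,
      sub_self, add_zero, sub_im, add_im, mul_im, zero_add]
    linarith [hξ.1]
  have a4 : ‖exp l‖ * ‖(t + σ * I : ℂ)‖ = τ := by
    rw [← norm_mul, e, norm_mul, norm_I, mul_one, norm_real, Real.norm_of_nonneg τ0]
  refine ⟨?_, a2⟩
  rw [← e, show exp (l + δ * u) * (ξ + p) - exp l * (t + σ * I) = (exp (l + δ * u) - exp l) *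
    (t + σ * I) + exp (l + δ * u) * (ξ - (t + σ * I) + p) by ring]
  refine (norm_add_le _ _).trans ?_
  rw [norm_mul, norm_mul]
  have b1 : ‖exp (l + δ * u) - exp l‖ * ‖(t + σ * I : ℂ)‖ ≤ 2 * δ * τ := by
    rw [← a4, ← mul_assoc]; gcongr
  have b2 : ‖exp (l + δ * u)‖ * ‖ξ - (t + σ * I) + p‖ ≤ 2 * ‖exp l‖ * (6 + ‖p‖) :=
    mul_le_mul a2 ((norm_add_le _ _).trans (by linarith)) (norm_nonneg _) (by positivity)
  have b3 : β * (‖exp l‖ * ‖p‖) ≤ 4 * δ * τ + β * (3 * Γ * ‖exp l‖) := by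
    nlinarith [mul_le_mul_of_nonneg_left hp n0, mul_le_mul_of_nonneg_left h1 δ0]
  have b4 : 48 * ((6 + 3 * Γ) * ‖exp l‖) ≤ a₁ * τ := by
    nlinarith [mul_le_mul_of_nonneg_right k2 n0, mul_le_mul_of_nonneg_left h2 a0.le]
  have b5 : 224 * (δ * τ) ≤ β * (a₁ * τ) := by nlinarith [mul_le_mul_of_nonneg_right k1 τ0]
  have b6 : ‖exp l‖ * ‖p‖ ≤ a₁ * τ / 56 + 3 * Γ * ‖exp l‖ :=
    le_of_mul_le_mul_left (by nlinarith) β0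
  have b7 : 224 * (δ * τ) ≤ a₁ * τ := by nlinarith [mul_nonneg a0.le τ0]
  nlinarith

theorem inC {r κ s a₁ τ : ℝ} {z : ℂ} (a0 : 0 < a₁) (a1 : a₁ ≤ 1) (τ0 : 0 < τ) (κ0 : 0 < κ)
    (h : ‖z - τ * I‖ ≤ a₁ * τ / 8) (k1 : τ ≤ r - 3 * κ / 8) (k2 : 8 * a₁ * r ≤ κ) :
    s + r * I - z ∈ Cn r s a₁ 0 (κ / 4) ∧ 7 * τ / 8 ≤ r - (s + r * I - z).im ∧
      r - (s + r * I - z).im ≤ 9 * τ / 8 ∧
      3 * (a₁ * τ) / 4 ≤ a₁ * (r - (s + r * I - z).im) - |(s + r * I - z).re - s| := by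
  have e1 : (s + r * I - z).im = r - z.im := by simp
  have e2 : |(s + r * I - z).re - s| = |z.re| := by simp
  have b1 := abs_le.1 ((abs_im_le_norm _).trans h)
  have b2 := (abs_re_le_norm _).trans h
  simp only [sub_im, mul_im, ofReal_re, I_im, mul_one, ofReal_im, I_re, mul_zero, add_zero,
    sub_re, mul_re, sub_zero, sub_self] at b1 b2
  have p1 := mul_pos a0 τ0
  have p2 : a₁ * τ ≤ τ := by nlinarith
  have p3 : 8 * (a₁ * τ) ≤ κ := by nlinarith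
  have p4 : 7 * (a₁ * τ) / 8 ≤ a₁ * z.im := by nlinarith
  simp only [Cn, mem_setOf_eq, e1, e2, sub_sub_cancel]
  refine ⟨⟨?_, ?_, ?_⟩, ?_, ?_, ?_⟩ <;> linarith [b1.1, b1.2]

def Rt (μ α : ℝ) : Set ℂ := {l | ‖exp l‖ < μ ∧ |l.im| < α}

theorem Rt_open (μ α : ℝ) : IsOpen (Rt μ α) :=
  (isOpen_lt (f := fun l : ℂ => ‖exp l‖) (by fun_prop) continuous_const).inter
    (isOpen_lt (f := fun l : ℂ => |l.im|) (by fun_prop) continuous_const)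

theorem joint' (J : JOINT) {Φ Y : ℂ × ℂ → ℂ} {r κ s a₁ ε μ α : ℝ} {σ : ℂ → ℝ} {y : ℂ → ℂ → ℂ}
    (κ0 : 0 < κ) (a0 : 0 ≤ a₁) (ε0 : 0 ≤ ε) (μκ : μ ≤ κ) (cσ : Continuous σ)
    (dY : DifferentiableOn ℂ Y (St κ ×ˢ ball 0 κ)) (re0 : ∀ l ∈ Rt μ α, 0 ≤ (exp l).re)
    (X : ∀ l ∈ Rt μ α, Ex Φ (fun x => Y (x, exp l)) (exp l) r κ ε
      (Om r κ s a₁ (exp l) (σ l)) (y l)) {l x : ℂ} (hl : l ∈ Rt μ α)
    (hx : x ∈ Om r κ s a₁ (exp l) (σ l)) : AnalyticAt ℂ (fun q : ℂ × ℂ => y q.2 q.1) (x, l) := by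
  let Ω : Set (ℂ × ℂ) := {q | q.2 ∈ Rt μ α ∧ q.1 ∈ Om r κ s a₁ (exp q.2) (σ q.2)}
  have cf : Continuous fun q : ℂ × ℂ => fc r s (exp q.2) q.1 := by
    unfold fc
    exact Continuous.div (by fun_prop) (by fun_prop) fun q => exp_ne_zero _
  have oΩ : IsOpen Ω := ((Rt_open μ α).preimage continuous_snd).inter
    (((Cn_open _ _ _ _ _).preimage continuous_fst).inter
      (isOpen_lt (cσ.comp continuous_snd) (continuous_im.comp cf)))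
  obtain ⟨x₀, h0, h1⟩ := down (exp_ne_zero l) (re0 l hl) a0 κ0 hx
  have oS : IsOpen (St κ) := isOpen_lt (continuous_abs.comp continuous_im) continuous_const
  refine J _ Ω _ l x₀ (ε * r) oΩ (fun u v hv => ((X u hv.1).d v hv.2).mono fun v' h => h.2)
    (fun q hq => ((X _ hq.1).p _ hq.2).trans
      (mul_le_mul_of_nonneg_left (by linarith [hq.2.1.1]) ε0))
    (Om_cvx r κ s a₁ (exp l) (σ l)).isPreconnected (fun v hv => ⟨hl, hv⟩) h0 ?_ x hx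
  have a1 : AnalyticAt ℂ Y (x₀, exp l) := P097.Hol.analyticAt_of_differentiableOn
    (oS.prod isOpen_ball) dY ⟨show |x₀.im| < κ from abs_lt.2 ⟨by linarith [h0.1.1], by linarith⟩,
      mem_ball_zero_iff.2 (hl.1.trans_le μκ)⟩
  have a2 : AnalyticAt ℂ (fun q : ℂ × ℂ => (q.1, exp q.2)) (x₀, l) :=
    analyticAt_fst.prod analyticAt_snd.cexp
  refine (AnalyticAt.comp (g := Y) (x := (x₀, l)) a1 a2).congr ?_
  filter_upwards [oΩ.mem_nhds (show (x₀, l) ∈ Ω from ⟨hl, h0⟩),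
    (isOpen_lt (continuous_im.comp continuous_fst) continuous_const).mem_nhds
      (show (x₀, l) ∈ {q : ℂ × ℂ | q.1.im < κ / 2} from h1)] with q b1 b2
  exact ((X _ b1.1).eq _ b1.2 b2).symm

/-- the Levi step at `l` -/
theorem high (J : JOINT) {Φ Y : ℂ × ℂ → ℂ} {r κ s a a₁ ε μ α β δ Γ N L η T E C₀ S M₁ M₂ e q : ℝ}
    {ω : ℝ → ℝ} {y : ℂ → ℂ → ℂ} {l : ℂ} (κ0 : 0 < κ) (a0 : 0 < a₁) (a1 : a₁ ≤ 1) (ε0 : 0 ≤ ε)
    (μκ : μ ≤ κ) (β0 : 0 < β) (β1 : β ≤ 1) (δ0 : 0 ≤ δ) (δ1 : δ ≤ 1 / 2) (Γ0 : 0 ≤ Γ)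
    (M1 : 0 ≤ M₁) (M2 : 0 ≤ M₂) (e0 : 0 ≤ e) (q0 : 0 ≤ q) (q2 : q ≤ 2) (α2 : α ≤ 2) (L1 : 1 ≤ L)
    (η0 : 0 ≤ η) (η1 : 2 * η ≤ ε) (η2 : 2 * η ≤ 1 / 16)
    (cs : ∀ t, |t| ≤ α → β ≤ Real.cos t ∧ β ≤ Real.cos (q * t))
    (k1 : 224 * δ ≤ a₁ * β) (k2 : 48 * (6 + 3 * Γ) ≤ a₁ * N) (k3 : 8 * a₁ * r ≤ κ)
    (k4 : Γ * δ ^ 2 = 2 * L + 2) (k5 : 4 * L ≤ a₁ * N) (hS : N + 4 * Γ ≤ S)
    (dY : DifferentiableOn ℂ Y (St κ ×ˢ ball 0 κ))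
    (X : ∀ l ∈ Rt μ α, Ex Φ (fun x => Y (x, exp l)) (exp l) r κ ε
      (Om r κ s a₁ (exp l) (S + ph M₁ M₂ e q Γ l)) (y l))
    (sh : ∀ l ∈ Rt μ α, ∀ x ∈ Om r κ s a₁ (exp l) (S + ph M₁ M₂ e q Γ l),
      x + exp l ∈ Om r κ s a₁ (exp l) (S + ph M₁ M₂ e q Γ l) →
      L * ‖exp l‖ ≤ a₁ * (r - x.im) - |x.re - s| →
      S + ph M₁ M₂ e q Γ l + L ≤ (fc r s (exp l) x).im →
      ‖y l x - x‖ ≤ η * (r - x.im) ∧ ‖y l (x + exp l) - y l x - exp l‖ ≤ η * ‖exp l‖)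
    (l1 : 2 * ‖exp l‖ < μ) (l2 : |l.im| + δ < α)
    (l3 : (S + ph M₁ M₂ e q Γ l) * ‖exp l‖ ^ 2 ≤ (r - 3 * κ / 8) * (exp l).re)
    (F : Fw Φ (fun x => Y (x, exp l)) (exp l) r κ s a T ε E C₀ ω)
    (sub : Om r κ s a₁ (exp l) (S + ph M₁ M₂ e q Γ l - 1) ⊆ Cn r s a T (κ / 4)) :
    ∃ (t : ℝ) (y' : ℂ → ℂ), Mid r s (exp l) t (S + ph M₁ M₂ e q Γ l) ⊆ Cn r s a₁ 0 (κ / 4) ∧
      Ex Φ (fun x => Y (x, exp l)) (exp l) r κ ε (Om r κ s a₁ (exp l) (S + ph M₁ M₂ e q Γ l) ∪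
        Mid r s (exp l) t (S + ph M₁ M₂ e q Γ l)) y' ∧
      ∀ x ∈ Mid r s (exp l) t (S + ph M₁ M₂ e q Γ l), ‖y' x - x‖ ≤ 2 * η * (r - x.im) ∧
        (x + exp l ∈ Mid r s (exp l) t (S + ph M₁ M₂ e q Γ l) →
          ‖y' (x + exp l) - y' x - exp l‖ ≤ 2 * η * ‖exp l‖) := by
  have re1 : ∀ l : ℂ, |l.im| ≤ α → β * ‖exp l‖ ≤ (exp l).re := fun l h => by
    rw [exp_re, norm_exp, mul_comm]
    exact mul_le_mul_of_nonneg_left (cs _ h).1 (Real.exp_pos _).le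
  have n0 : 0 < ‖exp l‖ := norm_pos_iff.2 (exp_ne_zero l)
  have lα : |l.im| ≤ α := by linarith
  have hl : l ∈ Rt μ α := ⟨by linarith, by linarith⟩
  have w0 : 0 < (exp l).re := (mul_pos β0 n0).trans_le (re1 l lα)
  have H0 : 0 ≤ (Hb M₁ M₂ e q l).re := by
    have c1 := β0.le.trans (cs _ lα).1
    have c2 := β0.le.trans (cs _ lα).2
    rw [Hb_re]; positivity
  have N0 : 0 < N := (mul_pos_iff_of_pos_left a0).1 (by linarith)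
  have sq4 : Γ * l.im ^ 2 ≤ Γ * 2 ^ 2 := mul_le_mul_of_nonneg_left
    (sq_le_sq' (by linarith [(abs_le.1 lα).1]) (by linarith [(abs_le.1 lα).2])) Γ0
  obtain ⟨σ, hσ⟩ : ∃ σ, σ = S + ph M₁ M₂ e q Γ l := ⟨_, rfl⟩
  have σ1 : N + (Hb M₁ M₂ e q l).re ≤ σ := by rw [hσ, ph]; linarith
  rw [← hσ] at l3 sub ⊢
  obtain ⟨τ, hτ⟩ : ∃ τ, τ = σ * ‖exp l‖ ^ 2 / (exp l).re := ⟨_, rfl⟩
  obtain ⟨t, ht⟩ : ∃ t, t = σ * (exp l).im / (exp l).re := ⟨_, rfl⟩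
  have σ0 : 0 < σ := by linarith
  have τ0 : 0 < τ := by rw [hτ]; positivity
  have τ1 : τ ≤ r - 3 * κ / 8 := by rw [hτ, div_le_iff₀ w0]; exact l3
  have τ2 : σ * ‖exp l‖ ≤ τ := by
    rw [hτ, le_div_iff₀ w0]
    exact (mul_le_mul_of_nonneg_left (re_le_norm (exp l)) (mul_pos σ0 n0).le).trans_eq (by ring)
  have τ3 : N * ‖exp l‖ ≤ τ := (mul_le_mul_of_nonneg_right (by linarith) n0.le).trans τ2
  have ee : exp l * (t + σ * I) = τ * I := by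
    apply Complex.ext
    · simp only [mul_re, add_re, ofReal_re, I_re, mul_zero, ofReal_im, I_im, mul_one, sub_self,
        add_zero, add_im, mul_im, zero_add, ht]
      field_simp; ring
    · simp only [mul_re, add_re, ofReal_re, I_re, mul_zero, ofReal_im, I_im, mul_one, sub_self,
        add_zero, add_im, mul_im, zero_add, ht, hτ, ← Complex.normSq_eq_norm_sq, normSq_apply]
      field_simp
  let p := pp M₁ M₂ e q Γ δ l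
  have G : ∀ u : ℂ, ‖u‖ ≤ 1 → l + δ * u ∈ Rt μ α ∧ ‖exp (l + δ * u)‖ ≤ 2 * ‖exp l‖ ∧
      ∀ ξ ∈ Rc t σ 5, XX r s δ l p ξ u ∈ Cn r s a₁ 0 (κ / 4) ∧
        7 * τ / 8 ≤ r - (XX r s δ l p ξ u).im ∧ r - (XX r s δ l p ξ u).im ≤ 9 * τ / 8 ∧
        3 * (a₁ * τ) / 4 ≤ a₁ * (r - (XX r s δ l p ξ u).im) - |(XX r s δ l p ξ u).re - s| ∧
        (fc r s (exp (l + δ * u)) (XX r s δ l p ξ u)).im =
          S + ph M₁ M₂ e q Γ (l + δ * u) + (ξ.im - σ) + (L + 1) * ‖u‖ ^ 2 := fun u hu => by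
    have hp : β * ‖p u‖ ≤ 4 * δ * σ + β * (3 * Γ) :=
      (pp_le M1 M2 e0 q0 q2 Γ0 δ0 δ1 β0 hu (by linarith) (cs _ lα).1 (cs _ lα).2).trans
        (add_le_add_left (mul_le_mul_of_nonneg_left (by linarith) (by positivity)) _)
    have g := fun ξ hξ => geo (p := p u) (ξ := ξ) β0 β1 a0 δ0 δ1 Γ0 hu ee τ0.le τ2 τ3 hp hξ k1 k2
    have g2 := (g (t + σ * I) ⟨by simp, by simp, by simp⟩).2
    refine ⟨⟨by linarith, ?_⟩, g2, fun ξ hξ => ?_⟩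
    · have b1 : |((δ : ℂ) * u).im| ≤ δ := (abs_im_le_norm _).trans (by
        rw [norm_mul, norm_real, Real.norm_of_nonneg δ0]; exact mul_le_of_le_one_right δ0 hu)
      rw [add_im]
      linarith [abs_add_le l.im ((δ : ℂ) * u).im]
    · obtain ⟨c1, c2, c3, c4⟩ := inC (s := s) a0 a1 τ0 κ0 (g ξ hξ).1 τ1 k3
      refine ⟨c1, c2, c3, c4, ?_⟩
      rw [XX, fc_inv r s (exp_ne_zero _), add_im, pp_im, k4, hσ]
      ring
  have R5 : ∀ ξ ∈ Rc t σ 4, ξ ∈ Rc t σ 5 ∧ ξ - 1 ∈ Rc t σ 5 := fun ξ h => by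
    have := abs_lt.1 h.1
    refine ⟨⟨h.1.trans (by norm_num), h.2⟩, ?_, by simpa using h.2⟩
    rw [sub_re, one_re, abs_lt]; constructor <;> linarith
  have an := fun (l x : ℂ) => joint' J (Φ := Φ) (s := s) (σ := fun l => S + ph M₁ M₂ e q Γ l) κ0
    a0.le ε0 μκ (by unfold ph Hb; fun_prop) dY
    (fun l h => (mul_nonneg β0.le (norm_nonneg _)).trans (re1 l h.2.le)) X (l := l) (x := x)
  obtain ⟨g, hg⟩ := levi (r := r) (s := s) (δ := δ) (t := t) (σ := σ) (B := η * (9 * τ / 8))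
    (B' := 2 * η * ‖exp l‖) (l := l) (p := p) (Z := fun q : ℂ × ℂ => y q.2 q.1)
    (by unfold p pp Hb; fun_prop) (pp_zero ..) (fun ξ hξ u hu => by
      have u1 := mem_sphere_zero_iff_norm.1 hu
      obtain ⟨g1, g2, g3⟩ := G u u1.le
      obtain ⟨c1, -, c3, c4, c5⟩ := g3 ξ (R5 ξ hξ).1
      obtain ⟨d1, -, -, -, d5⟩ := g3 _ (R5 ξ hξ).2
      rw [u1] at c5 d5
      rw [sub_im, one_im] at d5
      have m1 : XX r s δ l p ξ u ∈ Om r κ s a₁ (exp (l + δ * u)) (S + ph M₁ M₂ e q Γ (l + δ * u)) :=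
        ⟨c1, by linarith [hξ.2.1]⟩
      have m2 : XX r s δ l p (ξ - 1) u ∈
          Om r κ s a₁ (exp (l + δ * u)) (S + ph M₁ M₂ e q Γ (l + δ * u)) := ⟨d1, by linarith [hξ.2.1]⟩
      rw [XX_sub] at m2
      have b1 : L * ‖exp (l + δ * u)‖ ≤ 3 * (a₁ * τ) / 4 := by
        linarith [mul_le_mul_of_nonneg_right k5 n0.le, mul_le_mul_of_nonneg_left τ3 a0.le,
          mul_le_mul_of_nonneg_left g2 (by linarith : 0 ≤ L), mul_pos a0 τ0]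
      obtain ⟨b2, b3⟩ := sh _ g1 _ m1 m2 (b1.trans c4) (by linarith [hξ.2.1])
      exact ⟨an _ _ g1 m1, b2.trans (mul_le_mul_of_nonneg_left c3 η0),
        b3.trans ((mul_le_mul_of_nonneg_left g2 η0).trans_eq (by ring))⟩)
    fun ξ hξ k u hu => by
      obtain ⟨g1, -, g3⟩ := G u (mem_closedBall_zero_iff.1 hu)
      obtain ⟨c1, -, -, -, c5⟩ := g3 ξ (R5 ξ hξ).1
      exact an _ _ g1 ⟨c1, by
        linarith [mul_nonneg (by linarith : 0 ≤ L + 1) (sq_nonneg ‖u‖)]⟩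
  have MM : ∀ x ∈ Mid r s (exp l) t σ, x ∈ Cn r s a₁ 0 (κ / 4) ∧ 7 * τ / 8 ≤ r - x.im := fun x hx => by
    obtain ⟨c1, c2, -⟩ := (G 0 (by simp)).2.2 (fc r s (exp l) x) ⟨hx.1.trans (by norm_num), hx.2⟩
    have : XX r s δ l p (fc r s (exp l) x) 0 = x := by
      simp only [XX, p, pp_zero, mul_zero, add_zero, inv_fc r s (exp_ne_zero l)]
    rw [this] at c1 c2
    exact ⟨c1, c2⟩
  obtain ⟨y', h⟩ := mid (η := 2 * η) F (exp_ne_zero l) w0.le κ0 sub (fun x hx => (MM x hx).1)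
    (hσ ▸ X l hl) hg (fun x hx => by
      linarith [mul_le_mul_of_nonneg_left (MM x hx).2 η0, mul_nonneg η0 τ0.le]) η1 η2
  exact ⟨t, y', fun x hx => (MM x hx).1, h⟩

end Vale.Agent.P097S.Cba
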