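import Vale.Agent.P097N.Defs2
import Vale.Agent.P097C.Spec

/-!
# P097S: bounded critical growth in one Stolz angle (definitions and interfaces)

`τ = r - im y` is the depth below the top line.  Only cones at the top line are used.
-/

set_option linter.all false

noncomputable section

namespace Vale.Agent.P097S

open Filter Topology Set Metric Vale.Agent.P097N
open Vale.Agent.P097C (Bar UJ dd)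

/-- the curve on the strip and the solution near the real axis -/
structure Dt (θ h Q : ℂ → ℂ) (Y : ℂ × ℂ → ℂ) (c : ℂ) (r κ : ℝ) : Prop where
  cv : Cv θ h Q c (St r)
  col : Col Y κ κ κ
  kr : 2 * κ ≤ r
  law : ∀ x ∈ St κ, ∀ w ∈ ball (0 : ℂ) κ, x - w ∈ St κ → x + w ∈ St κ →
    EE θ h (Y (x - w, w)) (Y (x, w)) (Y (x + w, w)) = 0

/-- periodicity and reflection symmetry of the sizes -/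
structure Sym (θ Q : ℂ → ℂ) (Y : ℂ × ℂ → ℂ) (r κ : ℝ) : Prop where
  perg : ∀ y ∈ St r, deriv θ (y + 1) = deriv θ y
  perQ : ∀ y ∈ St r, Q (y + 1) = Q y
  perY : ∀ x ∈ St κ, ∀ w ∈ ball (0 : ℂ) κ, Y (x + 1, w) = Y (x, w) + 1
  reY : ∀ x w : ℝ, |w| < κ → (Y (x, w)).im = 0
  cjg : ∀ y ∈ St r, ‖deriv θ (starRingEnd ℂ y)‖ = ‖deriv θ y‖
  cjQ : ∀ y ∈ St r, ‖Q (starRingEnd ℂ y)‖ = ‖Q y‖

/-- the cone with vertex `s + i r` and aperture `a`, cut at depth `d` and at height `b` -/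
def Cn (r s a d b : ℝ) : Set ℂ := {y | b < y.im ∧ d < r - y.im ∧ |y.re - s| < a * (r - y.im)}

/-- `K ≤ A (τ / d) ^ (1 / 4)` in the cone, `K = τ max (|θ'|, |Q| ^ (1 / 2))` -/
def Kc (r : ℝ) (θ Q : ℂ → ℂ) (s a d A : ℝ) : Prop := ∀ y ∈ Cn r s a d 0,
  (‖deriv θ y‖ * (r - y.im)) ^ 4 * d ≤ A ^ 4 * (r - y.im) ∧
    (‖Q y‖ * (r - y.im) ^ 2) ^ 2 * d ≤ A ^ 4 * (r - y.im)

/-- a chart of radius `ρ` over the cone -/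
structure Ch (θ h : ℂ → ℂ) (Y : ℂ × ℂ → ℂ) (r κ s a d ρ : ℝ) (Z : ℂ × ℂ → ℂ) : Prop where
  ρκ : ρ ≤ κ
  dZ : DifferentiableOn ℂ Z (Cn r s a d (κ / 4) ×ˢ ball 0 ρ)
  eq : ∀ x ∈ Cn r s a d (κ / 4), x.im < κ / 2 → ∀ w ∈ ball (0 : ℂ) ρ, Z (x, w) = Y (x, w)
  ev : ∀ x ∈ Cn r s a d (κ / 4), ∀ w ∈ ball (0 : ℂ) ρ, Z (x, -w) = Z (x, w)
  bd : ∀ x ∈ Cn r s a d (κ / 4), ∀ w ∈ ball (0 : ℂ) ρ,
    ‖Z (x, w) - x‖ * ρ ^ 2 ≤ min (a * (r - x.im)) κ / 16 * ‖w‖ ^ 2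
  law : ∀ x, ∀ w ∈ ball (0 : ℂ) ρ, x - w ∈ Cn r s a d (κ / 4) → x + w ∈ Cn r s a d (κ / 4) →
    EE θ h (Z (x - w, w)) (Z (x, w)) (Z (x + w, w)) = 0

/-- **cone baseline**: constants do not depend on the vertex and on the depth -/
def CB (θ h Q : ℂ → ℂ) (Y : ℂ × ℂ → ℂ) (r κ : ℝ) : Prop := ∀ a : ℝ, 0 < a → a ≤ 1 →
  ∃ a₁ c : ℝ, 0 < a₁ ∧ a₁ ≤ a / 8 ∧ 0 < c ∧ ∀ s d A : ℝ, 0 < d → d ≤ r → 1 ≤ A →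
    Kc r θ Q s a d A → ∃ Z, Ch θ h Y r κ s a₁ (8 * d) (c * d / A) Z

def Spec_CB : Prop := ∀ θ h Q Y c r κ, Dt θ h Q Y c r κ → CB θ h Q Y r κ

/-- the real leaves lose at most `C |u|` -/
def Lip (Y : ℂ × ℂ → ℂ) (r κ : ℝ) : Prop := ∃ C u₀ : ℝ, 0 < C ∧ 0 < u₀ ∧ u₀ ≤ κ ∧
  C * u₀ ≤ r - κ ∧ ∀ u : ℝ, |u| < u₀ → ∃ y : ℂ → ℂ, DifferentiableOn ℂ y (St (r - C * |u|)) ∧
    MapsTo y (St (r - C * |u|)) (St r) ∧ ∀ x ∈ St κ, y x = Y (x, u)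

/-- pointwise bound above a cone -/
def PT (r : ℝ) (θ Q : ℂ → ℂ) : Prop := ∀ a : ℝ, 0 < a → a ≤ 1 → ∃ C : ℝ, 0 < C ∧
  ∀ s d A τ : ℝ, 0 < d → 32 * d ≤ r → 1 ≤ A → 0 < τ → τ ≤ 16 * d → Kc r θ Q s a d A →
    ‖deriv θ (s + (r - τ) * Complex.I)‖ * τ ≤ C * (A + Real.log (16 * d / τ)) ∧
    ‖Q (s + (r - τ) * Complex.I)‖ * τ ^ 2 ≤ (C * (A + Real.log (16 * d / τ))) ^ 2

/-- all moments: few bad cones at each level -/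
def Cnt (r : ℝ) (θ Q : ℂ → ℂ) : Prop := ∀ p : ℕ, ∃ C : ℝ, ∀ (n : ℕ) (A : ℝ), 1 ≤ A →
  ∃ B : Finset ℝ, B.card * A ^ p ≤ C * 2 ^ n ∧ ∀ s d : ℝ, 1 / 2 ^ (n + 1) ≤ d → d ≤ 1 / 2 ^ n →
    ¬ Kc r θ Q s 1 (d / 16) A → ∃ b ∈ B, ∃ k : ℤ, |s - k - b| ≤ 1 / 2 ^ n

/-- block H2 -/
def Spec_H2 : Prop := ∀ θ h Q Y c r κ, Dt θ h Q Y c r κ → Sym θ Q Y r κ → CB θ h Q Y r κ →
  Lip Y r κ → PT r θ Q ∧ Cnt r θ Q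

/-- good points -/
def Gd (r : ℝ) (θ Q : ℂ → ℂ) (A : ℝ) (y : ℂ) : Prop := Kc r θ Q y.re 1 ((r - |y.im|) / 16) A

/-- a calm disc (the same as `P097K.Calm`) -/
def Calm (r : ℝ) (g Q : ℂ → ℂ) (e : ℝ) (y : ℂ) : Prop :=
  ∀ z ∈ ball y ((r - |y.im|) / 8), ‖Q z‖ * (r - |y.im|) ^ 2 ≤ e ∧ ‖g z‖ * (r - |y.im|) ≤ e

/-- no calm disc at a good point -/
def NCL (r : ℝ) (g Q : ℂ → ℂ) (G : ℝ → ℂ → Prop) : Prop := ∀ A : ℝ, ∃ e d₁ : ℝ, 0 < e ∧ 0 < d₁ ∧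
  ∀ y ∈ St r, dd r y < d₁ → G A y → ¬ Calm r g Q e y

def Spec_NCL : Prop := ∀ θ h Q Y c r κ, Dt θ h Q Y c r κ → Sym θ Q Y r κ → CB θ h Q Y r κ →
  PT r θ Q → ¬ Over1 θ r → NCL r (deriv θ) Q (Gd r θ Q)

/-- the level -/
def lv (r : ℝ) (y : ℂ) : ℝ := 1 + Real.log (r ^ 2 / dd r y)

/-- what the core uses of the good points -/
structure Mom (r : ℝ) (g Q : ℂ → ℂ) (G : ℝ → ℂ → Prop) : Prop where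
  mono : ∀ A A' y, 0 ≤ A → A ≤ A' → G A y → G A' y
  loc : ∃ C : ℝ, 0 < C ∧ ∀ A, 1 ≤ A → ∀ y ∈ St r, G A y → ∀ z ∈ ball y ((r - |y.im|) / 2),
    ‖g z‖ * (r - |y.im|) ≤ C * A ∧ ‖Q z‖ * (r - |y.im|) ^ 2 ≤ (C * A) ^ 2
  pt : ∃ C : ℝ, ∀ y ∈ St r, ‖g y‖ * dd r y ≤ C * lv r y ∧ ‖Q y‖ * dd r y ^ 2 ≤ (C * lv r y) ^ 2
  stop : ∀ δ ε : ℝ, 0 < δ → 0 < ε → ∃ (C : ℝ) (E : ℂ → ℝ), 1 ≤ C ∧ Bar (St r) E ∧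
    (∀ t : ℝ, E t ≤ ε) ∧ ∀ y ∈ St r, UJ E y 0 ∧ (E y < 1 → G (C * lv r y ^ δ) y)
  pay : ∀ η : ℝ, 0 < η → ∃ A N₀ : ℝ, 1 ≤ A ∧ ∀ N ≥ N₀, ∃ W : ℂ → ℝ, Bar (St r) W ∧
    (∀ t : ℝ, W t ≤ η * N) ∧ ∀ y ∈ St r, UJ W y 0 ∧
      (¬ G A y → UJ W y (-1 / (dd r y + Real.exp (-N)) ^ 2))

/-- barriers from the count -/
def Spec_BARR : Prop := ∀ θ h Q Y c r κ, Dt θ h Q Y c r κ → Sym θ Q Y r κ → PT r θ Q →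
  Cnt r θ Q → Mom r (deriv θ) Q (Gd r θ Q)

/-- the curve on its strip, no growth bound -/
structure SD0 (r : ℝ) (θ h g Q : ℂ → ℂ) (c : ℝ) : Prop where
  r0 : 0 < r
  c0 : 0 < c
  anθ : AnalyticOnNhd ℂ θ (St r)
  anh : AnalyticOnNhd ℂ h (St r)
  ang : AnalyticOnNhd ℂ g (St r)
  anQ : AnalyticOnNhd ℂ Q (St r)
  dθ : ∀ y ∈ St r, deriv θ y = g y
  ode : ∀ y ∈ St r, deriv (deriv g) y = Q y * g y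
  wr : ∀ y ∈ St r, deriv (deriv h) y * g y - deriv h y * deriv g y + h y * g y ^ 3 = c
  perθ : ∀ y ∈ St r, θ (y + 1) = θ y + 2 * Real.pi
  perh : ∀ y ∈ St r, h (y + 1) = h y
  reθ : ∀ t : ℝ, (θ t).im = 0
  posg : ∀ t : ℝ, P097C.PR (g t)

/-- the core with moments -/
def Spec_CORE2 : Prop := ∀ (r ρ c : ℝ) (θ h g Q Y φ p : ℂ → ℂ) (n : ℕ) (G : ℝ → ℂ → Prop),
  SD0 r θ h g Q c → Mom r g Q G → NCL r g Q G → P097C.CL r ρ c θ h g n Y φ p → False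

/-- bounded critical growth in one Stolz angle -/
def Stz (r : ℝ) (θ Q : ℂ → ℂ) : Prop := ∃ s a C : ℝ, 0 < a ∧ ∀ y ∈ Cn r s a 0 0,
  ‖deriv θ y‖ * (r - y.im) ≤ C ∧ ‖Q y‖ * (r - y.im) ^ 2 ≤ C

end Vale.Agent.P097S
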