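import Vale.Agent.P097S.TopDefs
import Vale.Agent.P097Top.NoReg
import Vale.Agent.P097.H407.Hol

/-!
# P097S: a chart over one cone at every depth gives the linear loss on the real leaves
-/

set_option linter.all false

noncomputable section

namespace Vale.Agent.P097S

open Filter Topology Set Metric Complex Vale.Agent.P097 Vale.Agent.P097T Vale.Agent.P097Top

namespace Lp

/-- a bidisc at a top point raises the leaf -/
theorem up (hRL : Spec_RL) (hL : Spec_LF2F) (hTu : Spec_TUBE) (hU : Spec_UW) (hN : Spec_NATB)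
    (hTw : Spec_TWO) {h : ℝ → ℝ} {ε : ℝ} {ψ δ : ℝ × ℝ → ℝ} {r c w₀ T ρ : ℝ} {θ H Q : ℂ → ℂ}
    {Y F₀ F₁ : ℂ × ℂ → ℂ} {x₁ : ℂ} (N : Gm.NF h ε ψ δ) (C : Cur r c θ H Q) (A : Agr h ψ θ H)
    (hB : NatB r θ) (w0 : 0 < w₀) (hε : w₀ < ε) (hδ : ∀ x, δ (x, w₀) < Real.pi / 2)
    (L : Lf2 θ ψ r w₀ T Y) (hx₁ : x₁.im = T) (hρ : 0 < ρ)
    (a0 : AnalyticOnNhd ℂ F₀ (ball x₁ ρ ×ˢ ball (w₀ : ℂ) ρ))
    (a1 : AnalyticOnNhd ℂ F₁ (ball x₁ ρ ×ˢ ball (w₀ : ℂ) ρ))
    (m0 : MapsTo F₀ (ball x₁ ρ ×ˢ ball (w₀ : ℂ) ρ) (Strip r))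
    (m1 : MapsTo F₁ (ball x₁ ρ ×ˢ ball (w₀ : ℂ) ρ) (Strip r))
    (hF : ∀ x ∈ ball x₁ ρ ∩ Strip T, F₀ =ᶠ[𝓝 (x, (w₀ : ℂ))] Y ∧
      F₁ =ᶠ[𝓝 (x, (w₀ : ℂ))] fun q => Y (q.1 + q.2, q.2)) :
    ∃ T' Y', T < T' ∧ Lf2 θ ψ r w₀ T' Y' := by
  have LF := hL h ε ψ δ r c w₀ T θ H Q Y N C A w0 hε L
  obtain ⟨x₂, d, T', η, hd, hT', hη, η1, η2, ta, tb⟩ :=
    hTu h ε ψ δ r c w₀ T ρ θ H Q Y F₀ F₁ x₁ N C A w0 hε L hx₁ hρ a0 a1 m0 m1 hF
  have T0 : 0 < T' := L.pos.trans hT'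
  obtain ⟨Z, hZ, hab⟩ := hU h ε ψ δ x₂ d T' w₀ η N hd T0 hη (by rwa [abs_of_pos w0]) ta tb
  have ev : ∀ᶠ w : ℝ in 𝓝 w₀, ∀ x ∈ Icc (0 : ℝ) 1, δ (x, w) < Real.pi / 2 ∧
      (Y (x, w)).im = 0 ∧ θ (Y (x, w)) = (ψ (x, w) : ℝ) := by
    refine isCompact_Icc.eventually_forall_of_forall_eventually fun x _ => ?_
    have c1 : ContinuousAt δ (x, w₀) :=
      (N.aδ _ (show |w₀| < ε by rwa [abs_of_pos w0])).continuousAt
    exact (continuous_swap.tendsto (w₀, x)).eventually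
      ((c1.eventually (gt_mem_nhds (hδ x))).and (L.re x))
  obtain ⟨η', hη', ev⟩ := Metric.eventually_nhds_iff.1 ev
  obtain ⟨Y', aY, mY, eY⟩ := hTw r w₀ T' (min η η') Y Z T0 (lt_min hη hη') hZ
    (fun x => L.an _ (Leaf.real_mem L.pos x))
    (fun x => (LF _ (Leaf.real_mem L.pos x)).mono fun q hq => hq.1)
    (fun w hw hw' => by
      have b1 := abs_lt.1 (hw'.trans_le (min_le_left _ _))
      have e := ev (y := w) (hw'.trans_le (min_le_right _ _))
      have w1 : 0 < w := by linarith [b1.1]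
      have w2 : w < ε := by linarith [b1.2]
      obtain ⟨a, b, ha, hb, hab⟩ := hab w hw (hw'.trans_le (min_le_left _ _))
      have pδ : Function.Periodic (fun x => δ (x, w)) 1 := fun x =>
        (N.per (x, w) (show |w| < ε by rwa [abs_of_pos w1])).2
      obtain ⟨F, dF, mF, rF, pF, eF⟩ := NoR.lift hRL hN N C A hB w1 w2 T0 (fun x => by
        obtain ⟨s, hs, es⟩ := pδ.exists_mem_Ico₀ one_pos x
        exact (es.trans_lt (e s (Ico_subset_Icc_self hs)).1).ne) ha hb hab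
      refine ⟨F, dF, mF, rF, pF, fun x x0 x1 => ?_⟩
      obtain ⟨-, e1, e2⟩ := e x ⟨x0, x1⟩
      have f1 : F x = ((F x).re : ℝ) := Complex.ext rfl (by rw [rF, ofReal_im])
      have f2 : Y (x, w) = ((Y (x, w)).re : ℝ) := Complex.ext rfl (by rw [e1, ofReal_im])
      rw [f1, f2, (hRL h ε ψ δ r c θ H Q N C A).1 (F x).re (Y (x, w)).re
        (by rw [← f1, ← f2, eF, e2])])
    ((T + T') / 2) (by linarith [L.pos]) (by linarith)
  refine ⟨(T + T') / 2, Y', by linarith, by linarith [L.pos], aY, mY, fun x => ?_⟩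
  have t : Tendsto (fun q : ℝ × ℝ => ((q.1 : ℂ), (q.2 : ℂ))) (𝓝 (x, w₀))
      (𝓝 ((x : ℂ), (w₀ : ℂ))) :=
    ((continuous_ofReal.comp continuous_fst).prodMk
      (continuous_ofReal.comp continuous_snd)).tendsto (x, w₀)
  filter_upwards [t.eventually (eY x), L.re x] with q h1 h2
  rw [h1]
  exact h2

/-- germs along a connected set, from one germ -/
theorem spread {F G : ℂ × ℂ → ℂ} {K : Set ℂ} {w x₀ : ℂ} (hK : IsPreconnected K) (h0 : x₀ ∈ K)
    (ha : ∀ x ∈ K, AnalyticAt ℂ F (x, w) ∧ AnalyticAt ℂ G (x, w)) (he : F =ᶠ[𝓝 (x₀, w)] G) :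
    ∀ x ∈ K, F =ᶠ[𝓝 (x, w)] G := by
  have oA : IsOpen {t : ℂ | F =ᶠ[𝓝 (t, w)] G} :=
    isOpen_setOf_eventually_nhds.preimage (Continuous.prodMk_left w)
  refine hK.subset_of_closure_inter_subset oA ⟨x₀, h0, he⟩ ?_
  rintro x ⟨x1, x2⟩
  obtain ⟨η, hη, hb⟩ := Metric.eventually_nhds_iff_ball.mp
    ((ha x x2).1.eventually_analyticAt.and (ha x x2).2.eventually_analyticAt)
  obtain ⟨y, y1, y2⟩ := Metric.mem_closure_iff.mp x1 η hη
  have k := AnalyticOnNhd.eqOn_of_preconnected_of_eventuallyEq (fun q hq => (hb q hq).1)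
    (fun q hq => (hb q hq).2) (convex_ball _ _).isPreconnected (z₀ := (y, w))
    (by rw [mem_ball, dist_comm]; simpa using y2) y1
  exact (isOpen_ball.eventually_mem (mem_ball_self hη)).mono fun q hq => k hq

theorem cn_open (r s a d b : ℝ) : IsOpen (Cn r s a d b) :=
  (isOpen_lt continuous_const continuous_im).inter
    ((isOpen_lt continuous_const (continuous_const.sub continuous_im)).inter
      (isOpen_lt (continuous_re.sub continuous_const).abs
        (continuous_const.mul (continuous_const.sub continuous_im))))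

theorem cn_convex (r s a d b : ℝ) : Convex ℝ (Cn r s a d b) := by
  have e : Cn r s a d b = {y : ℂ | b < y.im} ∩ ({y : ℂ | y.im < r - d} ∩
      ({y : ℂ | y.re + a * y.im < s + a * r} ∩ {y : ℂ | s - a * r < y.re - a * y.im})) := by
    ext y
    simp only [Cn, mem_setOf_eq, mem_inter_iff, abs_lt]
    constructor
    · rintro ⟨h1, h2, h3, h4⟩
      exact ⟨h1, by linarith, by linarith, by linarith⟩
    · rintro ⟨h1, h2, h3, h4⟩
      exact ⟨h1, by linarith, by linarith, by linarith⟩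
  rw [e]
  refine (convex_halfSpace_im_gt _).inter ((convex_halfSpace_im_lt _).inter
    ((convex_halfSpace_lt (f := fun y : ℂ => y.re + a * y.im) ⟨fun x y => ?_, fun x y => ?_⟩ _).inter
      (convex_halfSpace_gt (f := fun y : ℂ => y.re - a * y.im) ⟨fun x y => ?_, fun x y => ?_⟩ _)))
  all_goals
    simp
    ring

variable {θ H : ℂ → ℂ} {Y Z : ℂ × ℂ → ℂ} {r κ s a d ρ : ℝ}

theorem ch_an (h : Ch θ H Y r κ s a d ρ Z) :
    AnalyticOnNhd ℂ Z (Cn r s a d (κ / 4) ×ˢ ball 0 ρ) :=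
  Hol.analyticOnNhd_of_differentiableOn ((cn_open _ _ _ _ _).prod isOpen_ball) h.dZ

theorem ch_mem (h : Ch θ H Y r κ s a d ρ Z) (ha : a ≤ 1) (hd : 0 ≤ d) (hκ : 0 < κ) {x w : ℂ}
    (hx : x ∈ Cn r s a d (κ / 4)) (hw : w ∈ ball (0 : ℂ) ρ) : Z (x, w) ∈ Strip r := by
  have k := h.bd x hx w hw
  obtain ⟨x1, x2, x3⟩ := hx
  rw [mem_ball_zero_iff] at hw
  have ρ0 : 0 < ρ := (norm_nonneg w).trans_lt hw
  have m0 : 0 ≤ min (a * (r - x.im)) κ := le_min ((abs_nonneg _).trans x3.le) hκ.le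
  have k1 : ‖Z (x, w) - x‖ ≤ min (a * (r - x.im)) κ / 16 :=
    le_of_mul_le_mul_right (k.trans (by gcongr)) (pow_pos ρ0 2)
  have k2 := abs_le.mp ((abs_im_le_norm _).trans k1)
  have m1 := min_le_left (a * (r - x.im)) κ
  have m2 := min_le_right (a * (r - x.im)) κ
  have m3 : a * (r - x.im) ≤ r - x.im := mul_le_of_le_one_left (by linarith) ha
  rw [sub_im] at k2
  exact show |(Z (x, w)).im| < r from abs_lt.mpr ⟨by linarith [k2.1], by linarith [k2.2]⟩

theorem small {h : ℝ → ℝ} {ε : ℝ} {ψ δ : ℝ × ℝ → ℝ} (N : Gm.NF h ε ψ δ) :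
    ∃ u₁ : ℝ, 0 < u₁ ∧ ∀ w, |w| < u₁ → |w| < ε → ∀ x, δ (x, w) < Real.pi / 2 := by
  have ev : ∀ᶠ w : ℝ in 𝓝 0, ∀ x ∈ Icc (0 : ℝ) 1, δ (x, w) < Real.pi / 2 := by
    refine isCompact_Icc.eventually_forall_of_forall_eventually fun x _ => ?_
    have m : (x, (0 : ℝ)) ∈ Gm.Lam ε := show |(0 : ℝ)| < ε by simpa using N.pos
    have z := (N.sym _ m).2
    simp only [neg_zero] at z
    exact (continuous_swap.tendsto ((0 : ℝ), x)).eventually ((N.aδ _ m).continuousAt.eventually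
      (gt_mem_nhds (show δ (x, 0) < Real.pi / 2 by linarith [Real.pi_pos])))
  obtain ⟨u₁, h1, ev⟩ := Metric.eventually_nhds_iff.1 ev
  refine ⟨u₁, h1, fun w hw hw' x => ?_⟩
  have pδ : Function.Periodic (fun x => δ (x, w)) 1 := fun x => (N.per (x, w) hw').2
  obtain ⟨t, ht, e⟩ := pδ.exists_mem_Ico₀ one_pos x
  exact e.trans_lt (ev (by simpa using hw) t (Ico_subset_Icc_self ht))

end Lp

open Lp in
theorem lip (hRL : Spec_RL) (hG : Spec_GERM) (hL : Spec_LF2F) (hS : Spec_SUP2) (hTu : Spec_TUBE)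
    (hU : Spec_UW) (hN : Spec_NATB) (hTw : Spec_TWO) : Spec_LIP := by
  rintro h ε ψ δ r c κ θ H Q Y N C A hB S κε κr hψ cb ⟨s, a₀, C₀, a0, hC⟩
  have κ0 := S.pos
  obtain ⟨a, a1, a2, a3⟩ : ∃ a, 0 < a ∧ a ≤ 1 ∧ a ≤ a₀ :=
    ⟨min 1 a₀, lt_min one_pos a0, min_le_left _ _, min_le_right _ _⟩
  obtain ⟨b, c₁, b0, b1, c1, cb⟩ := cb a a1 a2
  obtain ⟨B, B3, B2⟩ : ∃ B, 1 ≤ B ∧ |C₀| ≤ B := ⟨max 1 |C₀|, le_max_left _ _, le_max_right _ _⟩
  have kc : ∀ d, 0 < d → Kc r θ Q s a d B := by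
    rintro d d0 y ⟨y1, y2, y3⟩
    have τ0 : 0 < r - y.im := d0.trans y2
    obtain ⟨k1, k2⟩ := hC y ⟨y1, τ0, y3.trans_le (by gcongr)⟩
    have k3 := (le_abs_self C₀).trans B2
    have k4 : C₀ ≤ B ^ 2 := by nlinarith
    constructor
    · gcongr
      exact k1.trans k3
    · rw [show B ^ 4 = (B ^ 2) ^ 2 by ring]
      gcongr
      exact k2.trans k4
  obtain ⟨l, l1, l2⟩ : ∃ l, 4 * B ≤ c₁ * l ∧ 4 ≤ b * l := by
    refine ⟨4 * B / c₁ + 4 / b, ?_, ?_⟩
    · rw [mul_add, mul_div_cancel₀ _ c1.ne']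
      linarith [show 0 < c₁ * (4 / b) by positivity]
    · rw [mul_add, mul_div_cancel₀ _ b0.ne']
      linarith [show 0 < b * (4 * B / c₁) by positivity]
  have l0 : 0 < l := (mul_pos_iff_of_pos_left b0).mp (by linarith)
  have l3 : 4 ≤ l := by nlinarith
  obtain ⟨u₁, u1, hδ⟩ := small N
  obtain ⟨u₀, v0, v1, v2, v3⟩ : ∃ u₀, 0 < u₀ ∧ u₀ ≤ u₁ ∧ u₀ ≤ κ / 4 ∧ 16 * l * u₀ ≤ r - κ := by
    refine ⟨min u₁ (min (κ / 4) ((r - κ) / (16 * l))), lt_min u1 (lt_min (by positivity)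
      (div_pos (by linarith) (by positivity))), min_le_left _ _,
      (min_le_right _ _).trans (min_le_left _ _), ?_⟩
    rw [mul_comm, ← le_div_iff₀ (by positivity)]
    exact (min_le_right _ _).trans (min_le_right _ _)
  have mem : ∀ (u : ℝ), |u| < κ → ∀ x ∈ Strip κ, ((x, (u : ℂ)) : ℂ × ℂ) ∈ Strip κ ×ˢ ball (0 : ℂ) κ :=
    fun u hu x hx => ⟨hx, by simpa using hu⟩
  have pos : ∀ u : ℝ, 0 < u → u < u₀ → ∃ y : ℂ → ℂ,
      DifferentiableOn ℂ y (P097N.St (r - 16 * l * u)) ∧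
      MapsTo y (P097N.St (r - 16 * l * u)) (P097N.St r) ∧ ∀ x ∈ P097N.St κ, y x = Y (x, u) := by
    intro u u0 u2
    have u3 : |u| < κ := by rw [abs_of_pos u0]; linarith
    have u4 : u < ε := by linarith
    have L0 : Lf2 θ ψ r u κ Y := by
      refine ⟨κ0, fun x hx => S.an _ (mem u u3 x hx), fun x hx => ?_, fun x => ?_⟩
      · have k := (abs_im_le_norm _).trans (S.bd _ (mem u u3 x hx))
        rw [sub_im, norm_real, Real.norm_eq_abs] at k
        have k1 : |x.im| < κ := hx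
        have k2 := abs_add_le ((Y (x, u)).im - x.im) x.im
        rw [sub_add_cancel] at k2
        show |(Y (x, u)).im| < r
        linarith
      · filter_upwards [(continuous_snd.abs.tendsto (x, u)).eventually (gt_mem_nhds u3)] with q hq
        exact ⟨S.re _ _ hq, hψ _ _ hq⟩
    obtain ⟨T, Ym, L, hmax⟩ := hS h ε ψ δ r c u κ θ H Q Y N C A u0 u4 L0
    have T1 : κ ≤ T := not_lt.mp fun k => hmax κ Y k L0
    have g0 : ∀ x ∈ Strip κ, Y =ᶠ[𝓝 (x, (u : ℂ))] Ym := by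
      refine hG Y Ym (Strip κ) u 0 (Leaf.convex_strip κ).isPreconnected (Leaf.real_mem κ0 0)
        (fun x hx => ⟨L0.an x hx, L.an x (lt_of_lt_of_le hx T1)⟩) ?_
      filter_upwards [L0.re 0, L.re 0] with q h1 h2
      have f1 : Y (q.1, q.2) = ((Y (q.1, q.2)).re : ℝ) := Complex.ext rfl (by rw [h1.1, ofReal_im])
      have f2 : Ym (q.1, q.2) = ((Ym (q.1, q.2)).re : ℝ) :=
        Complex.ext rfl (by rw [h2.1, ofReal_im])
      rw [f1, f2, (hRL h ε ψ δ r c θ H Q N C A).1 (Y (q.1, q.2)).re (Ym (q.1, q.2)).re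
        (by rw [← f1, ← f2, h1.2, h2.2])]
    have d0 : 0 < l * u := by positivity
    have d1 : 4 * u ≤ l * u := by gcongr
    have d2 : 16 * l * u ≤ r - κ := le_trans (by gcongr) v3
    have T2 : r - 16 * l * u ≤ T := by
      by_contra k
      push Not at k
      obtain ⟨Z, ch⟩ := cb s (l * u) B d0 (by linarith) B3 (kc _ d0)
      have ρ1 : 4 * u ≤ c₁ * (l * u) / B := by
        rw [le_div_iff₀ (by positivity)]
        nlinarith
      have sb : ball (⟨s, T⟩ : ℂ) (3 * u) ⊆ Cn r s b (8 * (l * u)) (κ / 4) := by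
        intro x hx
        rw [mem_ball, dist_eq_norm] at hx
        have k1 := abs_lt.mp ((abs_im_le_norm _).trans_lt hx)
        have k2 := (abs_re_le_norm _).trans_lt hx
        simp only [sub_im, sub_re] at k1 k2
        have k3 : 8 * (l * u) < r - x.im := by linarith [k1.2]
        refine ⟨by linarith [k1.1], k3, k2.trans_le ?_⟩
        nlinarith
      have wb : ∀ w ∈ ball (u : ℂ) u, ‖w‖ < 2 * u := fun w hw => by
        rw [mem_ball, dist_eq_norm] at hw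
        have := norm_le_norm_add_norm_sub' w u
        rw [norm_real, Real.norm_of_nonneg u0.le] at this
        linarith
      have wm : ∀ w ∈ ball (u : ℂ) u, w ∈ ball (0 : ℂ) (c₁ * (l * u) / B) := fun w hw =>
        mem_ball_zero_iff.mpr (by linarith [wb w hw])
      have m0 : ∀ x ∈ ball (⟨s, T⟩ : ℂ) u, x ∈ Cn r s b (8 * (l * u)) (κ / 4) := fun x hx =>
        sb (ball_subset_ball (by linarith) hx)
      have m1 : ∀ x ∈ ball (⟨s, T⟩ : ℂ) u, ∀ w ∈ ball (u : ℂ) u,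
          x + w ∈ Cn r s b (8 * (l * u)) (κ / 4) := fun x hx w hw => sb (by
        rw [mem_ball, dist_eq_norm] at hx ⊢
        rw [add_sub_right_comm]
        linarith [norm_add_le (x - ⟨s, T⟩) w, wb w hw])
      have um := mem_ball_self (x := (u : ℂ)) u0
      have x0 : (⟨s, 3 * κ / 8⟩ : ℂ) ∈ Cn r s b (8 * (l * u)) (κ / 4) :=
        ⟨by simp only; linarith, by simp only; linarith, by
          simp only [sub_self, abs_zero]
          exact mul_pos b0 (by linarith)⟩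
      have x1 : |(⟨s, 3 * κ / 8⟩ : ℂ).im| < κ := by
        simp only
        rw [abs_of_pos (by positivity)]
        linarith
      have g1 := spread (F := Z) (G := Ym) (w := u)
        ((cn_convex r s b (8 * (l * u)) (κ / 4)).inter (Leaf.convex_strip T)).isPreconnected
        ⟨x0, lt_of_lt_of_le x1 T1⟩ (fun x hx => ⟨ch_an ch _ ⟨hx.1, wm _ um⟩, L.an x hx.2⟩) (by
          refine EventuallyEq.trans ?_ (g0 _ x1)
          filter_upwards [((cn_open _ _ _ _ _).prod isOpen_ball).mem_nhds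
            (show ((⟨s, 3 * κ / 8⟩ : ℂ), (u : ℂ)) ∈ _ ×ˢ _ from ⟨x0, wm _ um⟩),
            (continuous_im.comp continuous_fst).continuousAt.eventually (gt_mem_nhds
              (show (⟨s, 3 * κ / 8⟩ : ℂ).im < κ / 2 by simp only; linarith))] with q q1 q2
          exact ch.eq _ q1.1 q2 _ q1.2)
      have a8 : b ≤ 1 := by linarith
      obtain ⟨T', Y', k1, k2⟩ := up hRL hL hTu hU hN hTw (F₀ := Z)
        (F₁ := fun q => Z (q.1 + q.2, q.2)) (x₁ := ⟨s, T⟩) N C A hB u0 u4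
        (hδ u (by rw [abs_of_pos u0]; linarith) (by rwa [abs_of_pos u0])) L rfl u0
        (fun q hq => ch_an ch _ ⟨m0 _ hq.1, wm _ hq.2⟩)
        (fun q hq => AnalyticAt.comp (g := Z) (f := fun q : ℂ × ℂ => (q.1 + q.2, q.2))
          (ch_an ch _ ⟨m1 _ hq.1 _ hq.2, wm _ hq.2⟩)
          ((analyticAt_fst.add analyticAt_snd).prod analyticAt_snd))
        (fun q hq => ch_mem ch a8 (by positivity) κ0 (m0 _ hq.1) (wm _ hq.2))
        (fun q hq => ch_mem ch a8 (by positivity) κ0 (m1 _ hq.1 _ hq.2) (wm _ hq.2))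
        fun x hx => ⟨g1 x ⟨m0 x hx.1, hx.2⟩, (Continuous.tendsto
          (f := fun q : ℂ × ℂ => (q.1 + q.2, q.2)) (by fun_prop) (x, (u : ℂ))).eventually
            (g1 (x + u) ⟨m1 x hx.1 _ um, by simpa [Strip] using hx.2⟩)⟩
      exact hmax T' Y' k1 k2
    exact ⟨fun x => Ym (x, u), fun x hx => (AnalyticAt.comp (g := Ym)
      (f := fun x : ℂ => (x, (u : ℂ))) (L.an x (lt_of_lt_of_le hx T2))
      (analyticAt_id.prod analyticAt_const)).differentiableAt.differentiableWithinAt,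
      fun x hx => L.mem x (lt_of_lt_of_le hx T2), fun x hx => (g0 x hx).eq_of_nhds.symm⟩
  refine ⟨16 * l, u₀, by positivity, v0, by linarith, v3, fun u hu => ?_⟩
  rcases lt_trichotomy u 0 with k | k | k
  · rw [abs_of_neg k] at hu ⊢
    obtain ⟨y, y1, y2, y3⟩ := pos (-u) (by linarith) hu
    refine ⟨y, y1, y2, fun x hx => ?_⟩
    rw [y3 x hx, ofReal_neg]
    exact S.ev _ (mem u (by rw [abs_of_neg k]; linarith) x hx)
  · subst k
    refine ⟨id, differentiableOn_id, fun x hx => by simpa using hx, fun x hx => ?_⟩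
    have := S.bd _ (mem 0 (by simpa using κ0) x hx)
    simp only [ofReal_zero, norm_zero, norm_le_zero_iff, sub_eq_zero] at this
    rw [ofReal_zero, this, id]
  · rw [abs_of_pos k] at hu ⊢
    exact pos u k hu

end Vale.Agent.P097S
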