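import Vale.Agent.P097S.Lip

/-!
# P097S: the linear loss from cones with a moving vertex
-/

set_option linter.all false

noncomputable section

namespace Vale.Agent.P097S

open Filter Topology Set Metric Complex Vale.Agent.P097 Vale.Agent.P097T Vale.Agent.P097Top

/-- at every small depth some cone has the bound -/
def Mov (r : ℝ) (θ Q : ℂ → ℂ) : Prop := ∃ a A d₀ : ℝ, 0 < a ∧ 0 < d₀ ∧ ∀ d, 0 < d → d < d₀ →
  ∃ s, Kc r θ Q s a d A

def Spec_LIPM : Prop := ∀ (h : ℝ → ℝ) (ε : ℝ) (ψ δ : ℝ × ℝ → ℝ) (r c κ : ℝ) (θ H Q : ℂ → ℂ)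
  (Y : ℂ × ℂ → ℂ), Gm.NF h ε ψ δ → Cur r c θ H Q → Agr h ψ θ H → NatB r θ → Sol0 θ H κ Y →
  κ ≤ ε → 2 * κ ≤ r → (∀ x w : ℝ, |w| < κ → θ (Y (x, w)) = (ψ (x, w) : ℝ)) →
  CB θ H Q Y r κ → Mov r θ Q → Lip Y r κ

open Lp in
theorem lipm (hRL : Spec_RL) (hG : Spec_GERM) (hL : Spec_LF2F) (hS : Spec_SUP2) (hTu : Spec_TUBE)
    (hU : Spec_UW) (hN : Spec_NATB) (hTw : Spec_TWO) : Spec_LIPM := by
  rintro h ε ψ δ r c κ θ H Q Y N C A hB S κε κr hψ cb ⟨a₀, C₀, d₀, a0, e0, hC⟩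
  have κ0 := S.pos
  obtain ⟨a, a1, a2, a3⟩ : ∃ a, 0 < a ∧ a ≤ 1 ∧ a ≤ a₀ :=
    ⟨min 1 a₀, lt_min one_pos a0, min_le_left _ _, min_le_right _ _⟩
  obtain ⟨b, c₁, b0, b1, c1, cb⟩ := cb a a1 a2
  obtain ⟨B, B3, B2⟩ : ∃ B, 1 ≤ B ∧ |C₀| ≤ B := ⟨max 1 |C₀|, le_max_left _ _, le_max_right _ _⟩
  have kc : ∀ d, 0 < d → d < d₀ → ∃ s, Kc r θ Q s a d B := fun d d0 d1 => by
    obtain ⟨s, K⟩ := hC d d0 d1
    refine ⟨s, fun y ⟨y1, y2, y3⟩ => ?_⟩
    have τ0 : 0 < r - y.im := d0.trans y2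
    obtain ⟨k1, k2⟩ := K y ⟨y1, y2, y3.trans_le (by gcongr)⟩
    have k3 : C₀ ^ 4 * (r - y.im) ≤ B ^ 4 * (r - y.im) := by
      rw [← Even.pow_abs (by norm_num) C₀]
      gcongr
    exact ⟨k1.trans k3, k2.trans k3⟩
  obtain ⟨l, l1, l2⟩ : ∃ l, 4 * B ≤ c₁ * l ∧ 4 ≤ b * l := by
    refine ⟨4 * B / c₁ + 4 / b, ?_, ?_⟩
    · rw [mul_add, mul_div_cancel₀ _ c1.ne']
      linarith [show 0 < c₁ * (4 / b) by positivity]
    · rw [mul_add, mul_div_cancel₀ _ b0.ne']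
      linarith [show 0 < b * (4 * B / c₁) by positivity]
  have l0 : 0 < l := (mul_pos_iff_of_pos_left b0).mp (by linarith)
  have l3 : 4 ≤ l := by nlinarith
  obtain ⟨u₂, u1', hδ'⟩ := small N
  obtain ⟨u₁, u1, u5, u6⟩ : ∃ u₁, 0 < u₁ ∧ u₁ ≤ u₂ ∧ l * u₁ ≤ d₀ :=
    ⟨min u₂ (d₀ / l), lt_min u1' (by positivity), min_le_left _ _,
      (le_div_iff₀' l0).1 (min_le_right _ _)⟩
  have hδ := fun w (k : |w| < u₁) => hδ' w (k.trans_le u5)
  obtain ⟨u₀, v0, v1, v2, v3⟩ : ∃ u₀, 0 < u₀ ∧ u₀ ≤ u₁ ∧ u₀ ≤ κ / 4 ∧ 16 * l * u₀ ≤ r - κ := by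
    refine ⟨min u₁ (min (κ / 4) ((r - κ) / (16 * l))), lt_min u1 (lt_min (by positivity)
      (div_pos (by linarith) (by positivity))), min_le_left _ _,
      (min_le_right _ _).trans (min_le_left _ _), ?_⟩
    rw [mul_comm, ← le_div_iff₀ (by positivity)]
    exact (min_le_right _ _).trans (min_le_right _ _)
  have mem : ∀ (u : ℝ), |u| < κ → ∀ x ∈ Strip κ, ((x, (u : ℂ)) : ℂ × ℂ) ∈ Strip κ ×ˢ ball (0 : ℂ) κ :=
    fun u hu x hx => ⟨hx, by simpa using hu⟩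
  have pos : ∀ u : ℝ, 0 < u → u < u₀ → ∃ y : ℂ → ℂ,
      DifferentiableOn ℂ y (P097N.St (r - 16 * l * u)) ∧
      MapsTo y (P097N.St (r - 16 * l * u)) (P097N.St r) ∧ ∀ x ∈ P097N.St κ, y x = Y (x, u) := by
    intro u u0 u2
    have u3 : |u| < κ := by rw [abs_of_pos u0]; linarith
    have u4 : u < ε := by linarith
    have L0 : Lf2 θ ψ r u κ Y := by
      refine ⟨κ0, fun x hx => S.an _ (mem u u3 x hx), fun x hx => ?_, fun x => ?_⟩
      · have k := (abs_im_le_norm _).trans (S.bd _ (mem u u3 x hx))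
        rw [sub_im, norm_real, Real.norm_eq_abs] at k
        have k1 : |x.im| < κ := hx
        have k2 := abs_add_le ((Y (x, u)).im - x.im) x.im
        rw [sub_add_cancel] at k2
        show |(Y (x, u)).im| < r
        linarith
      · filter_upwards [(continuous_snd.abs.tendsto (x, u)).eventually (gt_mem_nhds u3)] with q hq
        exact ⟨S.re _ _ hq, hψ _ _ hq⟩
    obtain ⟨T, Ym, L, hmax⟩ := hS h ε ψ δ r c u κ θ H Q Y N C A u0 u4 L0
    have T1 : κ ≤ T := not_lt.mp fun k => hmax κ Y k L0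
    have g0 : ∀ x ∈ Strip κ, Y =ᶠ[𝓝 (x, (u : ℂ))] Ym := by
      refine hG Y Ym (Strip κ) u 0 (Leaf.convex_strip κ).isPreconnected (Leaf.real_mem κ0 0)
        (fun x hx => ⟨L0.an x hx, L.an x (lt_of_lt_of_le hx T1)⟩) ?_
      filter_upwards [L0.re 0, L.re 0] with q h1 h2
      have f1 : Y (q.1, q.2) = ((Y (q.1, q.2)).re : ℝ) := Complex.ext rfl (by rw [h1.1, ofReal_im])
      have f2 : Ym (q.1, q.2) = ((Ym (q.1, q.2)).re : ℝ) :=
        Complex.ext rfl (by rw [h2.1, ofReal_im])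
      rw [f1, f2, (hRL h ε ψ δ r c θ H Q N C A).1 (Y (q.1, q.2)).re (Ym (q.1, q.2)).re
        (by rw [← f1, ← f2, h1.2, h2.2])]
    have d0 : 0 < l * u := by positivity
    have d1 : 4 * u ≤ l * u := by gcongr
    have d2 : 16 * l * u ≤ r - κ := le_trans (by gcongr) v3
    have T2 : r - 16 * l * u ≤ T := by
      by_contra k
      push Not at k
      obtain ⟨s, K⟩ := kc _ d0 (lt_of_lt_of_le (by gcongr; linarith) u6)
      obtain ⟨Z, ch⟩ := cb s (l * u) B d0 (by linarith) B3 K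
      have ρ1 : 4 * u ≤ c₁ * (l * u) / B := by
        rw [le_div_iff₀ (by positivity)]
        nlinarith
      have sb : ball (⟨s, T⟩ : ℂ) (3 * u) ⊆ Cn r s b (8 * (l * u)) (κ / 4) := by
        intro x hx
        rw [mem_ball, dist_eq_norm] at hx
        have k1 := abs_lt.mp ((abs_im_le_norm _).trans_lt hx)
        have k2 := (abs_re_le_norm _).trans_lt hx
        simp only [sub_im, sub_re] at k1 k2
        have k3 : 8 * (l * u) < r - x.im := by linarith [k1.2]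
        refine ⟨by linarith [k1.1], k3, k2.trans_le ?_⟩
        nlinarith
      have wb : ∀ w ∈ ball (u : ℂ) u, ‖w‖ < 2 * u := fun w hw => by
        rw [mem_ball, dist_eq_norm] at hw
        have := norm_le_norm_add_norm_sub' w u
        rw [norm_real, Real.norm_of_nonneg u0.le] at this
        linarith
      have wm : ∀ w ∈ ball (u : ℂ) u, w ∈ ball (0 : ℂ) (c₁ * (l * u) / B) := fun w hw =>
        mem_ball_zero_iff.mpr (by linarith [wb w hw])
      have m0 : ∀ x ∈ ball (⟨s, T⟩ : ℂ) u, x ∈ Cn r s b (8 * (l * u)) (κ / 4) := fun x hx =>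
        sb (ball_subset_ball (by linarith) hx)
      have m1 : ∀ x ∈ ball (⟨s, T⟩ : ℂ) u, ∀ w ∈ ball (u : ℂ) u,
          x + w ∈ Cn r s b (8 * (l * u)) (κ / 4) := fun x hx w hw => sb (by
        rw [mem_ball, dist_eq_norm] at hx ⊢
        rw [add_sub_right_comm]
        linarith [norm_add_le (x - ⟨s, T⟩) w, wb w hw])
      have um := mem_ball_self (x := (u : ℂ)) u0
      have x0 : (⟨s, 3 * κ / 8⟩ : ℂ) ∈ Cn r s b (8 * (l * u)) (κ / 4) :=
        ⟨by simp only; linarith, by simp only; linarith, by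
          simp only [sub_self, abs_zero]
          exact mul_pos b0 (by linarith)⟩
      have x1 : |(⟨s, 3 * κ / 8⟩ : ℂ).im| < κ := by
        simp only
        rw [abs_of_pos (by positivity)]
        linarith
      have g1 := spread (F := Z) (G := Ym) (w := u)
        ((cn_convex r s b (8 * (l * u)) (κ / 4)).inter (Leaf.convex_strip T)).isPreconnected
        ⟨x0, lt_of_lt_of_le x1 T1⟩ (fun x hx => ⟨ch_an ch _ ⟨hx.1, wm _ um⟩, L.an x hx.2⟩) (by
          refine EventuallyEq.trans ?_ (g0 _ x1)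
          filter_upwards [((cn_open _ _ _ _ _).prod isOpen_ball).mem_nhds
            (show ((⟨s, 3 * κ / 8⟩ : ℂ), (u : ℂ)) ∈ _ ×ˢ _ from ⟨x0, wm _ um⟩),
            (continuous_im.comp continuous_fst).continuousAt.eventually (gt_mem_nhds
              (show (⟨s, 3 * κ / 8⟩ : ℂ).im < κ / 2 by simp only; linarith))] with q q1 q2
          exact ch.eq _ q1.1 q2 _ q1.2)
      have a8 : b ≤ 1 := by linarith
      obtain ⟨T', Y', k1, k2⟩ := up hRL hL hTu hU hN hTw (F₀ := Z)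
        (F₁ := fun q => Z (q.1 + q.2, q.2)) (x₁ := ⟨s, T⟩) N C A hB u0 u4
        (hδ u (by rw [abs_of_pos u0]; linarith) (by rwa [abs_of_pos u0])) L rfl u0
        (fun q hq => ch_an ch _ ⟨m0 _ hq.1, wm _ hq.2⟩)
        (fun q hq => AnalyticAt.comp (g := Z) (f := fun q : ℂ × ℂ => (q.1 + q.2, q.2))
          (ch_an ch _ ⟨m1 _ hq.1 _ hq.2, wm _ hq.2⟩)
          ((analyticAt_fst.add analyticAt_snd).prod analyticAt_snd))
        (fun q hq => ch_mem ch a8 (by positivity) κ0 (m0 _ hq.1) (wm _ hq.2))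
        (fun q hq => ch_mem ch a8 (by positivity) κ0 (m1 _ hq.1 _ hq.2) (wm _ hq.2))
        fun x hx => ⟨g1 x ⟨m0 x hx.1, hx.2⟩, (Continuous.tendsto
          (f := fun q : ℂ × ℂ => (q.1 + q.2, q.2)) (by fun_prop) (x, (u : ℂ))).eventually
            (g1 (x + u) ⟨m1 x hx.1 _ um, by simpa [Strip] using hx.2⟩)⟩
      exact hmax T' Y' k1 k2
    exact ⟨fun x => Ym (x, u), fun x hx => (AnalyticAt.comp (g := Ym)
      (f := fun x : ℂ => (x, (u : ℂ))) (L.an x (lt_of_lt_of_le hx T2))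
      (analyticAt_id.prod analyticAt_const)).differentiableAt.differentiableWithinAt,
      fun x hx => L.mem x (lt_of_lt_of_le hx T2), fun x hx => (g0 x hx).eq_of_nhds.symm⟩
  refine ⟨16 * l, u₀, by positivity, v0, by linarith, v3, fun u hu => ?_⟩
  rcases lt_trichotomy u 0 with k | k | k
  · rw [abs_of_neg k] at hu ⊢
    obtain ⟨y, y1, y2, y3⟩ := pos (-u) (by linarith) hu
    refine ⟨y, y1, y2, fun x hx => ?_⟩
    rw [y3 x hx, ofReal_neg]
    exact S.ev _ (mem u (by rw [abs_of_neg k]; linarith) x hx)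
  · subst k
    refine ⟨id, differentiableOn_id, fun x hx => by simpa using hx, fun x hx => ?_⟩
    have := S.bd _ (mem 0 (by simpa using κ0) x hx)
    simp only [ofReal_zero, norm_zero, norm_le_zero_iff, sub_eq_zero] at this
    rw [ofReal_zero, this, id]
  · rw [abs_of_pos k] at hu ⊢
    exact pos u k hu

end Vale.Agent.P097S
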