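import Vale.Agent.P097S.Defs

/-!
# P097S: good points with aperture `3`
-/

set_option linter.all false

namespace Vale.Agent.P097S

open Vale.Agent.P097N

/-- good points, wide cone -/
def Gd3 (r : ℝ) (θ Q : ℂ → ℂ) (A : ℝ) (y : ℂ) : Prop := Kc r θ Q y.re 3 ((r - |y.im|) / 16) A

/-- bounds on the boxes above a wide cone -/
def BX (r : ℝ) (θ Q : ℂ → ℂ) : Prop := ∀ A R : ℝ, 1 ≤ A → 1 ≤ R → ∃ B d₀ : ℝ, 0 < d₀ ∧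
  ∀ s d : ℝ, 0 < d → d ≤ d₀ → Kc r θ Q s 3 (d / 16) A → ∀ y ∈ Box r s d (2 * R),
    ‖deriv θ y‖ * d ≤ B ∧ ‖Q y‖ * d ^ 2 ≤ B

def Spec_NCL3 : Prop := ∀ θ h Q Y c r κ, Dt θ h Q Y c r κ → Sym θ Q Y r κ → CB θ h Q Y r κ →
  BX r θ Q → ¬ Over1 θ r → NCL r (deriv θ) Q (Gd3 r θ Q)

theorem Kc.narrow {r s a a' d A : ℝ} {θ Q : ℂ → ℂ} (h : Kc r θ Q s a d A) (hd : 0 ≤ d)
    (e : a' ≤ a) : Kc r θ Q s a' d A := fun y hy => h y ⟨hy.1, hy.2.1, hy.2.2.trans_le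
      (mul_le_mul_of_nonneg_right e (hd.trans hy.2.1.le))⟩

end Vale.Agent.P097S
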