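import Vale.Agent.P097S.Brg
import Vale.Agent.P097S.Mb0
import Vale.Agent.P097S.MbDefs

/-!
# P097S: from the moment block to the majorant of the core
-/

set_option linter.all false

noncomputable section

namespace Vale.Agent.P097S

open Filter Topology Set Metric Vale.Agent.P097N
open Vale.Agent.P097C (dd)
open Vale.Agent.P097M (Gs)
open Brg (kc_mono idx loc band)

namespace Mb

variable {r κ s a d d' A A' R : ℝ} {θ Q : ℂ → ℂ} {Y : ℂ × ℂ → ℂ} {y : ℂ}

/-- few bad wide cones at each level -/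
def Cnt3 (r : ℝ) (θ Q : ℂ → ℂ) : Prop := ∀ p : ℕ, ∃ C : ℝ, ∀ (n : ℕ) (A : ℝ), 1 ≤ A →
  ∃ B : Finset ℝ, B.card * A ^ p ≤ C * 2 ^ n ∧ ∀ s d : ℝ, 1 / 2 ^ (n + 1) ≤ d → d ≤ 1 / 2 ^ n →
    ¬ Kc r θ Q s 3 (d / 16) A → ∃ b ∈ B, ∃ k : ℤ, |s - k - b| ≤ 1 / 2 ^ n

theorem gd3_mono (hy : y ∈ St r) (h : Gd3 r θ Q A y) (hA : 0 ≤ A) (e : A ≤ A') :
    Gd3 r θ Q A' y :=
  kc_mono (R := 1) h (by have : |y.im| < r := hy; linarith) le_rfl (by simp) le_rfl hA (by simpa)

theorem narrow (hy : y ∈ St r) (h : Gd3 r θ Q A y) : Gd r θ Q A y :=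
  Kc.narrow h (by have : |y.im| < r := hy; linarith) (by norm_num)

/-- a bad cone contains a point with a large size -/
theorem bad (hd : 0 < d) (h : ¬ Kc r θ Q s a d A) : ∃ y ∈ Cn r s a d 0,
    A ^ 4 * (r - y.im) < (Gs (deriv θ) Q y * (r - y.im) ^ 2) ^ 2 * d := by
  by_contra! hc
  refine h fun y hy => ⟨le_trans ?_ (hc y hy), le_trans ?_ (hc y hy)⟩ <;>
    refine mul_le_mul_of_nonneg_right ?_ hd.le
  · rw [show (‖deriv θ y‖ * (r - y.im)) ^ 4 = (‖deriv θ y‖ ^ 2 * (r - y.im) ^ 2) ^ 2 by ring]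
    unfold Gs
    gcongr
    exact le_add_of_nonneg_right (norm_nonneg _)
  · unfold Gs
    gcongr
    exact le_add_of_nonneg_left (sq_nonneg _)

theorem cnt3 (hr : 0 < r) (hM : P097M.Mom r (deriv θ) Q) : Cnt3 r θ Q := by
  classical
  intro p
  obtain ⟨C, hC⟩ := hM (p + 1)
  obtain ⟨m, hm⟩ := pow_unbounded_of_one_lt (32 * r) (show (1 : ℝ) < 2 by norm_num)
  obtain ⟨c, hc⟩ : ∃ c : ℝ, c = 8 * r / 2 ^ m := ⟨_, rfl⟩
  have c0 : 0 < c := by rw [hc]; positivity
  have c1 : c ≤ 1 := by rw [hc, div_le_one (by positivity)]; linarith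
  obtain ⟨W, hW⟩ := exists_nat_ge (3 * r + 1)
  have W1 : (1 : ℝ) ≤ W := by linarith
  refine ⟨|C| * 2 ^ m * (3 * W) / c ^ (p + 1) * 5, fun n A A1 => ?_⟩
  choose I I1 I2 using fun i : ℕ => hC (n + m - i) (max 1 (c * A ^ 2 * (5 / 4) ^ i)) (le_max_left _ _)
  refine ⟨(Finset.range (n + m + 1)).biUnion fun i =>
    (I i ×ˢ Finset.Icc (-(W * 2 ^ i : ℤ)) (W * 2 ^ i)).image fun q => q.1 + q.2 / 2 ^ n, ?_,
    fun s d d1 d2 h => ?_⟩
  · have k1 : ∀ i ∈ Finset.range (n + m + 1), (((I i ×ˢ Finset.Icc (-(W * 2 ^ i : ℤ))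
        (W * 2 ^ i)).image fun q : ℝ × ℤ => q.1 + q.2 / 2 ^ n).card : ℝ) * A ^ p ≤
        |C| * 2 ^ m * (3 * W) / c ^ (p + 1) * 2 ^ n * (4 / 5) ^ i := fun i hi => by
      have hi' : i ≤ n + m := Nat.lt_succ_iff.1 (Finset.mem_range.1 hi)
      have p2 : (1 : ℝ) ≤ W * 2 ^ i := one_le_mul_of_one_le_of_one_le W1 (one_le_pow₀ one_le_two)
      have e1 : (((I i ×ˢ Finset.Icc (-(W * 2 ^ i : ℤ)) (W * 2 ^ i)).image
          fun q : ℝ × ℤ => q.1 + q.2 / 2 ^ n).card : ℝ) ≤ (I i).card * (3 * W * 2 ^ i) := by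
        refine (Nat.cast_le.2 Finset.card_image_le).trans ?_
        rw [Finset.card_product, Int.card_Icc, Nat.cast_mul,
          show (W * 2 ^ i + 1 - -(W * 2 ^ i) : ℤ) = (2 * (W * 2 ^ i) + 1 : ℕ) by push_cast; ring,
          Int.toNat_natCast]
        push_cast
        exact mul_le_mul_of_nonneg_left (by linarith) (by positivity)
      have e2 : c ^ (p + 1) * A ^ p * (5 / 4) ^ i ≤ max 1 (c * A ^ 2 * (5 / 4) ^ i) ^ (p + 1) := by
        refine le_trans ?_ (pow_le_pow_left₀ (by positivity) (le_max_right _ _) _)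
        rw [mul_pow, mul_pow, ← pow_mul]
        exact mul_le_mul (mul_le_mul_of_nonneg_left (pow_le_pow_right₀ A1 (by omega))
          (by positivity)) (le_self_pow₀ (one_le_pow₀ (by norm_num)) (by omega)) (by positivity)
          (by positivity)
      have e3 := (I1 i).trans (div_le_div₀ (abs_nonneg C) (le_abs_self C) (by positivity) e2)
      rw [le_div_iff₀ (by positivity)] at e3
      have e4 : (2 : ℝ) ^ i = (1 / 2) ^ (n + m - i) * (2 ^ n * 2 ^ m) := by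
        rw [← pow_add, one_div, inv_pow, eq_inv_mul_iff_mul_eq₀ (by positivity), ← pow_add,
          Nat.sub_add_cancel hi']
      have e5 : ((4 : ℝ) / 5) ^ i = ((5 / 4) ^ i)⁻¹ := by rw [← inv_pow]; norm_num
      refine (mul_le_mul_of_nonneg_right e1 (by positivity)).trans ?_
      rw [e4, e5]
      refine le_trans (le_of_eq ?_) ((mul_le_mul_of_nonneg_right e3 (show 0 ≤ 2 ^ m * (3 * W) /
        c ^ (p + 1) * 2 ^ n * ((5 / 4 : ℝ) ^ i)⁻¹ by positivity)).trans_eq (by ring))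
      field_simp
    refine (mul_le_mul_of_nonneg_right (Nat.cast_le.2 Finset.card_biUnion_le)
      (by positivity)).trans ?_
    rw [Nat.cast_sum, Finset.sum_mul]
    refine (Finset.sum_le_sum k1).trans ?_
    rw [← Finset.mul_sum, mul_right_comm _ (5 : ℝ)]
    refine mul_le_mul_of_nonneg_left ?_ (by positivity)
    have := (summable_geometric_of_lt_one (r := (4 / 5 : ℝ)) (by norm_num) (by norm_num)).sum_le_tsum
      (Finset.range (n + m + 1)) fun i _ => by positivity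
    rw [tsum_geometric_of_lt_one (by norm_num) (by norm_num)] at this
    exact this.trans (by norm_num)
  have d0 : 0 < d := lt_of_lt_of_le (by positivity) d1
  obtain ⟨y, ⟨y1, y2, y3⟩, y4⟩ := bad (by positivity) h
  have hy : y ∈ St r := show |y.im| < r by rw [abs_of_pos y1]; linarith
  obtain ⟨j, hj⟩ := P097K.exists_lv hr hy
  obtain ⟨j1, j2⟩ := id hj
  rw [abs_of_pos y1, one_div, inv_pow, ← div_eq_mul_inv] at j1 j2
  have t0 : 0 < r - y.im := by linarith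
  have n0 : (0 : ℝ) < 2 ^ n := by positivity
  have q0 : (0 : ℝ) < 2 ^ j := by positivity
  have hjn : j ≤ n + m := by
    refine (pow_le_pow_iff_right₀ (show (1 : ℝ) < 2 by norm_num)).1 ?_
    rw [div_le_iff₀ (by positivity), pow_succ] at d1
    rw [le_div_iff₀ q0] at j2
    have u1 : d * 2 ^ j ≤ 16 * r := by nlinarith
    rw [pow_add]
    nlinarith [mul_le_mul_of_nonneg_right d1 q0.le, mul_le_mul_of_nonneg_right u1 n0.le,
      mul_le_mul_of_nonneg_left hm.le n0.le]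
  obtain ⟨i, hi⟩ := Nat.exists_eq_add_of_le hjn
  have e0 : n + m - i = j := by omega
  have e1 : (2 : ℝ) ^ j * 2 ^ i = 2 ^ n * 2 ^ m := by rw [← pow_add, ← hi, pow_add]
  have A4 := one_le_pow₀ A1 (n := 4)
  obtain ⟨x, hx, k, h1⟩ := I2 i y ⟨hy, by
    rw [abs_of_pos y1]
    have G0 : 0 ≤ Gs (deriv θ) Q y * (r - y.im) ^ 2 := by unfold Gs; positivity
    generalize Gs (deriv θ) Q y * (r - y.im) ^ 2 = G at y4 G0
    refine max_le ?_ ?_ <;> refine le_of_pow_le_pow_left₀ two_ne_zero G0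
      (le_of_mul_le_mul_right (le_trans ?_ y4.le) (show 0 < d / 16 by positivity))
    · nlinarith
    · have u1 : c * 2 ^ i * (d / 16) ≤ r - y.im := by
        refine le_trans (mul_le_mul_of_nonneg_left (div_le_div_of_nonneg_right d2 (by norm_num))
          (by positivity)) (le_trans (le_of_eq ?_) j1.le)
        rw [hc, pow_succ]
        field_simp
        linarith
      have u2 : ((5 / 4 : ℝ) ^ i) ^ 2 ≤ 2 ^ i := by
        rw [← pow_mul, mul_comm, pow_mul]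
        exact pow_le_pow_left₀ (by norm_num) (by norm_num) i
      have u3 : c ^ 2 * ((5 / 4 : ℝ) ^ i) ^ 2 ≤ c * 2 ^ i :=
        mul_le_mul (by nlinarith) u2 (by positivity) c0.le
      calc _ = A ^ 4 * (c ^ 2 * ((5 / 4 : ℝ) ^ i) ^ 2 * (d / 16)) := by ring
        _ ≤ A ^ 4 * (c * 2 ^ i * (d / 16)) := by gcongr
        _ ≤ _ := by gcongr⟩ (by rwa [e0])
  rw [e0, one_div, inv_pow] at h1
  have h2 : |(s - k - x) * 2 ^ n| ≤ W * 2 ^ i := by
    have u1 : |s - k - x| ≤ W / 2 ^ j := by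
      have u := abs_sub_le (s - k - x) (y.re - k - x) 0
      rw [sub_zero, sub_zero, show s - k - x - (y.re - k - x) = -(y.re - s) by ring, abs_neg] at u
      refine u.trans (le_trans ?_ (div_le_div_of_nonneg_right hW q0.le))
      rw [add_div, one_div, mul_div_assoc]
      linarith
    rw [abs_mul, abs_of_pos n0]
    refine (mul_le_mul_of_nonneg_right u1 n0.le).trans ?_
    rw [div_mul_eq_mul_div, div_le_iff₀ q0, mul_assoc, mul_comm _ (2 ^ j), e1]
    exact mul_le_mul_of_nonneg_left (le_mul_of_one_le_right n0.le (one_le_pow₀ one_le_two))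
      (by positivity)
  obtain ⟨h3, h4⟩ := abs_le.1 h2
  refine ⟨x + (⌊(s - k - x) * 2 ^ n⌋ : ℤ) / 2 ^ n, Finset.mem_biUnion.2 ⟨i, Finset.mem_range.2
    (by omega), Finset.mem_image.2 ⟨(x, _), Finset.mem_product.2 ⟨hx, Finset.mem_Icc.2
      ⟨Int.le_floor.2 (by exact_mod_cast h3), Int.cast_le (R := ℝ).1
        ((Int.floor_le _).trans (by exact_mod_cast h4))⟩⟩, rfl⟩⟩, k, ?_⟩
  rw [show s - k - (x + (⌊(s - k - x) * 2 ^ n⌋ : ℤ) / 2 ^ n) = Int.fract ((s - k - x) * 2 ^ n) / 2 ^ n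
    by rw [Int.fract]; field_simp; ring, abs_div, abs_of_pos n0, abs_of_nonneg (Int.fract_nonneg _)]
  exact div_le_div_of_nonneg_right (Int.fract_lt_one _).le n0.le

/-- moments of the boxes -/
theorem mom (hr : 0 < r) (hC : Cnt3 r θ Q) (p : ℕ) : ∃ C : ℝ, ∀ k : ℕ, ∃ b : ℕ → ℝ,
    (∀ i, 1 ≤ b i) ∧ ∑ i ∈ Finset.range (2 ^ k), b i ^ p ≤ C * 2 ^ k ∧
    ∀ y ∈ St r, P097K.Band r k y → Gd3 r θ Q (b ⌊Int.fract y.re * 2 ^ k⌋₊) y := by
  classical
  obtain ⟨C, hC⟩ := hC (p + 1)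
  obtain ⟨m, hm⟩ := pow_unbounded_of_one_lt (2 / r) (show (1 : ℝ) < 2 by norm_num)
  rw [div_lt_iff₀ hr] at hm
  set R := 2 ^ m * r with hR
  have R1 : 1 ≤ R := by linarith
  refine ⟨R ^ p * (1 + 6 * 2 ^ p * (C * 2 ^ m)), fun k => ?_⟩
  choose B b1 b2 using fun j : ℕ => hC (k + m) (2 ^ j) (one_le_pow₀ (by norm_num))
  let T : ℕ → Finset ℕ := fun j => (B j ×ˢ Finset.Icc (-1 : ℤ) 1).image
    fun q => ((⌊q.1 * 2 ^ k⌋ + q.2) % 2 ^ k).toNat
  have T1 : ∀ j, ((T j).card : ℝ) * (2 ^ j) ^ (p + 1) ≤ 3 * (C * 2 ^ (k + m)) := fun j => by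
    have : (T j).card ≤ (B j).card * 3 := Finset.card_image_le.trans (by simp)
    have h2 : ((T j).card : ℝ) ≤ (B j).card * 3 := by exact_mod_cast this
    have := mul_le_mul_of_nonneg_right h2 (show (0 : ℝ) ≤ (2 ^ j) ^ (p + 1) by positivity)
    linarith [b1 j]
  obtain ⟨J, hJ⟩ := pow_unbounded_of_one_lt (3 * (C * 2 ^ (k + m))) (show (1 : ℝ) < 2 by norm_num)
  have TJ : T J = ∅ := by
    by_contra h
    have h1 : (1 : ℝ) ≤ (T J).card := by
      exact_mod_cast Finset.card_pos.2 (Finset.nonempty_iff_ne_empty.2 h)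
    have h2 : (2 : ℝ) ^ J ≤ (2 ^ J) ^ (p + 1) := le_self_pow₀ (one_le_pow₀ (by norm_num)) (by omega)
    nlinarith [T1 J, show (0 : ℝ) < 2 ^ J by positivity]
  have ex : ∀ i, ∃ j, i ∉ T j := fun i => ⟨J, by simp [TJ]⟩
  refine ⟨fun i => R * 2 ^ Nat.find (ex i), fun i => one_le_mul_of_one_le_of_one_le R1
    (one_le_pow₀ (by norm_num)), ?_, fun y hy hB => ?_⟩
  · have s1 : ∀ i, ((2 : ℝ) ^ Nat.find (ex i)) ^ p ≤
        1 + ∑ j ∈ Finset.range J, if i ∈ T j then (2 ^ (j + 1)) ^ p else 0 := fun i => by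
      have n0 : ∀ j ∈ Finset.range J, (0 : ℝ) ≤ if i ∈ T j then (2 ^ (j + 1)) ^ p else 0 :=
        fun j _ => by split_ifs <;> positivity
      rcases h : Nat.find (ex i) with _ | j
      · simpa using Finset.sum_nonneg n0
      · have h1 : i ∈ T j := by simpa using Nat.find_min (ex i) (m := j) (by omega)
        have h2 : Nat.find (ex i) ≤ J := Nat.find_min' _ (by simp [TJ])
        have := Finset.single_le_sum n0 (Finset.mem_range.2 (show j < J by omega))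
        rw [if_pos h1] at this
        linarith
    have s2 : ∀ j, ∑ i ∈ Finset.range (2 ^ k), (if i ∈ T j then ((2 : ℝ) ^ (j + 1)) ^ p else 0) ≤
        3 * 2 ^ p * (C * 2 ^ (k + m)) * (1 / 2) ^ j := fun j => by
      rw [Finset.sum_ite_mem, Finset.sum_const, nsmul_eq_mul]
      have h1 : ((Finset.range (2 ^ k) ∩ T j).card : ℝ) ≤ (T j).card := by
        exact_mod_cast Finset.card_le_card Finset.inter_subset_right
      refine (mul_le_mul_of_nonneg_right h1 (by positivity)).trans ?_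
      have := mul_le_mul_of_nonneg_right (T1 j) (show (0 : ℝ) ≤ 2 ^ p * (1 / 2) ^ j by positivity)
      refine le_trans (le_of_eq ?_) (this.trans_eq (by ring))
      rw [one_div, inv_pow, pow_succ 2 j, mul_pow, pow_succ _ p]
      field_simp
    have C0 : 0 ≤ C * 2 ^ (k + m) := le_trans (by positivity) (b1 0)
    simp only [mul_pow]
    rw [← Finset.mul_sum, mul_assoc]
    refine mul_le_mul_of_nonneg_left ((Finset.sum_le_sum fun i _ => s1 i).trans ?_) (by positivity)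
    rw [Finset.sum_add_distrib, Finset.sum_comm]
    have s3 := Finset.sum_le_sum fun j (_ : j ∈ Finset.range J) => s2 j
    rw [← Finset.mul_sum] at s3
    have s4 := mul_le_mul_of_nonneg_left (sum_geometric_two_le J)
      (show 0 ≤ 3 * 2 ^ p * (C * 2 ^ (k + m)) by positivity)
    simp only [Finset.sum_const, Finset.card_range, nsmul_eq_mul, mul_one]
    push_cast
    rw [pow_add] at s3 s4
    linarith
  · set i := ⌊Int.fract y.re * 2 ^ k⌋₊
    have k1 : Kc r θ Q y.re 3 (1 / 2 ^ (k + m) / 16) (2 ^ Nat.find (ex i)) := by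
      by_contra h
      obtain ⟨b, hb, m', h1⟩ := b2 _ y.re _ (one_div_le_one_div_of_le (by positivity)
        (pow_le_pow_right₀ (by norm_num) (Nat.le_succ _))) le_rfl h
      obtain ⟨e, he, h2⟩ := idx k (h1.trans (one_div_le_one_div_of_le (by positivity)
        (pow_le_pow_right₀ (by norm_num) (Nat.le_add_right _ _))))
      exact Nat.find_spec (ex i)
        (Finset.mem_image.2 ⟨(b, e), Finset.mem_product.2 ⟨hb, he⟩, h2.symm⟩)
    refine kc_mono k1 (by positivity) ?_ ?_ R1 (by positivity) le_rfl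
    · refine div_le_div_of_nonneg_right (le_trans ?_ hB.1) (by norm_num)
      rw [div_le_div_iff₀ (by positivity) (by positivity), pow_succ, pow_add]
      nlinarith [show (0 : ℝ) < 2 ^ k by positivity]
    · rw [← mul_div_assoc]
      refine div_le_div_of_nonneg_right (hB.2.trans_eq ?_) (by norm_num)
      rw [hR, pow_add]
      field_simp

end Mb

/-- the bound on the boxes -/
theorem bx {r : ℝ} {θ Q : ℂ → ℂ} (hr : 0 < r) (H : P097M.SupAll r (deriv θ) Q) : BX r θ Q := by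
  intro A R A1 R1
  obtain ⟨C₁, τ₀, τ0, H⟩ := H
  obtain ⟨n, hn⟩ := exists_nat_ge R
  obtain ⟨A₀, H⟩ := H n (by exact_mod_cast R1.trans hn)
  obtain ⟨M, M1, M2⟩ : ∃ M : ℝ, A₀ ≤ M ∧ 128 * R * A ≤ M := ⟨_, le_max_left _ _, le_max_right _ _⟩
  refine ⟨4 * R ^ 2 * (1 + C₁ * M ^ 2), τ₀ / (2 * R), by positivity, fun s d d0 d1 K y hy => ?_⟩
  obtain ⟨y1, y2, y3⟩ := hy
  have Rd : d ≤ R * d := le_mul_of_one_le_left d0.le R1
  have t0 : 0 < r - y.im := lt_trans (by positivity) y2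
  have k := H y.re (2 * R * d) M (by positivity) (by rwa [le_div_iff₀' (by positivity)] at d1) M1
    (fun z z1 z2 z3 => by
      obtain ⟨k1, k2⟩ := K z ⟨by linarith, by linarith, by linarith [abs_sub_le z.re y.re s]⟩
      have z0 : 0 ≤ r - z.im := by linarith
      have e : 128 * R * A ^ 4 ≤ M ^ 4 := by
        refine le_trans ?_ (pow_le_pow_left₀ (by positivity) M2 4)
        rw [mul_pow]
        exact mul_le_mul_of_nonneg_right (le_self_pow₀ (by linarith) (by norm_num)) (by positivity)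
      have e1 : (Gs (deriv θ) Q z * (r - z.im) ^ 2) ^ 2 ≤
          2 * (‖deriv θ z‖ * (r - z.im)) ^ 4 + 2 * (‖Q z‖ * (r - z.im) ^ 2) ^ 2 := by
        unfold Gs
        nlinarith [sq_nonneg (‖deriv θ z‖ ^ 2 * (r - z.im) ^ 2 - ‖Q z‖ * (r - z.im) ^ 2)]
      have e2 := mul_le_mul_of_nonneg_right e1 (show 0 ≤ 2 * R * d by positivity)
      have e3 := mul_le_mul_of_nonneg_left (add_le_add k1 k2) (show 0 ≤ 64 * R by positivity)
      linarith [mul_le_mul_of_nonneg_right e z0])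
    y (by rw [sub_self, abs_zero]; positivity) (by
      refine le_trans ?_ y2.le
      have n0 : (0 : ℝ) < n := by linarith
      rw [div_le_div_iff₀ (by positivity) (by positivity)]
      nlinarith [mul_le_mul_of_nonneg_left (pow_le_pow_left₀ (by linarith) hn 2) d0.le])
    (by linarith)
  rw [div_lt_iff₀ (by positivity)] at y2
  unfold Gs at k
  have a1 := sq_nonneg (‖deriv θ y‖ * (r - y.im))
  have a2 : 0 ≤ ‖Q y‖ * (r - y.im) ^ 2 := by positivity
  have a3 : ‖deriv θ y‖ * (r - y.im) ≤ 1 + C₁ * M ^ 2 := by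
    nlinarith [sq_nonneg (‖deriv θ y‖ * (r - y.im) - 1)]
  have a4 : ‖Q y‖ * (r - y.im) ^ 2 ≤ 1 + C₁ * M ^ 2 := by nlinarith
  constructor
  · calc _ ≤ ‖deriv θ y‖ * ((r - y.im) * (2 * R)) := by gcongr
      _ = 2 * R * (‖deriv θ y‖ * (r - y.im)) := by ring
      _ ≤ _ := mul_le_mul (by nlinarith) a3 (by positivity) (by positivity)
  · calc _ ≤ ‖Q y‖ * ((r - y.im) * (2 * R)) ^ 2 := by gcongr
      _ = 4 * R ^ 2 * (‖Q y‖ * (r - y.im) ^ 2) := by ring
      _ ≤ _ := by gcongr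

open Mb in
/-- the majorant -/
theorem kap {r κ₀ : ℝ} {θ Q : ℂ → ℂ} {Y : ℂ × ℂ → ℂ} (hr : 0 < r)
    (cg : ContinuousOn (deriv θ) (St r)) (cQ : ContinuousOn Q (St r)) (hS : Sym θ Q Y r κ₀)
    (hM : P097M.Mom r (deriv θ) Q) (hN : NCL r (deriv θ) Q (Gd3 r θ Q)) : ∃ κ : ℂ → ℝ,
      P097K.Maj r (deriv θ) Q κ ∧ P097K.Mom r κ ∧ P097K.NCL r (deriv θ) Q κ := by
  have hC := cnt3 hr hM
  let S : ℂ → Set ℝ := fun y => {A | 1 ≤ A ∧ Gd3 r θ Q A y}
  have S0 : ∀ y, 0 ≤ sInf (S y) := fun y => Real.sInf_nonneg fun A hA => zero_le_one.trans hA.1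
  have S1 : ∀ y ∈ St r, Gd3 r θ Q (sInf (S y) + 1) y := fun y hy => by
    obtain ⟨C, h⟩ := Mb.mom hr hC 0
    obtain ⟨k, hk⟩ := band hr hy
    obtain ⟨b, b1, -, b2⟩ := h k
    obtain ⟨A, hA, h1⟩ := exists_lt_of_csInf_lt (s := S y) ⟨_, b1 _, b2 y hy hk⟩
      (lt_add_one (sInf (S y)))
    exact gd3_mono hy hA.2 (zero_le_one.trans hA.1) h1.le
  refine ⟨fun y => 6 * (sInf (S y) + 1), ⟨fun y => by linarith [S0 y], fun y hy z hz =>
    loc cg cQ hS hy (narrow hy (S1 y hy)) (by linarith [S0 y]) hz⟩, fun p => ?_, fun C₀ => ?_⟩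
  · obtain ⟨C, h⟩ := Mb.mom hr hC p
    refine ⟨12 ^ p * C, fun k => ?_⟩
    obtain ⟨b, b1, b2, b3⟩ := h k
    refine ⟨fun i => 12 * b i, fun i => by linarith [b1 i], ?_, fun y hy hB => ?_⟩
    · simp only [mul_pow]
      rw [← Finset.mul_sum, mul_assoc]
      exact mul_le_mul_of_nonneg_left b2 (by positivity)
    · have := csInf_le (s := S y) ⟨1, fun A hA => hA.1⟩ ⟨b1 _, b3 y hy hB⟩
      linarith [b1 ⌊Int.fract y.re * 2 ^ k⌋₊]
  · obtain ⟨e, d, e0, d0, h⟩ := hN C₀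
    exact ⟨e, d, e0, d0, fun y hy h1 h2 => h y hy h2
      (gd3_mono hy (S1 y hy) (by linarith [S0 y]) (by linarith [S0 y]))⟩

end Vale.Agent.P097S
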