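import Vale.Agent.P097S.Defs2
import Vale.Agent.P097L.OverL

/-!
# P097S: no calm disc when the sizes are bounded on a box
-/

set_option linter.all false

noncomputable section

namespace Vale.Agent.P097S

open Filter Topology Set Metric Vale.Agent.P097N Vale.Agent.P097L
open Vale.Agent.P097C (dd)

namespace Ng

theorem cn_open (r s a d b : ℝ) : IsOpen (Cn r s a d b) := by
  refine IsOpen.and ?_ (IsOpen.and ?_ ?_) <;> exact isOpen_lt (by fun_prop) (by fun_prop)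

theorem cn_convex (r s a d b : ℝ) : Convex ℝ (Cn r s a d b) := by
  intro x hx y hy u v hu hv e
  obtain rfl : v = 1 - u := by linarith
  have key : ∀ p q : ℝ, 0 < p → 0 < q → 0 < u * p + (1 - u) * q := fun p q hp hq => by
    rcases hu.eq_or_lt with rfl | k
    · simpa using hq
    · nlinarith [mul_pos k hp, mul_nonneg hv hq.le]
  obtain ⟨a1, a2, a3⟩ := hx
  obtain ⟨b1, b2, b3⟩ := hy
  rw [abs_lt] at a3 b3
  have k1 := key _ _ (sub_pos.2 a1) (sub_pos.2 b1)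
  have k2 := key _ _ (sub_pos.2 a2) (sub_pos.2 b2)
  have k3 := key _ _ (sub_pos.2 a3.1) (sub_pos.2 b3.1)
  have k4 := key _ _ (sub_pos.2 a3.2) (sub_pos.2 b3.2)
  simp only [Cn, mem_setOf_eq, Complex.add_im, Complex.add_re, Complex.smul_im, Complex.smul_re,
    smul_eq_mul, abs_lt]
  exact ⟨by linarith, by linarith, by linarith, by linarith⟩

variable {θ h Q : ℂ → ℂ} {Y : ℂ × ℂ → ℂ} {r κ : ℝ}

/-- two charts agree -/
theorem agree {s s' a d d' ρ ρ' : ℝ} {Z Z' : ℂ × ℂ → ℂ} (κ0 : 0 < κ) (a0 : 0 ≤ a)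
    (H : Ch θ h Y r κ s a d ρ Z) (H' : Ch θ h Y r κ s' a d' ρ' Z') {x w : ℂ}
    (hx : x ∈ Cn r s a d (κ / 4)) (hx' : x ∈ Cn r s' a d' (κ / 4)) (hw : w ∈ ball (0 : ℂ) ρ)
    (hw' : w ∈ ball (0 : ℂ) ρ') : Z (x, w) = Z' (x, w) := by
  have o := (cn_open r s a d (κ / 4)).inter (cn_open r s' a d' (κ / 4))
  have D := DifferentiableOn.analyticOnNhd (H.dZ.comp (f := fun y : ℂ => (y, w)) (by fun_prop)
    fun y hy => ⟨inter_subset_left hy, hw⟩) o
  have D' := DifferentiableOn.analyticOnNhd (H'.dZ.comp (f := fun y : ℂ => (y, w)) (by fun_prop)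
    fun y hy => ⟨inter_subset_right hy, hw'⟩) o
  have dn : ∀ {s d : ℝ}, x ∈ Cn r s a d (κ / 4) →
      (⟨x.re, min x.im (3 * κ / 8)⟩ : ℂ) ∈ Cn r s a d (κ / 4) := fun {s d} k => by
    have := min_le_left x.im (3 * κ / 8)
    exact ⟨lt_min k.1 (by linarith), k.2.1.trans_le (sub_le_sub_left this r),
      k.2.2.trans_le (mul_le_mul_of_nonneg_left (sub_le_sub_left this r) a0)⟩
  refine D.eqOn_of_preconnected_of_eventuallyEq D'
    ((cn_convex ..).inter (cn_convex ..)).isPreconnected ⟨dn hx, dn hx'⟩ ?_ ⟨hx, hx'⟩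
  filter_upwards [o.mem_nhds ⟨dn hx, dn hx'⟩, (isOpen_lt Complex.continuous_im
    continuous_const).mem_nhds (show min x.im (3 * κ / 8) < κ / 2 from
      (min_le_right _ _).trans_lt (by linarith))] with y k k'
  exact (H.eq y k.1 k' w hw).trans (H'.eq y k.2 k' w hw').symm

/-- the charts over all points of a box give the local baseline -/
theorem glue {s d R c₀ A c b : ℝ} (κ0 : 0 < κ) (d0 : 0 < d) (c0 : 0 < c) (c1 : c ≤ b / 2)
    (b1 : b ≤ 1 / 16)
    (c2 : c ≤ c₀ / (16 * A)) (A0 : 0 < A) (hr : 2 * (R * d) + κ ≤ r)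
    (H : ∀ x : ℂ, |x.re - s| < R * d → d < r - x.im → r - x.im < R * d → ∃ Z, Ch θ h Y r κ x.re
      b (8 * ((r - x.im) / 16)) (c₀ * ((r - x.im) / 16) / A) Z) :
    ∃ Z, BlB Z r s d R c (1 / c ^ 2) ∧ LawB θ h Z r s d R c := by
  choose! F hF using H
  have F1 := fun p (hp : p ∈ OmB r s d R c) => hF p.1 hp.1 hp.2.1 hp.2.2.1
  have rad : ∀ x : ℂ, d < r - x.im → c * (r - x.im) ≤ c₀ * ((r - x.im) / 16) / A := fun x k =>
    (mul_le_mul_of_nonneg_right c2 (by linarith)).trans_eq (by field_simp)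
  have mw : ∀ p ∈ OmB r s d R c, p.2 ∈ ball (0 : ℂ) (c₀ * ((r - p.1.im) / 16) / A) := fun p hp =>
    mem_ball_zero_iff.2 (hp.2.2.2.2.trans_le (rad _ hp.2.1))
  have mx : ∀ p ∈ OmB r s d R c, ∀ u : ℂ, ‖u‖ ≤ ‖p.2‖ →
      p.1 + u ∈ Cn r p.1.re b (8 * ((r - p.1.im) / 16)) (κ / 4) := fun p hp u hu => by
    obtain ⟨-, h1, h2, -, h3⟩ := hp
    have h4 := abs_le.1 ((Complex.abs_im_le_norm u).trans hu)
    have h5 := (Complex.abs_re_le_norm u).trans hu
    have h6 : ‖p.2‖ < (r - p.1.im) / 32 := by nlinarith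
    have h7 : ‖p.2‖ < b / 2 * (r - p.1.im) := h3.trans_le (by gcongr; linarith)
    have h8 : b * ((r - p.1.im) / 2) ≤ b * (r - (p.1.im + u.im)) := by
      gcongr <;> linarith
    refine ⟨?_, ?_, ?_⟩ <;> simp only [Complex.add_im, Complex.add_re, add_sub_cancel_left] <;>
      linarith
  have m0 := fun p hp => by simpa only [add_zero] using mx p hp 0 (by simp)
  have ag : ∀ p ∈ OmB r s d R c, ∀ q ∈ OmB r s d R c,
      q.1 ∈ Cn r p.1.re b (8 * ((r - p.1.im) / 16)) (κ / 4) →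
      q.2 ∈ ball (0 : ℂ) (c₀ * ((r - p.1.im) / 16) / A) → F q.1 q = F p.1 q :=
    fun p hp q hq k k' => agree κ0 (by linarith) (F1 q hq) (F1 p hp) (m0 q hq) k (mw q hq) k'
  refine ⟨fun p => F p.1 p, ⟨c0, by positivity, fun p hp => ?_, fun p hp => ?_, fun p hp => ?_⟩,
    fun x w h1 h2 h3 => ?_⟩
  · have o := ((cn_open _ _ _ _ _).prod isOpen_ball).mem_nhds (show p ∈ _ ×ˢ _ from ⟨m0 p hp, mw p hp⟩)
    refine (((F1 p hp).dZ.differentiableAt o).congr_of_eventuallyEq ?_).differentiableWithinAt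
    filter_upwards [o, CL.isOpen_Om.mem_nhds hp] with q k k'
    exact ag p hp q k' k.1 k.2
  · exact (F1 p hp).ev _ (m0 p hp) _ (mw p hp)
  · have b0 := (F1 p hp).bd _ (m0 p hp) _ (mw p hp)
    have t0 : 0 < r - p.1.im := d0.trans hp.2.1
    have b4 := pow_le_pow_left₀ (by positivity) (rad _ hp.2.1) 2
    have b2 : min (b * (r - p.1.im)) κ / 16 ≤ r - p.1.im := by
      nlinarith [min_le_left (b * (r - p.1.im)) κ]
    have b3 := ((mul_le_mul_of_nonneg_left b4 (norm_nonneg _)).trans b0).trans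
      (mul_le_mul_of_nonneg_right b2 (sq_nonneg _))
    show ‖F p.1 (p.1, p.2) - p.1‖ ≤ _
    rw [le_div_iff₀ t0, one_div_mul_eq_div, le_div_iff₀ (by positivity)]
    exact le_of_mul_le_mul_right (by linarith) t0
  · have k1 := mx _ h2 (-w) (by simp)
    have k3 := mx _ h2 w le_rfl
    rw [← sub_eq_add_neg] at k1
    have e1 := ag _ h2 _ h1 k1 (mw _ h2)
    have e3 := ag _ h2 _ h3 k3 (mw _ h2)
    simp only at e1 e3 ⊢
    rw [e1, e3]
    exact (F1 _ h2).law x w (mw _ h2) k1 k3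

theorem kc_mono {s a d A s' a' d' A' : ℝ} (H : Kc r θ Q s a d A) (d0 : 0 < d)
    (hA : d' * A ^ 4 ≤ d * A' ^ 4) (d1 : 0 ≤ d') {y : ℂ} (hy : y ∈ Cn r s a d 0) :
    (‖deriv θ y‖ * (r - y.im)) ^ 4 * d' ≤ A' ^ 4 * (r - y.im) ∧
      (‖Q y‖ * (r - y.im) ^ 2) ^ 2 * d' ≤ A' ^ 4 * (r - y.im) := by
  have t0 : 0 < r - y.im := d0.trans hy.2.1
  have k : ∀ u : ℝ, u * d ≤ A ^ 4 * (r - y.im) → u * d' ≤ A' ^ 4 * (r - y.im) := fun u hu =>
    le_of_mul_le_mul_right (by nlinarith [mul_le_mul_of_nonneg_left hu d1,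
      mul_le_mul_of_nonneg_right hA t0.le]) d0
  exact ⟨k _ (H y hy).1, k _ (H y hy).2⟩

/-- the upper half -/
theorem top {c : ℂ} (D : Dt θ h Q Y c r κ) (B : CB θ h Q Y r κ)
    (N : ¬ Over1 θ r) {A : ℝ} (A1 : 1 ≤ A) : ∃ R : ℝ, 1 < R ∧ ∀ M : ℝ,
      ∃ e d₁ : ℝ, 0 < e ∧ 0 < d₁ ∧ ∀ y : ℂ, y.im < r →
      r - y.im < d₁ → Kc r θ Q y.re 1 ((r - y.im) / 16) A →
      (128 * R * (r - y.im) ≤ r → ∀ z ∈ Box r y.re (r - y.im) (2 * R),
        ‖deriv θ z‖ * (r - y.im) ≤ M ∧ ‖Q z‖ * (r - y.im) ^ 2 ≤ M) →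
      ¬ ∀ z ∈ ball y ((r - y.im) / 8),
        ‖deriv θ z‖ * (r - y.im) ≤ e ∧ ‖Q z‖ * (r - y.im) ^ 2 ≤ e := by
  have κ0 := D.col.hη
  have kr := D.kr
  obtain ⟨b, c₀, b0, b1, c0, B⟩ := B (1 / 2) (by norm_num) (by norm_num)
  set c₁ := min (b / 2) (c₀ / (16 * A)) with hc
  have c1 : 0 < c₁ := by positivity
  obtain ⟨R, e, R1, e0, ov⟩ := overL c1 (show 0 < 1 / c₁ ^ 2 by positivity)
  have R2 : 1 < 256 * R ^ 2 := by nlinarith
  refine ⟨_, R2, fun M => ?_⟩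
  obtain ⟨ε, ε0, calm⟩ := scalmL M (256 * R ^ 2) (min e 1) R2 (lt_min e0 one_pos)
  refine ⟨ε, r / (128 * (256 * R ^ 2)), ε0, by positivity [show 0 < r by linarith],
    fun y y1 y2 K hM H => ?_⟩
  rw [lt_div_iff₀ (by positivity)] at y2
  have t0 : 0 < r - y.im := by linarith
  have t1 : 0 < (r - y.im) * (256 * R ^ 2) := by positivity
  obtain ⟨k1', k2, k3⟩ := calm θ h Q c r y D.cv y1 (by linarith)
    (hM (by linarith)) H
  obtain ⟨d, hd⟩ : ∃ d, d = (r - y.im) / (16 * R) := ⟨_, rfl⟩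
  have d0 : 0 < d := by rw [hd]; positivity
  have ed : r - y.im = 16 * (R * d) := by rw [hd]; field_simp
  rw [ed] at k1' k2 k3 K y2 t1
  have Rd : d < R * d := by nlinarith
  have Rr : 16 * (R * d) ≤ r / 128 := by nlinarith
  have e1 : 16 * (R * d) / (256 * R ^ 2) = d / 16 / R := by
    field_simp
    norm_num
  have e2 : d / 16 / R ≤ d / 16 := div_le_self (by positivity) R1.le
  have e3 : 16 * (R * d) ≤ 256 * R ^ 2 * (16 * (R * d)) := by nlinarith
  have sub : Box r y.re d R ⊆ Box r y.re (16 * (R * d)) (256 * R ^ 2) := fun z hz =>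
    ⟨by linarith [hz.1], by
      rw [e1]
      exact lt_of_le_of_lt (by gcongr; linarith) hz.2.1, by linarith [hz.2.2]⟩
  obtain ⟨Z, bl, lw⟩ := glue (θ := θ) (h := h) (Y := Y) (s := y.re) (R := R) κ0 d0 c1
    (min_le_left _ _) (by linarith) (min_le_right _ _) (by linarith) (by linarith) fun x x1 x2 x3 =>
      B x.re _ _ (by linarith) (by linarith) A1 fun z hz => by
        obtain ⟨z1, z2, z3⟩ := hz
        have z4 := abs_sub_le z.re x.re y.re
        rcases le_or_gt (2 * (R * d)) (r - z.im) with k | k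
        · refine kc_mono (s' := 0) (a' := 0) K (by linarith) ?_ (by linarith)
            ⟨z1, by linarith, by linarith⟩
          exact mul_le_mul_of_nonneg_right (by linarith) (by positivity)
        · obtain ⟨b1, b2⟩ := k2 z ⟨by linarith, by linarith, by linarith⟩
          have z0 : 0 < r - z.im := by linarith
          have m1 := min_le_right e 1
          have g1 : ‖deriv θ z‖ * (r - z.im) ≤ 1 := by
            nlinarith [norm_nonneg (deriv θ z)]
          have g2 : ‖Q z‖ * (r - z.im) ^ 2 ≤ 1 := by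
            have : (r - z.im) ^ 2 ≤ (16 * (R * d)) ^ 2 := by gcongr; linarith
            nlinarith [norm_nonneg (Q z)]
          have g3 : ∀ u : ℝ, u ≤ 1 → u * ((r - x.im) / 16) ≤ A ^ 4 * (r - z.im) :=
            fun u hu => mul_le_mul (hu.trans (one_le_pow₀ A1)) z2.le (by linarith) (by positivity)
          exact ⟨g3 _ (pow_le_one₀ (by positivity) g1), g3 _ (pow_le_one₀ (by positivity) g2)⟩
  exact N (ov θ h Q c r y.re d Z D.cv d0 (by linarith) bl lw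
    (fun b hb b' hb' k => ⟨(k1' b (sub hb) b' (sub hb') (by linarith)).1.trans
      (mul_le_mul_of_nonneg_right (min_le_left _ _) (norm_nonneg _)),
      (k1' b (sub hb) b' (sub hb') (by linarith)).2⟩)
    (fun b hb => le_trans (by gcongr; linarith) ((k2 b (sub hb)).1.trans (min_le_left _ _)))
    fun b hb b' hb' ne k => k3 b (sub hb) b' (sub hb') ne (by linarith))

theorem box_le {a : ℕ} {s t R M : ℝ} (t0 : 0 < t) (R1 : 1 < R) (ha : 2 * R ≤ 2 ^ a)
    (K : Kc r θ Q s (4 ^ a) (t / 2 ^ a) M) (hr : 128 * R * t ≤ r) : ∀ z ∈ Box r s t (2 * R),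
      ‖deriv θ z‖ * t ≤ (2 ^ a) ^ 4 * (|M| + M ^ 2) ∧ ‖Q z‖ * t ^ 2 ≤ (2 ^ a) ^ 4 * (|M| + M ^ 2) := by
  rintro z ⟨z1, z2, z3⟩
  rw [show (4 : ℝ) ^ a = (2 ^ a) ^ 2 by rw [← pow_mul, mul_comm, pow_mul]; norm_num] at K
  generalize (2 : ℝ) ^ a = W at *
  have W1 : 1 ≤ W := by linarith
  have Rt : 0 < R * t := by positivity
  have k1 : t / W < r - z.im := lt_of_le_of_lt (by gcongr) z2
  have τ0 : 0 < r - z.im := lt_trans (by positivity) k1
  have k2 : t < (r - z.im) * W := (div_lt_iff₀ (by positivity)).1 k1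
  have k3 : 2 * R * t ≤ W * t := by gcongr
  obtain ⟨b1, b2⟩ := K z ⟨by linarith, k1, by nlinarith⟩
  generalize r - z.im = τ at *
  have key : ∀ X : ℝ, X * (t / W) ≤ M ^ 4 * τ → X ≤ M ^ 4 * W ^ 4 := fun X hX => by
    rw [← mul_div_assoc, div_le_iff₀ (by positivity)] at hX
    refine le_of_mul_le_mul_right (hX.trans ?_) t0
    have : W ^ 2 ≤ W ^ 4 := pow_le_pow_right₀ W1 (by norm_num)
    calc M ^ 4 * τ * W ≤ M ^ 4 * (W * t) * W := by gcongr; linarith
      _ = M ^ 4 * W ^ 2 * t := by ring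
      _ ≤ _ := by gcongr
  have g1 : ‖deriv θ z‖ * τ ≤ |M| * W := le_of_pow_le_pow_left₀ (n := 4) (by norm_num)
    (by positivity) (by rw [mul_pow |M|, Even.pow_abs (by norm_num)]; exact key _ b1)
  have g2 : ‖Q z‖ * τ ^ 2 ≤ M ^ 2 * W ^ 2 := le_of_pow_le_pow_left₀ (n := 2) (by norm_num)
    (by positivity) ((key _ b2).trans_eq (by ring))
  have W2 : W ^ 2 ≤ W ^ 4 := pow_le_pow_right₀ W1 (by norm_num)
  constructor
  · calc _ ≤ ‖deriv θ z‖ * (τ * W) := by gcongr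
      _ = ‖deriv θ z‖ * τ * W := by ring
      _ ≤ |M| * W * W := by gcongr
      _ = W ^ 2 * |M| := by ring
      _ ≤ _ := by gcongr; linarith [sq_nonneg M]
  · calc _ ≤ ‖Q z‖ * (τ * W) ^ 2 := by gcongr
      _ = ‖Q z‖ * τ ^ 2 * W ^ 2 := by ring
      _ ≤ M ^ 2 * W ^ 2 * W ^ 2 := by gcongr
      _ = W ^ 4 * M ^ 2 := by ring
      _ ≤ _ := by gcongr; linarith [abs_nonneg M]

end Ng

theorem ncl2 : Spec_NCL2 := by
  intro θ h Q Y c r κ D S B N A A1
  obtain ⟨R, R1, H⟩ := Ng.top D B N A1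
  obtain ⟨a, ha⟩ := pow_unbounded_of_one_lt (2 * R) (show (1 : ℝ) < 2 by norm_num)
  refine ⟨a, fun M => ?_⟩
  obtain ⟨e, d₁, e0, d0, H⟩ := H ((2 ^ a) ^ 4 * (|M| + M ^ 2))
  have r0 : 0 < r := by linarith [D.col.hη, D.kr]
  refine ⟨e, r * d₁, e0, by positivity, fun y hy k G W Cm => ?_⟩
  have y1 : |y.im| < r := hy
  have y0 := abs_nonneg y.im
  have k' : r - |y.im| < d₁ := by
    refine lt_of_mul_lt_mul_left (lt_of_le_of_lt ?_ k) r0.le
    rw [dd, ← sq_abs y.im]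
    nlinarith
  refine H ⟨y.re, |y.im|⟩ y1 k' G (Ng.box_le (sub_pos.2 y1) R1 ha.le W) fun z hz => ?_
  rcases abs_cases y.im with q | q
  · have e : (⟨y.re, |y.im|⟩ : ℂ) = y := Complex.ext rfl q.1
    exact (Cm z (by rw [e] at hz; rwa [q.1])).symm
  · have e : (⟨y.re, |y.im|⟩ : ℂ) = starRingEnd ℂ y := Complex.ext rfl (by simp [q.1])
    have m : starRingEnd ℂ z ∈ ball y ((r - |y.im|) / 8) := by
      rw [mem_ball, ← Complex.dist_conj_conj, Complex.conj_conj, ← e]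
      exact hz
    have zs : z ∈ St r := by
      have := (Complex.abs_im_le_norm _).trans_lt (mem_ball_iff_norm.1 hz)
      simp only [Complex.sub_im] at this
      show |z.im| < r
      linarith [abs_sub_abs_le_abs_sub z.im |y.im|, abs_abs y.im]
    rw [← S.cjg z zs, ← S.cjQ z zs]
    exact (Cm _ m).symm

end Vale.Agent.P097S
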