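import Vale.Agent.P097S.Ncl
import Vale.Agent.P097S.Defs2
import Vale.Agent.P097S.Mb0

/-!
# P097S: no calm disc, two more forms
-/

set_option linter.all false

noncomputable section

namespace Vale.Agent.P097S

open Filter Topology Set Metric Vale.Agent.P097N Vale.Agent.P097L

theorem ncl3 : Spec_NCL3 := by
  intro θ h Q Y c r κ D S B P N A
  obtain ⟨e, d₁, e0, d0, H⟩ := Nc.top0 D B (G := fun s d => Kc r θ Q s 3 (d / 16) (max |A| 1))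
    (fun R R1 => by
      obtain ⟨M, d₀, dp, hM⟩ := P _ R (le_max_right |A| 1) R1
      exact ⟨M, d₀, dp, fun s d a b => hM s d a b.le⟩) N (le_max_right |A| 1)
  have r0 : 0 < r := by linarith [D.col.hη, D.kr]
  refine ⟨e, r * d₁, e0, by positivity, fun y hy k G Cm => ?_⟩
  obtain ⟨y1, k', q⟩ := Nc.half S hy k Cm
  have e4 := Nc.pow_max A
  have K : Kc r θ Q y.re 3 ((r - |y.im|) / 16) (max |A| 1) := fun z hz =>
    Nc.kc_mono (s' := 0) (a' := 0) G (by linarith) (by gcongr) (by linarith) hz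
  exact H ⟨y.re, |y.im|⟩ y1 k' (K.narrow (by linarith) (by norm_num)) K q

/-- the bound on a box from the wide cone -/
theorem Nc.wide {θ Q : ℂ → ℂ} {r s d R M : ℝ} {a : ℕ} (R1 : 1 ≤ R) (ha : 2 * R ≤ 2 ^ a)
    (d0 : 0 < d) (hr : 2 * R * d ≤ r) (K : Kc r θ Q s (4 ^ a) (d / 2 ^ a) M) :
    ∀ z ∈ Box r s d (2 * R), ‖deriv θ z‖ * d ≤ 1 + M ^ 4 * (2 ^ a) ^ 6 ∧
      ‖Q z‖ * d ^ 2 ≤ 1 + M ^ 4 * (2 ^ a) ^ 6 := by
  intro z ⟨z1, z2, z3⟩
  obtain ⟨T, hT⟩ : ∃ T : ℝ, T = 2 ^ a := ⟨_, rfl⟩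
  have e4 : (4 : ℝ) ^ a = T * T := by rw [hT, ← mul_pow]; norm_num
  rw [e4, ← hT] at K
  rw [← hT] at ha ⊢
  have T0 : 0 < T := by linarith
  have z4 : d / T < r - z.im := lt_of_le_of_lt (by gcongr) z2
  have t0 : 0 < r - z.im := lt_trans (by positivity) z4
  have z5 : d < (r - z.im) * T := (div_lt_iff₀ T0).1 z4
  have z6 : r - z.im ≤ T * d := by nlinarith
  obtain ⟨p1, p2⟩ := K z ⟨by linarith, z4, by nlinarith⟩
  have key : ∀ u v : ℝ, u ≤ v * T ^ 4 → v * (d / T) ≤ M ^ 4 * (r - z.im) →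
      u ≤ M ^ 4 * T ^ 6 := fun u v h1 h2 => by
    have h3 : v * d ≤ M ^ 4 * (T * d) * T := by
      rw [← mul_div_assoc, div_le_iff₀ T0] at h2
      exact h2.trans (by gcongr)
    have h4 : v ≤ M ^ 4 * T ^ 2 := le_of_mul_le_mul_right (by linarith) d0
    exact h1.trans ((mul_le_mul_of_nonneg_right h4 (by positivity)).trans_eq (by ring))
  have q1 := key ((‖deriv θ z‖ * d) ^ 4) _ (by rw [← mul_pow, mul_assoc]; gcongr) p1
  have q2 := key ((‖Q z‖ * d ^ 2) ^ 2) _ (by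
    rw [show T ^ 4 = (T ^ 2) ^ 2 by ring, ← mul_pow, mul_assoc, ← mul_pow]; gcongr) p2
  constructor
  · nlinarith [sq_nonneg ((‖deriv θ z‖ * d) ^ 2 - 1 / 2), sq_nonneg (‖deriv θ z‖ * d - 1 / 2)]
  · nlinarith [sq_nonneg (‖Q z‖ * d ^ 2 - 1 / 2)]

theorem ncl2 : Spec_NCL2 := by
  intro θ h Q Y c r κ D S B N A A1
  obtain ⟨R, R1, H⟩ := Nc.top1 D B N A1
  obtain ⟨a, ha⟩ := pow_unbounded_of_one_lt (2 * R) (show (1 : ℝ) < 2 by norm_num)
  refine ⟨a, fun M => ?_⟩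
  obtain ⟨e, d₁, e0, d0, H⟩ := H (1 + M ^ 4 * (2 ^ a) ^ 6)
  have r0 : 0 < r := by linarith [D.col.hη, D.kr]
  refine ⟨e, r * min d₁ (r / (2 * R)), e0, by positivity, fun y hy k G W Cm => ?_⟩
  obtain ⟨y1, k', q⟩ := Nc.half S hy k Cm
  obtain ⟨k1, k2⟩ := lt_min_iff.1 k'
  rw [lt_div_iff₀ (by positivity)] at k2
  exact H ⟨y.re, |y.im|⟩ y1 k1 G (Nc.wide R1 ha.le (sub_pos.2 y1) (by linarith) W) q

end Vale.Agent.P097S
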