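import Vale.Agent.P097S.AsmM
import Vale.Agent.P097S.Cb
import Vale.Agent.P097S.Ncl23
import Vale.Agent.P097M.All
import Vale.Agent.P097K.Core2
import Vale.Agent.P097Top.Lit2

/-!
# P097S: closed terms
-/

set_option linter.all false

namespace Vale.Agent.P097S

open Vale.Agent.P097 Vale.Agent.P097T Vale.Agent.P097Top

theorem lipm' : Spec_LIPM :=
  lipm rl germ (lf2f rl germ) (sup2 rl germ (lf2f rl germ)) (tube rl germ) uw' natb (two germ)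

theorem ne' : Spec_NE :=
  asmE (y0 rl) (sup2 rl germ (lf2f rl germ)) (leaf rl (lf2f rl germ) wr) noreg' cb P097M.h2 ncl2
    P097K.core2

theorem mv' : Spec_MV := asmM (y0 rl) cb lipm' ne'

open Vale.Agent.P097B.Arc

theorem litM (POLY : P097E.Spec_POLY) : ∃ k : ℕ, ∀ (Ω : Set ℂ) (L : ℝ) (Γ : ℝ → ℂ),
    Table Ω L Γ → Filled L Γ → IsEllipse Ω ∨
    ∃ (p : ℝ → ℝ) (c R : ℝ) (P : ℂ → ℂ), (∀ x, AnalyticAt ℝ p x) ∧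
      (∀ x, p (x + 1) = p x + 2 * Real.pi) ∧ (∀ x, 0 < deriv p x) ∧
      (∀ x, (supp Ω (p x) + deriv (deriv (supp Ω)) (p x)) * deriv p x ^ 3 = c) ∧
      0 < R ∧ DifferentiableOn ℂ P {y | |y.im| < R} ∧ (∀ x : ℝ, P x = p x) ∧
      (∀ (y₀ : ℂ) (r : ℝ) (P' : ℂ → ℂ), |y₀.im| = R → 0 < r →
        DifferentiableOn ℂ P' ({y | |y.im| < R} ∪ Metric.ball y₀ r) → ¬ ∀ x : ℝ, P' x = p x) ∧
      (∃ C : ℝ, ∀ y : ℂ, |y.im| < R → ‖deriv P y‖ * (R - |y.im|) ^ k ≤ C ∧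
        ‖deriv (deriv (deriv P)) y‖ * (R - |y.im|) ^ (2 * k) ≤ C * ‖deriv P y‖) ∧
      ¬ ∃ a C e : ℝ, 0 < a ∧ 0 < e ∧ ∀ d, 0 < d → d < e → ∃ s : ℝ, ∀ y : ℂ, d < R - y.im →
        R - y.im < e → |y.re - s| < a * (R - y.im) →
        ‖deriv P y‖ ^ 4 * (R - y.im) ^ 3 * d ≤ C ∧
        ‖deriv (deriv (deriv P)) y‖ ^ 2 * (R - y.im) ^ 3 * d ≤ C * ‖deriv P y‖ ^ 2 := by
  obtain ⟨k, hk⟩ := POLY
  refine ⟨k, fun Ω L Γ T F => or_iff_not_imp_left.2 fun n => ?_⟩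
  obtain ⟨hT, hI⟩ := intBd T F
  obtain ⟨ε, c, r, ψ, δ, θ, H, Q, N, hL, A, C, B⟩ := base hT hI fun m => n ((dict T).2.2.2 m)
  obtain ⟨κ, Y, S, -, k2, -⟩ := y0 rl _ ε ψ δ r c θ H Q N C A
  obtain ⟨D, hD⟩ := hk r c κ θ H Q Y C S k2
  refine ⟨_, c, r, θ, hL.an, hL.per, hL.pos, hL.eq, C.rpos, C.dθ, fun x => (A x).1,
    natb_lit A C B, ⟨D, fun y m => ⟨(hD y m).1, ?_⟩⟩,
    fun K => mv' _ ε ψ δ r c θ H Q N C A B (mov_of C K)⟩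
  rw [C.ode y m, norm_mul, mul_right_comm]
  exact mul_le_mul_of_nonneg_right (hD y m).2 (norm_nonneg _)

end Vale.Agent.P097S
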