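import Vale.Agent.P097S.Defs
import Vale.Agent.P097Top.Defs

/-!
# P097S: the top statements
-/

set_option linter.all false

noncomputable section

namespace Vale.Agent.P097S

open Filter Topology Set Metric Complex Vale.Agent.P097 Vale.Agent.P097T Vale.Agent.P097Top

/-- STOLZ: a chart over one cone at every depth gives the loss `C |u|` on the real leaves -/
def Spec_LIP : Prop := ∀ (h : ℝ → ℝ) (ε : ℝ) (ψ δ : ℝ × ℝ → ℝ) (r c κ : ℝ) (θ H Q : ℂ → ℂ)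
  (Y : ℂ × ℂ → ℂ), Gm.NF h ε ψ δ → Cur r c θ H Q → Agr h ψ θ H → NatB r θ → Sol0 θ H κ Y →
  κ ≤ ε → 2 * κ ≤ r → (∀ x w : ℝ, |w| < κ → θ (Y (x, w)) = (ψ (x, w) : ℝ)) →
  CB θ H Q Y r κ → Stz r θ Q → Lip Y r κ

/-- the case of bounded critical growth in one Stolz angle -/
def Spec_ST : Prop := ∀ (h : ℝ → ℝ) (ε : ℝ) (ψ δ : ℝ × ℝ → ℝ) (r c : ℝ) (θ H Q : ℂ → ℂ),
  Gm.NF h ε ψ δ → Cur r c θ H Q → Agr h ψ θ H → NatB r θ → Stz r θ Q → False

/-- the assembly -/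
def Spec_ASM : Prop := Spec_CB → Spec_LIP → Spec_H2 → Spec_NCL → Spec_BARR → Spec_CORE2 → Spec_ST

end Vale.Agent.P097S
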